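/-
Row 239 (S0475), package HIL, leaf HIL.basic (owner helper82).
Statements `hil_numberField`, `hil_exists_over`, `hil_over_unique`, `hil_normAt`, `hil_exists_above`, `hil_below_isMaximal`,
`hil_finite_over`, `hil_inert_le_decomp`, `hil_frob_mem_decomp`, `hil_frob_unique`, `hil_frob_mul_inert` of `Iface.lean`,
here with prefix `hbas_` (same statements), and leaf HIL.conj: `hil_normAt_conj`, `hil_frob_conj`, `hil_decomp_conj`,
`hil_inert_conj`, `hil_over_smul` (last section).
-/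
import Claimed.Agent.R239.Defs

set_option autoImplicit false

namespace Claimed.Agent.R239

open NumberField
open scoped Pointwise

section General

variable {F E : Type*} [Field F] [Field E] [Algebra F E]

/-- Every prime of `E` lies over a rational prime. -/
theorem hbas_exists_over (P : Ideal (𝓞 E)) [P.IsMaximal] : ∃ p : ℕ, p.Prime ∧ Over P p := by
  have hmax : (P.comap (algebraMap ℤ (𝓞 E))).IsMaximal := Ideal.isMaximal_comap_of_isIntegral_of_isMaximal P
  set I := P.comap (algebraMap ℤ (𝓞 E)) with hI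
  have hne : I ≠ ⊥ := Ring.ne_bot_of_isMaximal_of_not_isField hmax Int.not_isField
  have hprime : Prime (Submodule.IsPrincipal.generator I) :=
    Submodule.IsPrincipal.prime_generator_of_isPrime I hne
  refine ⟨(Submodule.IsPrincipal.generator I).natAbs, Int.prime_iff_natAbs_prime.1 hprime, ?_⟩
  have hmem : (((Submodule.IsPrincipal.generator I).natAbs : ℕ) : ℤ) ∈ I := by
    rw [Submodule.IsPrincipal.mem_iff_generator_dvd I]
    exact Int.dvd_natAbs_self
  have := Ideal.mem_comap.1 hmem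
  simpa [Over] using this

theorem hbas_over_unique (P : Ideal (𝓞 E)) [hP : P.IsMaximal] {p q : ℕ} (hp : p.Prime) (hq : q.Prime)
    (h : Over P p) (h' : Over P q) : p = q := by
  by_contra hne
  have hcop : Nat.Coprime p q := (Nat.coprime_primes hp hq).2 hne
  obtain ⟨a, b, hab⟩ := Nat.isCoprime_iff_coprime.2 hcop
  apply hP.ne_top
  rw [Ideal.eq_top_iff_one]
  have h1 : ((a : 𝓞 E) * (p : 𝓞 E) + (b : 𝓞 E) * (q : 𝓞 E)) = 1 := by exact_mod_cast congrArg (Int.cast : ℤ → 𝓞 E) hab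
  rw [← h1]
  exact P.add_mem (P.mul_mem_left _ h) (P.mul_mem_left _ h')

/-- Primes of `M_U` extend to `E`. -/
theorem hbas_exists_above (U : Subgroup Gal(E/F)) (𝔭 : Ideal (𝓞 (fld U))) [𝔭.IsMaximal] :
    ∃ P : Ideal (𝓞 E), P.IsMaximal ∧ below U P = 𝔭 := by
  apply Ideal.exists_ideal_over_maximal_of_isIntegral 𝔭
  rw [RingOfIntegers.ker_algebraMap_eq_bot]
  exact bot_le

theorem hbas_below_isMaximal (U : Subgroup Gal(E/F)) (P : Ideal (𝓞 E)) [P.IsMaximal] :
    (below U P).IsMaximal :=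
  Ideal.isMaximal_comap_of_isIntegral_of_isMaximal P

theorem hbas_inert_le_decomp (P : Ideal (𝓞 E)) : inert F P ≤ decomp F P :=
  Ideal.inertia_le_stabilizer P

theorem hbas_mem_inert_iff {P : Ideal (𝓞 E)} {g : Gal(E/F)} :
    g ∈ inert F P ↔ ∀ y : 𝓞 E, g • y - y ∈ P := Iff.rfl

theorem hbas_normAt_ne_zero {U : Subgroup Gal(E/F)} {P : Ideal (𝓞 E)} [hP : P.IsMaximal]
    {σ : Gal(E/F)} (h : IsFrob U P σ) : normAt U P ≠ 0 := by
  intro h0
  have h1 := h.2 0
  rw [h0, pow_zero, smul_zero, zero_sub] at h1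
  exact hP.ne_top ((Ideal.eq_top_iff_one P).2 (by simpa using P.neg_mem h1))

theorem hbas_frob_mem_decomp {U : Subgroup Gal(E/F)} {P : Ideal (𝓞 E)} [hP : P.IsMaximal]
    {σ : Gal(E/F)} (h : IsFrob U P σ) : σ ∈ decomp F P := by
  have hN := hbas_normAt_ne_zero h
  have hle : P ≤ σ⁻¹ • P := by
    intro y hy
    rw [Ideal.mem_inv_pointwise_smul_iff]
    have h1 := h.2 y
    have h2 : y ^ normAt U P ∈ P := Ideal.pow_mem_of_mem P hy _ (Nat.pos_of_ne_zero hN)
    have := P.add_mem h1 h2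
    simpa using this
  have hne : σ⁻¹ • P ≠ ⊤ := (Ideal.IsPrime.smul (I := P) σ⁻¹).ne_top
  have heq : P = σ⁻¹ • P := hP.eq_of_le hne hle
  rw [MulAction.mem_stabilizer_iff]
  conv_lhs => rw [heq]
  rw [smul_inv_smul]

/-- Frobenius lifts are unique modulo inertia. -/
theorem hbas_frob_unique {U : Subgroup Gal(E/F)} {P : Ideal (𝓞 E)} [P.IsMaximal]
    {σ σ' : Gal(E/F)} (h : IsFrob U P σ) (h' : IsFrob U P σ') : σ⁻¹ * σ' ∈ inert F P := by
  rw [hbas_mem_inert_iff]
  intro y
  have hσ : σ • P = P := hbas_frob_mem_decomp h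
  have h1 : σ' • y - σ • y ∈ P := by
    have := P.sub_mem (h'.2 y) (h.2 y)
    simpa using this
  rw [← hσ, Ideal.mem_pointwise_smul_iff_inv_smul_mem] at h1
  simpa [smul_sub, mul_smul] using h1

theorem hbas_frob_mul_inert {U : Subgroup Gal(E/F)} {P : Ideal (𝓞 E)} [P.IsMaximal]
    {σ i : Gal(E/F)} (h : IsFrob U P σ) (hi : i ∈ inert F P ⊓ U) : IsFrob U P (σ * i) := by
  refine ⟨U.mul_mem h.1 hi.2, fun y => ?_⟩
  have hσ : σ • P = P := hbas_frob_mem_decomp h
  have h1 : σ • (i • y - y) ∈ P := by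
    rw [← hσ]
    exact Ideal.smul_mem_pointwise_smul σ _ P (hbas_mem_inert_iff.1 hi.1 y)
  have := P.add_mem h1 (h.2 y)
  simpa [smul_sub, mul_smul] using this

end General

section NumberField

variable {F E : Type*} [Field F] [NumberField F] [Field E] [Algebra F E] [IsGalois F E]

/-- `M_U` is a number field. -/
theorem hbas_numberField (U : Subgroup Gal(E/F)) (hU : IsOpen (U : Set Gal(E/F))) :
    NumberField (fld U) := by
  have hcl : IsClosed (U : Set Gal(E/F)) := U.isClosed_of_isOpen hU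
  have hfix : (fld U).fixingSubgroup = U := InfiniteGalois.fixingSubgroup_fixedField ⟨U, hcl⟩
  have hfin : FiniteDimensional F (fld U) := by
    rw [← InfiniteGalois.isOpen_iff_finite, hfix]
    exact hU
  exact NumberField.of_module_finite F (fld U)

/-- `N v` is a positive power of the residue characteristic, of exponent `≤ [M_U : ℚ]`. -/
theorem hbas_normAt (U : Subgroup Gal(E/F)) (hU : IsOpen (U : Set Gal(E/F)))
    (P : Ideal (𝓞 E)) [P.IsMaximal] {p : ℕ} (hp : p.Prime) (h : Over P p) :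
    ∃ f : ℕ, 0 < f ∧ f ≤ Module.finrank ℚ (fld U) ∧ normAt U P = p ^ f := by
  have := hbas_numberField U hU
  have hmax := hbas_below_isMaximal U P
  have hnorm : normAt U P = Ideal.absNorm (below U P) := by
    rw [Ideal.absNorm_apply, Submodule.cardQuot_apply]
    rfl
  have hmem : (p : 𝓞 (fld U)) ∈ below U P := by
    rw [Ideal.mem_comap, map_natCast]
    exact h
  have hle : Ideal.span {(p : 𝓞 (fld U))} ≤ below U P := (Ideal.span_singleton_le_iff_mem _).2 hmem
  have hdvd := Ideal.absNorm_dvd_absNorm_of_le hle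
  have hspan : Ideal.absNorm (Ideal.span {(p : 𝓞 (fld U))}) = p ^ Module.finrank ℚ (fld U) := by
    rw [Ideal.absNorm_span_singleton, ← RingOfIntegers.rank]
    have : (p : 𝓞 (fld U)) = algebraMap ℤ (𝓞 (fld U)) (p : ℤ) := by simp
    rw [this, Algebra.norm_algebraMap, Int.natAbs_pow, Int.natAbs_natCast]
  rw [hspan] at hdvd
  obtain ⟨f, hf, hfeq⟩ := (Nat.dvd_prime_pow hp).1 hdvd
  refine ⟨f, ?_, hf, hnorm.trans hfeq⟩
  rcases Nat.eq_zero_or_pos f with rfl | hpos
  · rw [pow_zero, Ideal.absNorm_eq_one_iff] at hfeq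
    exact absurd hfeq hmax.ne_top
  · exact hpos

/-- Only finitely many primes of `M_U` lie over a rational prime. -/
theorem hbas_finite_over (U : Subgroup Gal(E/F)) (hU : IsOpen (U : Set Gal(E/F))) (p : ℕ)
    (hp : p.Prime) :
    {𝔭 : Ideal (𝓞 (fld U)) | ∃ P : Ideal (𝓞 E), P.IsMaximal ∧ Over P p ∧ below U P = 𝔭}.Finite := by
  have := hbas_numberField U hU
  refine (Ideal.finite_setOfPred_absNorm_le (S := 𝓞 (fld U)) (p ^ Module.finrank ℚ (fld U))).subset ?_
  rintro 𝔭 ⟨P, hP, hover, rfl⟩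
  obtain ⟨f, -, hf, hfeq⟩ := hbas_normAt U hU P hp hover
  have hnorm : normAt U P = Ideal.absNorm (below U P) := by
    rw [Ideal.absNorm_apply, Submodule.cardQuot_apply]
    rfl
  show Ideal.absNorm (below U P) ≤ _
  rw [← hnorm, hfeq]
  exact Nat.pow_le_pow_right hp.pos hf

end NumberField

/-! ### HIL.conj : transport of structure by `g ∈ Gal(E/F)` -/

section Conj

variable {F E : Type*} [Field F] [Field E] [Algebra F E]

theorem hbas_over_smul {P : Ideal (𝓞 E)} {p : ℕ} (h : Over P p) (g : Gal(E/F)) :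
    Over (g • P) p := by
  have := Ideal.smul_mem_pointwise_smul g _ P h
  have h2 : g • ((p : ℕ) : 𝓞 E) = (p : 𝓞 E) := map_natCast (MulSemiringAction.toRingHom Gal(E/F) (𝓞 E) g) p
  rwa [h2] at this

theorem hbas_mem_conj_smul {U : Subgroup Gal(E/F)} {g v : Gal(E/F)} :
    v ∈ MulAut.conj g • U ↔ g⁻¹ * v * g ∈ U := by
  rw [Subgroup.mem_pointwise_smul_iff_inv_smul_mem, ← map_inv, MulAut.smul_def, MulAut.conj_apply, inv_inv]

theorem hbas_decomp_conj (P : Ideal (𝓞 E)) (g : Gal(E/F)) :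
    decomp F (g • P) = MulAut.conj g • decomp F P := by
  ext v
  rw [hbas_mem_conj_smul, MulAction.mem_stabilizer_iff, MulAction.mem_stabilizer_iff, mul_smul, mul_smul,
    inv_smul_eq_iff]

theorem hbas_inert_conj (P : Ideal (𝓞 E)) (g : Gal(E/F)) :
    inert F (g • P) = MulAut.conj g • inert F P := by
  ext v
  rw [hbas_mem_conj_smul, hbas_mem_inert_iff, hbas_mem_inert_iff]
  constructor
  · intro h y
    have h1 := h (g • y)
    rw [Ideal.mem_pointwise_smul_iff_inv_smul_mem] at h1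
    simpa [smul_sub, mul_smul] using h1
  · intro h y
    have h1 := h (g⁻¹ • y)
    rw [Ideal.mem_pointwise_smul_iff_inv_smul_mem]
    simpa [smul_sub, mul_smul] using h1

theorem hbas_map_mem_fld {U : Subgroup Gal(E/F)} (g : Gal(E/F)) {x : E} (hx : x ∈ fld U) :
    g x ∈ fld (MulAut.conj g • U) := by
  rw [IntermediateField.mem_fixedField_iff] at hx ⊢
  intro v hv
  rw [hbas_mem_conj_smul] at hv
  have := hx _ hv
  simp only [AlgEquiv.mul_apply] at this
  have h2 := congrArg g this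
  simpa using h2

theorem hbas_inv_map_mem_fld {U : Subgroup Gal(E/F)} (g : Gal(E/F)) {x : E}
    (hx : x ∈ fld (MulAut.conj g • U)) : g⁻¹ x ∈ fld U := by
  rw [IntermediateField.mem_fixedField_iff] at hx ⊢
  intro u hu
  have hv : g * u * g⁻¹ ∈ MulAut.conj g • U := by
    rw [hbas_mem_conj_smul]
    simpa [mul_assoc] using hu
  have := hx _ hv
  simp only [AlgEquiv.mul_apply] at this
  have h2 := congrArg (fun z => (g⁻¹ : Gal(E/F)) z) this
  have h3 : ∀ z : E, (g⁻¹ : Gal(E/F)) (g z) = z := fun z => by simp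
  simp only [h3] at h2
  exact h2

/-- `g : M_U ≃ M_{g U g⁻¹}`. -/
def hbasFldEquiv (U : Subgroup Gal(E/F)) (g : Gal(E/F)) : fld U ≃+* fld (MulAut.conj g • U) where
  toFun x := ⟨g x.1, hbas_map_mem_fld g x.2⟩
  invFun y := ⟨g⁻¹ y.1, hbas_inv_map_mem_fld g y.2⟩
  left_inv x := by
    apply Subtype.ext
    show g⁻¹ (g x.1) = x.1
    simp
  right_inv y := by
    apply Subtype.ext
    show g (g⁻¹ y.1) = y.1
    simp
  map_mul' x y := by
    apply Subtype.ext
    show g (x.1 * y.1) = g x.1 * g y.1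
    simp
  map_add' x y := by
    apply Subtype.ext
    show g (x.1 + y.1) = g x.1 + g y.1
    simp

theorem hbas_normAt_conj (U : Subgroup Gal(E/F)) (P : Ideal (𝓞 E)) (g : Gal(E/F)) :
    normAt (MulAut.conj g • U) (g • P) = normAt U P := by
  unfold normAt
  symm
  refine Nat.card_congr (Ideal.quotientEquiv _ _ (RingOfIntegers.mapRingEquiv (hbasFldEquiv U g)) ?_).toEquiv
  have hmap : Ideal.map ((RingOfIntegers.mapRingEquiv (hbasFldEquiv U g) : 𝓞 (fld U) ≃+* _) :
      𝓞 (fld U) →+* 𝓞 (fld (MulAut.conj g • U))) (below U P)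
      = Ideal.comap (RingOfIntegers.mapRingEquiv (hbasFldEquiv U g)).symm (below U P) :=
    (Ideal.comap_symm _).symm
  rw [hmap]
  ext y
  rw [Ideal.mem_comap, Ideal.mem_comap, Ideal.mem_comap, Ideal.mem_pointwise_smul_iff_inv_smul_mem]
  have : algebraMap (𝓞 (fld U)) (𝓞 E) ((RingOfIntegers.mapRingEquiv (hbasFldEquiv U g)).symm y)
      = g⁻¹ • algebraMap (𝓞 (fld (MulAut.conj g • U))) (𝓞 E) y := by
    apply RingOfIntegers.ext
    rfl
  rw [← this]

theorem hbas_frob_conj {U : Subgroup Gal(E/F)} {P : Ideal (𝓞 E)} {σ : Gal(E/F)}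
    (h : IsFrob U P σ) (g : Gal(E/F)) :
    IsFrob (MulAut.conj g • U) (g • P) (g * σ * g⁻¹) := by
  refine ⟨?_, fun y => ?_⟩
  · rw [hbas_mem_conj_smul]
    simpa [mul_assoc] using h.1
  · rw [hbas_normAt_conj, Ideal.mem_pointwise_smul_iff_inv_smul_mem]
    have := h.2 (g⁻¹ • y)
    simpa [smul_sub, mul_smul, smul_pow'] using this

end Conj

end Claimed.Agent.R239
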