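/-
Row 239 (S0475).  R239 / Tame / HilBase.lean  (owner: helper207).  BASE of Hilbert theory at the infinite level.
Prefix `hilb`.  Mathlib + Defs.lean only.  No sorry.

For an arbitrary Galois extension `E / K` of fields (infinite allowed), `𝓞 E` = integral closure of `ℤ`:
* `hilb_smulCommClass`, `hilb_isInvariant`, `hilb_continuousSMul` : what `Mathlib/RingTheory/Invariant/Profinite.lean` needs;
* `hilb_transitive`   : `Gal(E/K)` is transitive on the primes of `𝓞 E` above a prime of `𝓞 K`;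
* `hilb_stabilizerHom_surjective` : `D(P) → Aut(κ(P)/κ(p))` is onto;
* `hilb_key`          : a ring automorphism of `𝓞 E` fixing `P` and trivial on `κ(P ∩ L)` agrees mod `P` with an `h ∈ D_{Gal(E/L)}(P)`;
* `hilbToGal U : U →* Gal(E / fld U)` (bijective for closed `U`);
* `hilb_exists_frob`, `hilb_frob_pow_on_sub`, `hilb_ff` : Frobenius elements, procyclicity at finite levels.
-/
import Claimed.Agent.R239.Defs

set_option autoImplicit false

namespace Claimed.Agent.R239

open NumberField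
open scoped Pointwise

/-! ## 1. The action of `Gal(E/K)` on `𝓞 E` -/

section Base

variable (K E : Type*) [Field K] [Field E] [Algebra K E]

theorem hilb_coe_smul (g : Gal(E/K)) (x : 𝓞 E) : ((g • x : 𝓞 E) : E) = g (x : E) := rfl

theorem hilb_coe_algebraMap (x : 𝓞 K) :
    ((algebraMap (𝓞 K) (𝓞 E) x : 𝓞 E) : E) = algebraMap K E (x : K) := rfl

theorem hilb_smul_algebraMap (g : Gal(E/K)) (x : 𝓞 K) :
    g • algebraMap (𝓞 K) (𝓞 E) x = algebraMap (𝓞 K) (𝓞 E) x := by
  apply RingOfIntegers.ext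
  rw [hilb_coe_smul, hilb_coe_algebraMap, AlgEquiv.commutes]

instance hilb_smulCommClass : SMulCommClass Gal(E/K) (𝓞 K) (𝓞 E) where
  smul_comm g a b := by
    rw [Algebra.smul_def, Algebra.smul_def, smul_mul', hilb_smul_algebraMap]

theorem hilb_isInvariant [IsGalois K E] : Algebra.IsInvariant (𝓞 K) (𝓞 E) Gal(E/K) where
  isInvariant b hb := by
    have h1 : (b : E) ∈ Set.range (algebraMap K E) := by
      rw [InfiniteGalois.mem_range_algebraMap_iff_fixed]
      intro g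
      have := congrArg (fun y : 𝓞 E => (y : E)) (hb g)
      simpa [hilb_coe_smul] using this
    obtain ⟨k, hk⟩ := h1
    have h2 : IsIntegral ℤ k := by
      rw [← isIntegral_algebraMap_iff (algebraMap K E).injective, hk]
      exact b.2
    exact ⟨⟨k, h2⟩, RingOfIntegers.ext hk⟩

theorem hilb_stabilizer_isOpen [Algebra.IsIntegral K E] (x : 𝓞 E) :
    IsOpen (MulAction.stabilizer Gal(E/K) x : Set Gal(E/K)) := by
  convert stabilizer_isOpen_of_isIntegral (K := K) (x : E) using 2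
  ext g
  simp only [MulAction.mem_stabilizer_iff]
  constructor
  · intro h
    exact congrArg (fun y : 𝓞 E => (y : E)) h
  · intro h
    exact RingOfIntegers.ext h

theorem hilb_continuousSMul [Algebra.IsIntegral K E] [TopologicalSpace (𝓞 E)]
    [DiscreteTopology (𝓞 E)] : ContinuousSMul Gal(E/K) (𝓞 E) :=
  continuousSMul_iff_stabilizer_isOpen.2 (hilb_stabilizer_isOpen K E)

variable {E}

/-- `Gal(E/K)` permutes transitively the primes of `𝓞 E` above a prime of `𝓞 K`. -/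
theorem hilb_transitive [IsGalois K E] (P Q : Ideal (𝓞 E)) [P.IsPrime] [Q.IsPrime]
    (h : P.under (𝓞 K) = Q.under (𝓞 K)) : ∃ g : Gal(E/K), Q = g • P := by
  let _ : TopologicalSpace (𝓞 E) := ⊥
  have : DiscreteTopology (𝓞 E) := ⟨rfl⟩
  have := hilb_continuousSMul K E
  have := hilb_isInvariant K E
  exact Algebra.IsInvariant.exists_smul_of_under_eq_of_profinite (A := 𝓞 K) P Q h

/-- `D(P) → Aut(κ(P)/κ(p))` is onto. -/
theorem hilb_stabilizerHom_surjective [IsGalois K E] (p : Ideal (𝓞 K)) (P : Ideal (𝓞 E))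
    [P.IsPrime] [P.LiesOver p] :
    Function.Surjective (Ideal.Quotient.stabilizerHom P p Gal(E/K)) := by
  let _ : TopologicalSpace (𝓞 E) := ⊥
  have : DiscreteTopology (𝓞 E) := ⟨rfl⟩
  have := hilb_continuousSMul K E
  have := hilb_isInvariant K E
  exact Ideal.Quotient.stabilizerHom_surjective_of_profinite p P

/-- KEY LEMMA.  A ring automorphism `φ` of `𝓞 E` with `φ P = P` which is trivial on the residue field of `P ∩ K`
agrees modulo `P` with an element of the decomposition group of `P` in `Gal(E/K)`. -/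
theorem hilb_key [IsGalois K E] (P : Ideal (𝓞 E)) [P.IsPrime] (φ : 𝓞 E ≃+* 𝓞 E)
    (hφP : P = P.map (φ : 𝓞 E →+* 𝓞 E))
    (hφK : ∀ x : 𝓞 K, φ (algebraMap (𝓞 K) (𝓞 E) x) - algebraMap (𝓞 K) (𝓞 E) x ∈ P) :
    ∃ h : Gal(E/K), h • P = P ∧ ∀ y : 𝓞 E, φ y - h • y ∈ P := by
  let p : Ideal (𝓞 K) := P.under (𝓞 K)
  let σ : (𝓞 E ⧸ P) ≃ₐ[𝓞 K ⧸ p] (𝓞 E ⧸ P) :=
    { Ideal.quotientEquiv P P φ hφP with
      commutes' := by
        rintro ⟨x⟩
        exact (Ideal.Quotient.eq).2 (hφK x) }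
  obtain ⟨⟨h, hh⟩, hσ⟩ := hilb_stabilizerHom_surjective K p P σ
  refine ⟨h, hh, fun y => ?_⟩
  have h1 := DFunLike.congr_fun hσ (Ideal.Quotient.mk P y)
  rw [← Ideal.Quotient.eq]
  exact h1.symm

end Base

/-! ## 2. `U ≤ Gal(E/F)` versus `Gal(E / fld U)` -/

section Sub

variable {F E : Type*} [Field F] [Field E] [Algebra F E]

theorem hilb_le_fixingSubgroup (U : Subgroup Gal(E/F)) : U ≤ (fld U).fixingSubgroup :=
  (IntermediateField.le_iff_le _ _).mp le_rfl

/-- `U → Gal(E / M_U)`. -/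
noncomputable def hilbToGal (U : Subgroup Gal(E/F)) : U →* Gal(E/(fld U)) :=
  (IntermediateField.fixingSubgroupEquiv (fld U)).toMonoidHom.comp
    (Subgroup.inclusion (hilb_le_fixingSubgroup U))

@[simp] theorem hilbToGal_apply (U : Subgroup Gal(E/F)) (u : U) (x : E) :
    hilbToGal U u x = (u : Gal(E/F)) x := rfl

theorem hilbToGal_smul (U : Subgroup Gal(E/F)) (u : U) (x : 𝓞 E) :
    hilbToGal U u • x = (u : Gal(E/F)) • x := rfl

theorem hilbToGal_smul_ideal (U : Subgroup Gal(E/F)) (u : U) (P : Ideal (𝓞 E)) :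
    hilbToGal U u • P = (u : Gal(E/F)) • P := rfl

theorem hilbToGal_injective (U : Subgroup Gal(E/F)) : Function.Injective (hilbToGal U) := by
  intro u u' h
  apply Subtype.ext
  ext x
  exact DFunLike.congr_fun h x

theorem hilb_fixingSubgroup_fld [IsGalois F E] (U : Subgroup Gal(E/F))
    (hU : IsClosed (U : Set Gal(E/F))) : (fld U).fixingSubgroup = U :=
  InfiniteGalois.fixingSubgroup_fixedField ⟨U, hU⟩

theorem hilb_restrictScalars_mem [IsGalois F E] (U : Subgroup Gal(E/F))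
    (hU : IsClosed (U : Set Gal(E/F))) (g : Gal(E/(fld U))) : g.restrictScalars F ∈ U := by
  have h : g.restrictScalars F ∈ (fld U).fixingSubgroup :=
    ((IntermediateField.fixingSubgroupEquiv (fld U)).symm g).2
  rwa [hilb_fixingSubgroup_fld U hU] at h

theorem hilbToGal_surjective [IsGalois F E] (U : Subgroup Gal(E/F))
    (hU : IsClosed (U : Set Gal(E/F))) : Function.Surjective (hilbToGal U) := fun g =>
  ⟨⟨g.restrictScalars F, hilb_restrictScalars_mem U hU g⟩, by ext x; rfl⟩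

theorem hilb_isClosed_of_isOpen (U : Subgroup Gal(E/F)) (hU : IsOpen (U : Set Gal(E/F))) :
    IsClosed (U : Set Gal(E/F)) := Subgroup.isClosed_of_isOpen U hU

/-- `M_U` is finite over `F` for open `U`. -/
theorem hilb_finiteDimensional [IsGalois F E] (U : Subgroup Gal(E/F))
    (hU : IsOpen (U : Set Gal(E/F))) : FiniteDimensional F (fld U) := by
  rw [← InfiniteGalois.isOpen_iff_finite, hilb_fixingSubgroup_fld U (hilb_isClosed_of_isOpen U hU)]
  exact hU

theorem hilb_numberField [NumberField F] [IsGalois F E] (U : Subgroup Gal(E/F))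
    (hU : IsOpen (U : Set Gal(E/F))) : NumberField (fld U) := by
  have := hilb_finiteDimensional U hU
  exact NumberField.of_module_finite F (fld U)

end Sub

/-! ## 3. Frobenius elements -/

section Frob

/-- automorphisms of an extension of finite fields are powers of the Frobenius, seen in a big field. -/
theorem hilb_ff (k k' Ω : Type*) [Field k] [Fintype k] [Field k'] [Finite k'] [Field Ω]
    [Algebra k k'] [Algebra k' Ω] [Algebra k Ω] [IsScalarTower k k' Ω] (γ : Ω →ₐ[k] Ω) :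
    ∃ j : ℕ, ∀ x : k', γ (algebraMap k' Ω x) = (algebraMap k' Ω x) ^ (Fintype.card k ^ j) := by
  obtain ⟨n, hn⟩ := (FiniteField.bijective_frobeniusAlgHom_pow k k').2 (γ.restrictNormal k')
  refine ⟨n, fun x => ?_⟩
  rw [← AlgHom.restrictNormal_commutes, ← hn]
  simp only [AlgHom.coe_pow, FiniteField.coe_frobeniusAlgHom, pow_iterate, map_pow]

variable (K : Type*) {E : Type*} [Field K] [Field E] [Algebra K E]

instance hilb_under_isMaximal (P : Ideal (𝓞 E)) [P.IsMaximal] : (P.under (𝓞 K)).IsMaximal :=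
  Ideal.isMaximal_comap_of_isIntegral_of_isMaximal P

attribute [local instance] Ideal.Quotient.field in
/-- Frobenius elements exist. -/
theorem hilb_exists_frob [IsGalois K E] (P : Ideal (𝓞 E)) [P.IsMaximal]
    [Finite (𝓞 K ⧸ P.under (𝓞 K))] : ∃ σ : Gal(E/K), IsArithFrobAt (𝓞 K) σ P := by
  cases nonempty_fintype (𝓞 K ⧸ P.under (𝓞 K))
  have : Algebra.IsAlgebraic (𝓞 K ⧸ P.under (𝓞 K)) (𝓞 E ⧸ P) :=
    Algebra.IsIntegral.isAlgebraic
  obtain ⟨σ, hσ⟩ := hilb_stabilizerHom_surjective K (P.under (𝓞 K)) P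
    (FiniteField.frobeniusAlgEquivOfAlgebraic (𝓞 K ⧸ P.under (𝓞 K)) (𝓞 E ⧸ P))
  refine ⟨σ, fun x => ?_⟩
  rw [← Ideal.Quotient.eq, Nat.card_eq_fintype_card]
  exact DFunLike.congr_fun hσ (Ideal.Quotient.mk P x)

attribute [local instance] Ideal.Quotient.field in
/-- an element of the decomposition group acts on a finite residue field below as a power of the Frobenius. -/
theorem hilb_frob_pow_on_sub (M : Type*) [Field M] [Algebra K M] [Algebra M E] [IsScalarTower K M E]
    (P : Ideal (𝓞 E)) [P.IsMaximal] [Finite (𝓞 K ⧸ P.under (𝓞 K))] [Finite (𝓞 M ⧸ P.under (𝓞 M))]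
    (g : Gal(E/K)) (hg : g • P = P) :
    ∃ j : ℕ, ∀ x : 𝓞 M, g • (algebraMap (𝓞 M) (𝓞 E) x)
      - (algebraMap (𝓞 M) (𝓞 E) x) ^ (Nat.card (𝓞 K ⧸ P.under (𝓞 K)) ^ j) ∈ P := by
  cases nonempty_fintype (𝓞 K ⧸ P.under (𝓞 K))
  have hlo : (P.under (𝓞 M)).LiesOver (P.under (𝓞 K)) := ⟨by rw [Ideal.under_under]⟩
  have : IsScalarTower (𝓞 K ⧸ P.under (𝓞 K)) (𝓞 M ⧸ P.under (𝓞 M)) (𝓞 E ⧸ P) :=
    IsScalarTower.of_algebraMap_eq <| by
      rintro ⟨x⟩
      simp [Submodule.Quotient.quot_mk_eq_mk,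
        IsScalarTower.algebraMap_apply (𝓞 K) (𝓞 M ⧸ P.under (𝓞 M)) (𝓞 E ⧸ P)]
  obtain ⟨j, hj⟩ := hilb_ff (𝓞 K ⧸ P.under (𝓞 K)) (𝓞 M ⧸ P.under (𝓞 M)) (𝓞 E ⧸ P)
    (Ideal.Quotient.stabilizerHom P (P.under (𝓞 K)) Gal(E/K) ⟨g, hg⟩).toAlgHom
  refine ⟨j, fun x => ?_⟩
  rw [← Ideal.Quotient.eq, Nat.card_eq_fintype_card]
  exact hj (Ideal.Quotient.mk _ x)

end Frob

end Claimed.Agent.R239
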