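/-
Row 239 (S0475).  R239 / Tame / HilProf.lean  (owner: helper207).  HIL.profinite:
`hilp_transitive`, `hilp_exists_frob`, `hilp_decomp_closure` = `hil_transitive`, `hil_exists_frob`, `hil_decomp_closure`
of Iface.lean (same statements).  No sorry.
-/
import Claimed.Agent.R239.Tame.HilBase

set_option autoImplicit false

namespace Claimed.Agent.R239

open NumberField
open scoped Pointwise

variable {F E : Type*} [Field F] [NumberField F] [Field E] [Algebra F E] [IsGalois F E]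

theorem hilp_finite_quot (K : Type*) [Field K] [NumberField K] (p : Ideal (𝓞 K)) [p.IsMaximal] :
    Finite (𝓞 K ⧸ p) :=
  Ideal.finiteQuotientOfFreeOfNeBot p
    (Ring.ne_bot_of_isMaximal_of_not_isField ‹_› (RingOfIntegers.not_isField K))

omit [NumberField F] in
/-- `U` permutes transitively the primes of `E` above a prime of `M_U`. -/
theorem hilp_transitive (U : Subgroup Gal(E/F)) (hU : IsOpen (U : Set Gal(E/F)))
    (P Q : Ideal (𝓞 E)) [P.IsMaximal] [Q.IsMaximal] (h : below U P = below U Q) :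
    ∃ g ∈ U, g • P = Q := by
  obtain ⟨g, hg⟩ := hilb_transitive (fld U) P Q h
  exact ⟨g.restrictScalars F, hilb_restrictScalars_mem U (hilb_isClosed_of_isOpen U hU) g, hg.symm⟩

/-- Frobenius lifts exist. -/
theorem hilp_exists_frob (U : Subgroup Gal(E/F)) (hU : IsOpen (U : Set Gal(E/F)))
    (P : Ideal (𝓞 E)) [P.IsMaximal] : ∃ σ, IsFrob U P σ := by
  have := hilb_numberField U hU
  have := hilp_finite_quot (fld U) (P.under (𝓞 (fld U)))
  obtain ⟨σ, hσ⟩ := hilb_exists_frob (fld U) P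
  exact ⟨σ.restrictScalars F, hilb_restrictScalars_mem U (hilb_isClosed_of_isOpen U hU) σ,
    fun y => hσ y⟩

omit [NumberField F] [IsGalois F E] in
theorem hilp_frob_isArith {U : Subgroup Gal(E/F)} {P : Ideal (𝓞 E)} {σ : Gal(E/F)}
    (h : IsFrob U P σ) : IsArithFrobAt (𝓞 (fld U)) (hilbToGal U ⟨σ, h.1⟩) P := fun y => h.2 y

omit [NumberField F] [IsGalois F E] in
theorem hilp_frob_mem_decomp {U : Subgroup Gal(E/F)} {P : Ideal (𝓞 E)} [P.IsMaximal]
    {σ : Gal(E/F)} (h : IsFrob U P σ) : σ ∈ decomp F P := by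
  have h1 := (hilp_frob_isArith h).mem_stabilizer
  rw [MulAction.mem_stabilizer_iff] at h1 ⊢
  exact h1

omit [NumberField F] [IsGalois F E] in
theorem hilp_frob_pow {U : Subgroup Gal(E/F)} {P : Ideal (𝓞 E)} [P.IsMaximal] {σ : Gal(E/F)}
    (h : IsFrob U P σ) (j : ℕ) (y : 𝓞 E) : (σ ^ j) • y - y ^ (normAt U P ^ j) ∈ P := by
  induction j generalizing y with
  | zero => simp
  | succ j ih =>
    have h1 := ih (σ • y)
    have h2 : (σ • y) ^ (normAt U P ^ j) - (y ^ normAt U P) ^ (normAt U P ^ j) ∈ P :=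
      Ideal.mem_of_dvd P (sub_dvd_pow_sub_pow _ _ _) (h.2 y)
    have h3 := add_mem h1 h2
    rw [pow_succ, mul_smul, pow_succ', pow_mul]
    simpa using h3

omit [NumberField F] [IsGalois F E] in
theorem hilp_smul_mem_of_decomp {P : Ideal (𝓞 E)} {t : Gal(E/F)} (ht : t ∈ decomp F P) {y : 𝓞 E}
    (hy : y ∈ P) : t • y ∈ P := by
  have h1 : t • y ∈ t • P := Ideal.smul_mem_pointwise_smul t y P hy
  rwa [MulAction.mem_stabilizer_iff.1 ht] at h1

/-- finite level form of `hilp_decomp_closure`: `D_U(P) = ⟨σ⟩ I_U(P) D_V(P)`. -/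
theorem hilp_decomp_factor {U V : Subgroup Gal(E/F)} (hV : IsOpen (V : Set Gal(E/F))) (hVU : V ≤ U)
    {P : Ideal (𝓞 E)} [P.IsMaximal] {σ : Gal(E/F)} (h : IsFrob U P σ) {g : Gal(E/F)}
    (hg : g ∈ decomp F P ⊓ U) :
    ∃ (j : ℕ) (i v : Gal(E/F)), i ∈ inert F P ⊓ U ∧ v ∈ decomp F P ⊓ V ∧ g = σ ^ j * i * v := by
  have hU : IsOpen (U : Set Gal(E/F)) := Subgroup.isOpen_mono hVU hV
  have := hilb_numberField U hU
  have := hilb_numberField V hV
  have := hilp_finite_quot (fld U) (P.under (𝓞 (fld U)))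
  have := hilp_finite_quot (fld V) (P.under (𝓞 (fld V)))
  have hle : fld U ≤ fld V := fun x hx w => hx ⟨w.1, hVU w.2⟩
  let _ : Algebra (fld U) (fld V) := (IntermediateField.inclusion hle).toRingHom.toAlgebra
  have : IsScalarTower (fld U) (fld V) E := IsScalarTower.of_algebraMap_eq (fun _ => rfl)
  obtain ⟨j, hj⟩ := hilb_frob_pow_on_sub (fld U) (fld V) P (hilbToGal U ⟨g, hg.2⟩)
    (MulAction.mem_stabilizer_iff.1 hg.1)
  have hσD := hilp_frob_mem_decomp h
  set t : Gal(E/F) := (σ ^ j)⁻¹ * g with ht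
  have htD : t ∈ decomp F P := mul_mem (inv_mem (pow_mem hσD j)) hg.1
  have htU : t ∈ U := mul_mem (inv_mem (pow_mem h.1 j)) hg.2
  have htM : ∀ x : 𝓞 (fld V), t • algebraMap (𝓞 (fld V)) (𝓞 E) x - algebraMap (𝓞 (fld V)) (𝓞 E) x ∈ P := by
    intro x
    have h1 : g • algebraMap (𝓞 (fld V)) (𝓞 E) x - (σ ^ j) • algebraMap (𝓞 (fld V)) (𝓞 E) x ∈ P := by
      have := sub_mem (hj x) (hilp_frob_pow h j (algebraMap (𝓞 (fld V)) (𝓞 E) x))
      simpa [hilbToGal_smul, normAt] using this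
    have h2 := hilp_smul_mem_of_decomp (inv_mem (pow_mem hσD j)) h1
    rw [smul_sub, inv_smul_smul, ← mul_smul] at h2
    exact h2
  obtain ⟨h', hh'P, hh'⟩ := hilb_key (fld V) P (MulSemiringAction.toRingEquiv Gal(E/F) (𝓞 E) t)
    (MulAction.mem_stabilizer_iff.1 htD).symm htM
  have hvV : h'.restrictScalars F ∈ V :=
    hilb_restrictScalars_mem V (hilb_isClosed_of_isOpen V hV) h'
  refine ⟨j, t * (h'.restrictScalars F)⁻¹, h'.restrictScalars F, ⟨?_, ?_⟩, ⟨?_, hvV⟩, ?_⟩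
  · intro y
    have := hh' ((h'.restrictScalars F)⁻¹ • y)
    have e : h' • ((h'.restrictScalars F)⁻¹ • y) = y := smul_inv_smul (h'.restrictScalars F) y
    rw [e] at this
    rw [mul_smul]
    exact this
  · exact U.mul_mem htU (U.inv_mem (hVU hvV))
  · exact MulAction.mem_stabilizer_iff.2 hh'P
  · rw [ht]; group

/-- `D_U(P)` is topologically generated by a Frobenius lift and `I_U(P)`. -/
theorem hilp_decomp_closure {U : Subgroup Gal(E/F)} (hU : IsOpen (U : Set Gal(E/F)))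
    {P : Ideal (𝓞 E)} [P.IsMaximal] {σ : Gal(E/F)} (h : IsFrob U P σ) {g : Gal(E/F)}
    (hg : g ∈ decomp F P ⊓ U) :
    g ∈ closure ((Subgroup.zpowers σ ⊔ (inert F P ⊓ U) : Subgroup Gal(E/F)) : Set Gal(E/F)) := by
  rw [mem_closure_iff]
  intro O hO hgO
  have hO' : IsOpen ((fun x => g * x) ⁻¹' O) := hO.preimage (continuous_const.mul continuous_id)
  obtain ⟨N, hN⟩ := ProfiniteGrp.exist_openNormalSubgroup_sub_open_nhds_of_one hO'
    (by simpa using hgO)
  have hV : IsOpen (((N : Subgroup Gal(E/F)) ⊓ U : Subgroup Gal(E/F)) : Set Gal(E/F)) := by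
    rw [Subgroup.coe_inf]
    exact N.isOpen'.inter hU
  obtain ⟨j, i, v, hi, hv, hgv⟩ := hilp_decomp_factor hV inf_le_right h hg
  refine ⟨g * v⁻¹, hN (inv_mem hv.2.1), ?_⟩
  have e : g * v⁻¹ = σ ^ j * i := by rw [hgv]; group
  rw [e]
  exact mul_mem (Subgroup.mem_sup_left (pow_mem (Subgroup.mem_zpowers σ) j))
    (Subgroup.mem_sup_right hi)

end Claimed.Agent.R239
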