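/-
Row 239 (S0475), package HIL, leaf HIL.tower (owner helper82).
`htow_tower`, `htow_unram_cofinite` = `hil_tower`, `hil_unram_cofinite` of `Iface/HIL.lean`, and the four small statements
`hil_decomp_isClosed`, `hil_inert_isClosed`, `hil_comm_mem_inert`, `hil_inert_normal` (prefix `htow_`).
Uses helper207's `Tame/HilBase.lean`, `Tame/HilProf.lean`.
-/
import Claimed.Agent.R239.Tame.HilBasic
import Claimed.Agent.R239.Tame.HilProf

set_option autoImplicit false

namespace Claimed.Agent.R239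

open NumberField
open scoped Pointwise

/-! ### residue fields in a tower -/

attribute [local instance] Ideal.Quotient.field in
/-- Residue fields in a tower `K ⊆ M ⊆ E`: `N_M = N_K ^ f`, and `x ^ (N_K ^ j) = x` on the residue field of `M` forces `f ∣ j`. -/
theorem htow_residue (K : Type*) {E : Type*} [Field K] [Field E] [Algebra K E] (M : Type*) [Field M]
    [Algebra K M] [Algebra M E] [IsScalarTower K M E]
    (P : Ideal (𝓞 E)) [P.IsMaximal] [Finite (𝓞 K ⧸ P.under (𝓞 K))] [Finite (𝓞 M ⧸ P.under (𝓞 M))] :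
    ∃ f : ℕ, 0 < f ∧ Nat.card (𝓞 M ⧸ P.under (𝓞 M)) = Nat.card (𝓞 K ⧸ P.under (𝓞 K)) ^ f ∧
      ∀ j : ℕ, (∀ x : 𝓞 M, (algebraMap (𝓞 M) (𝓞 E) x) ^ (Nat.card (𝓞 K ⧸ P.under (𝓞 K)) ^ j)
        - algebraMap (𝓞 M) (𝓞 E) x ∈ P) → f ∣ j := by
  cases nonempty_fintype (𝓞 K ⧸ P.under (𝓞 K))
  have hlo : (P.under (𝓞 M)).LiesOver (P.under (𝓞 K)) := ⟨by rw [Ideal.under_under]⟩
  have hfin : Module.Finite (𝓞 K ⧸ P.under (𝓞 K)) (𝓞 M ⧸ P.under (𝓞 M)) := Module.Finite.of_finite
  refine ⟨Module.finrank (𝓞 K ⧸ P.under (𝓞 K)) (𝓞 M ⧸ P.under (𝓞 M)), Module.finrank_pos,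
    Module.natCard_eq_pow_finrank, fun j hj => ?_⟩
  rw [← FiniteField.orderOf_frobeniusAlgHom (𝓞 K ⧸ P.under (𝓞 K)) (𝓞 M ⧸ P.under (𝓞 M))]
  apply orderOf_dvd_of_pow_eq_one
  ext x
  obtain ⟨x, rfl⟩ := Ideal.Quotient.mk_surjective x
  simp only [AlgHom.coe_pow, FiniteField.coe_frobeniusAlgHom, pow_iterate, AlgHom.one_apply]
  rw [← map_pow, Ideal.Quotient.eq, Ideal.mem_comap, map_sub, map_pow, ← Nat.card_eq_fintype_card]
  exact hj x

section

variable {F E : Type*} [Field F] [NumberField F] [Field E] [Algebra F E] [IsGalois F E]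

/-- `hil_tower` of `Iface/HIL.lean`. -/
theorem htow_tower {U V : Subgroup Gal(E/F)} (hV : IsOpen (V : Set Gal(E/F))) (hVU : V ≤ U)
    {P : Ideal (𝓞 E)} [P.IsMaximal] {σ : Gal(E/F)} (h : IsFrob U P σ) :
    ∃ f : ℕ, 0 < f ∧ normAt V P = normAt U P ^ f ∧
      (∃ i ∈ inert F P ⊓ U, IsFrob V P (σ ^ f * i)) ∧
      ∀ j : ℕ, 0 < j → (∃ i ∈ inert F P ⊓ U, σ ^ j * i ∈ V) → f ∣ j := by
  have hU : IsOpen (U : Set Gal(E/F)) := Subgroup.isOpen_mono hVU hV
  have := hilb_numberField U hU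
  have := hilb_numberField V hV
  have := hilp_finite_quot (fld U) (P.under (𝓞 (fld U)))
  have := hilp_finite_quot (fld V) (P.under (𝓞 (fld V)))
  have hle : fld U ≤ fld V := fun x hx w => hx ⟨w.1, hVU w.2⟩
  let _ : Algebra (fld U) (fld V) := (IntermediateField.inclusion hle).toRingHom.toAlgebra
  have : IsScalarTower (fld U) (fld V) E := IsScalarTower.of_algebraMap_eq (fun _ => rfl)
  obtain ⟨f, hf0, hcard, hmin⟩ := htow_residue (fld U) (fld V) P
  have hσD : σ ∈ decomp F P := hbas_frob_mem_decomp h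
  refine ⟨f, hf0, hcard, ?_, ?_⟩
  · obtain ⟨τ, hτ⟩ := hilp_exists_frob V hV P
    refine ⟨(σ ^ f)⁻¹ * τ, ⟨?_, U.mul_mem (U.inv_mem (U.pow_mem h.1 f)) (hVU hτ.1)⟩, ?_⟩
    · show (σ ^ f)⁻¹ * τ ∈ inert F P
      rw [hbas_mem_inert_iff]
      intro y
      have h1 : τ • y - (σ ^ f) • y ∈ P := by
        have h2 := hτ.2 y
        have h3 := hilp_frob_pow h f y
        have h4 : normAt V P = normAt U P ^ f := hcard
        rw [h4] at h2
        have := P.sub_mem h2 h3
        simpa using this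
      have h5 := hilp_smul_mem_of_decomp (inv_mem (pow_mem hσD f)) h1
      rw [smul_sub, inv_smul_smul, ← mul_smul] at h5
      exact h5
    · rw [mul_inv_cancel_left]
      exact hτ
  · rintro j - ⟨i, hi, hjV⟩
    apply hmin
    intro x
    set X : 𝓞 E := algebraMap (𝓞 (fld V)) (𝓞 E) x with hX
    -- `σ ^ j * i` fixes `X`
    have hfix : (σ ^ j * i) • X = X := by
      apply RingOfIntegers.ext
      exact x.1.2 ⟨_, hjV⟩
    have h1 : (σ ^ j) • (i • X - X) ∈ P :=
      hilp_smul_mem_of_decomp (pow_mem hσD j) (hbas_mem_inert_iff.1 hi.1 X)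
    have h2 := hilp_frob_pow h j X
    rw [smul_sub, ← mul_smul, hfix] at h1
    have := P.add_mem h1 h2
    have h3 : X ^ normAt U P ^ j - X ∈ P := by
      have h4 := P.neg_mem this
      have e : -(X - σ ^ j • X + (σ ^ j • X - X ^ normAt U P ^ j)) = X ^ normAt U P ^ j - X := by ring
      rwa [e] at h4
    exact h3

/-! ### closedness, `D / I` abelian -/

omit [NumberField F] in
theorem htow_continuous_smul (y : 𝓞 E) (S : Set (𝓞 E)) : IsClosed {g : Gal(E/F) | g • y ∈ S} := by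
  let _ : TopologicalSpace (𝓞 E) := ⊥
  have : DiscreteTopology (𝓞 E) := ⟨rfl⟩
  have := hilb_continuousSMul F E
  have hc : Continuous fun g : Gal(E/F) => g • y := continuous_id.smul continuous_const
  exact (isClosed_discrete S).preimage hc

omit [NumberField F] in
/-- `hil_decomp_isClosed`. -/
theorem htow_decomp_isClosed (P : Ideal (𝓞 E)) [hP : P.IsMaximal] :
    IsClosed (decomp F P : Set Gal(E/F)) := by
  have : (decomp F P : Set Gal(E/F)) = ⋂ y ∈ P, {g : Gal(E/F) | g • y ∈ (P : Set (𝓞 E))} := by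
    ext g
    simp only [SetLike.mem_coe, MulAction.mem_stabilizer_iff, Set.mem_iInter, Set.mem_ofPred_eq]
    constructor
    · intro hg y hy
      rw [← hg]
      exact Ideal.smul_mem_pointwise_smul g y P hy
    · intro hg
      have hle : P ≤ g⁻¹ • P := fun y hy => Ideal.mem_inv_pointwise_smul_iff.2 (hg y hy)
      have hne : g⁻¹ • P ≠ ⊤ := (Ideal.IsPrime.smul (I := P) g⁻¹).ne_top
      have heq : P = g⁻¹ • P := hP.eq_of_le hne hle
      conv_lhs => rw [heq]
      rw [smul_inv_smul]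
  rw [this]
  exact isClosed_biInter fun y _ => htow_continuous_smul y _

omit [NumberField F] in
/-- `hil_inert_isClosed`. -/
theorem htow_inert_isClosed (P : Ideal (𝓞 E)) : IsClosed (inert F P : Set Gal(E/F)) := by
  have : (inert F P : Set Gal(E/F)) = ⋂ y : 𝓞 E, {g : Gal(E/F) | g • y ∈ {z : 𝓞 E | z - y ∈ P}} := by
    ext g
    simp only [SetLike.mem_coe, hbas_mem_inert_iff, Set.mem_iInter, Set.mem_ofPred_eq]
  rw [this]
  exact isClosed_iInter fun y => htow_continuous_smul y _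

omit [NumberField F] [IsGalois F E] in
/-- `hil_inert_normal`. -/
theorem htow_inert_normal (P : Ideal (𝓞 E)) {g h : Gal(E/F)}
    (hg : g ∈ decomp F P) (hh : h ∈ inert F P) : g * h * g⁻¹ ∈ inert F P := by
  have h1 : g * h * g⁻¹ ∈ MulAut.conj g • inert F P := by
    rw [hbas_mem_conj_smul]
    simpa [mul_assoc] using hh
  rw [← hbas_inert_conj, MulAction.mem_stabilizer_iff.1 hg] at h1
  exact h1

/-- an element of the decomposition group acts on a given integer as a power of the Frobenius. -/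
theorem htow_decomp_pow (P : Ideal (𝓞 E)) [P.IsMaximal] {g : Gal(E/F)} (hg : g ∈ decomp F P) (y : 𝓞 E) :
    ∃ a : ℕ, g • y - y ^ a ∈ P := by
  have hint : IsIntegral F (y : E) := Algebra.IsIntegral.isIntegral _
  have hfd : FiniteDimensional F (IntermediateField.adjoin F {(y : E)}) :=
    IntermediateField.adjoin.finiteDimensional hint
  have hnf : NumberField (IntermediateField.adjoin F {(y : E)}) := NumberField.of_module_finite F _
  have := hilp_finite_quot F (P.under (𝓞 F))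
  have := hilp_finite_quot (IntermediateField.adjoin F {(y : E)})
    (P.under (𝓞 (IntermediateField.adjoin F {(y : E)})))
  obtain ⟨j, hj⟩ := hilb_frob_pow_on_sub F (IntermediateField.adjoin F {(y : E)}) P g
    (MulAction.mem_stabilizer_iff.1 hg)
  let y' : 𝓞 (IntermediateField.adjoin F {(y : E)}) :=
    ⟨⟨(y : E), IntermediateField.mem_adjoin_simple_self F (y : E)⟩, by
      show IsIntegral ℤ _
      rw [← isIntegral_algebraMap_iff (algebraMap (IntermediateField.adjoin F {(y : E)}) E).injective]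
      exact y.2⟩
  have hy' : algebraMap (𝓞 (IntermediateField.adjoin F {(y : E)})) (𝓞 E) y' = y := RingOfIntegers.ext rfl
  have := hj y'
  rw [hy'] at this
  exact ⟨_, this⟩

/-- `hil_comm_mem_inert`: `D / I` is abelian. -/
theorem htow_comm_mem_inert (P : Ideal (𝓞 E)) [P.IsMaximal] {g h : Gal(E/F)}
    (hg : g ∈ decomp F P) (hh : h ∈ decomp F P) : g * h * g⁻¹ * h⁻¹ ∈ inert F P := by
  have key : ∀ z : 𝓞 E, (g * h) • z - (h * g) • z ∈ P := by
    intro z
    obtain ⟨a, ha⟩ := htow_decomp_pow P hg z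
    obtain ⟨b, hb⟩ := htow_decomp_pow P hh z
    -- `g h z ≡ (g z)^b ≡ z^(a b)`
    have h1 : g • (h • z - z ^ b) ∈ P := hilp_smul_mem_of_decomp hg hb
    have h2 : (g • z) ^ b - (z ^ a) ^ b ∈ P := Ideal.mem_of_dvd P (sub_dvd_pow_sub_pow _ _ _) ha
    have h3 : h • (g • z - z ^ a) ∈ P := hilp_smul_mem_of_decomp hh ha
    have h4 : (h • z) ^ a - (z ^ b) ^ a ∈ P := Ideal.mem_of_dvd P (sub_dvd_pow_sub_pow _ _ _) hb
    rw [smul_sub, smul_pow'] at h1 h3
    have h5 := P.sub_mem (P.add_mem h1 h2) (P.add_mem h3 h4)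
    have e : g • h • z - (g • z) ^ b + ((g • z) ^ b - (z ^ a) ^ b) - (h • g • z - (h • z) ^ a + ((h • z) ^ a - (z ^ b) ^ a))
        = (g * h) • z - (h * g) • z := by
      rw [mul_smul, mul_smul, ← pow_mul, ← pow_mul, mul_comm a b]
      ring
    rwa [e] at h5
  rw [hbas_mem_inert_iff]
  intro y
  have := key (g⁻¹ • h⁻¹ • y)
  simpa [mul_smul] using this

end

/-! ### almost all primes are unramified -/

/-- A nonzero integer of `E` lies in primes over finitely many rational primes only. -/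
theorem htow_finite_primes_of_mem {E : Type*} [Field E] (s : 𝓞 E) :
    {p : ℕ | p.Prime ∧ s ≠ 0 ∧ ∃ P : Ideal (𝓞 E), P.IsMaximal ∧ Over P p ∧ s ∈ P}.Finite := by
  by_cases hs : s = 0
  · simp [hs]
  have hne : (Ideal.span {s}).comap (algebraMap ℤ (𝓞 E)) ≠ ⊥ :=
    Ideal.comap_ne_bot_of_integral_mem hs (Ideal.mem_span_singleton_self s) (RingOfIntegers.isIntegral s)
  obtain ⟨c, hc, hc0⟩ := Submodule.exists_mem_ne_zero_of_ne_bot hne
  refine (Nat.divisors c.natAbs).finite_toSet.subset ?_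
  rintro p ⟨hp, -, P, hP, hover, hsP⟩
  have hcP : ((c : ℤ) : 𝓞 E) ∈ P := by
    have h1 : algebraMap ℤ (𝓞 E) c ∈ Ideal.span {s} := Ideal.mem_comap.1 hc
    have h2 : Ideal.span {s} ≤ P := (Ideal.span_singleton_le_iff_mem _).2 hsP
    simpa using h2 h1
  rw [Finset.mem_coe, Nat.mem_divisors]
  refine ⟨?_, by simpa using hc0⟩
  by_contra hnd
  have hnd' : ¬ (p : ℤ) ∣ c := fun h => hnd (Int.natCast_dvd.1 h)
  obtain ⟨a, b, hab⟩ := ((Nat.prime_iff_prime_int.1 hp).irreducible.coprime_iff_not_dvd).2 hnd'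
  apply hP.ne_top
  rw [Ideal.eq_top_iff_one]
  have h1 : ((a : 𝓞 E) * (p : 𝓞 E) + (b : 𝓞 E) * ((c : ℤ) : 𝓞 E)) = 1 := by
    exact_mod_cast congrArg (Int.cast : ℤ → 𝓞 E) hab
  rw [← h1]
  exact P.add_mem (P.mul_mem_left _ hover) (P.mul_mem_left _ hcP)

section

variable {F E : Type*} [Field F] [NumberField F] [Field E] [Algebra F E] [IsGalois F E]

/-- `hil_unram_cofinite` of `Iface/HIL.lean`.  (In fact `I(P) ≤ V` for almost all `p`.) -/
theorem htow_unram_cofinite (U V : Subgroup Gal(E/F)) (hV : IsOpen (V : Set Gal(E/F)))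
    (_hVU : V ≤ U) :
    {p : ℕ | p.Prime ∧ ∃ P : Ideal (𝓞 E), P.IsMaximal ∧ Over P p ∧ ¬ UnramIn U V P}.Finite := by
  classical
  have hnhds : (V : Set Gal(E/F)) ∈ nhds (1 : Gal(E/F)) := hV.mem_nhds V.one_mem
  rw [krullTopology_mem_nhds_one_iff] at hnhds
  obtain ⟨K', hK', hK'V⟩ := hnhds
  let b := Module.finBasis F K'
  have hchar : CharZero E := charZero_of_injective_algebraMap (algebraMap F E).injective
  have halgZF : Algebra.IsAlgebraic ℤ F :=
    (IsFractionRing.comap_isAlgebraic_iff (A := ℤ) (K := ℚ) (C := F)).2 inferInstance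
  have halg : Algebra.IsAlgebraic ℤ E := Algebra.IsAlgebraic.trans ℤ F E
  obtain ⟨m, hm0, hm⟩ :=
    Algebra.IsAlgebraic.exists_integral_multiples ℤ (Finset.univ.image fun i => (b i : E))
  let θ : Fin (Module.finrank F K') → 𝓞 E := fun i =>
    ⟨m • (b i : E), hm _ (Finset.mem_image_of_mem _ (Finset.mem_univ i))⟩
  have hθV : ∀ g : Gal(E/F), (∀ i, g • θ i = θ i) → g ∈ V := by
    intro g hg
    apply hK'V
    rw [SetLike.mem_coe, IntermediateField.mem_fixingSubgroup_iff]
    have hb : ∀ i, g (b i : E) = (b i : E) := by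
      intro i
      have h1 : g (m • (b i : E)) = m • (b i : E) := congrArg (fun z : 𝓞 E => (z : E)) (hg i)
      rw [map_zsmul] at h1
      exact smul_right_injective E hm0 h1
    intro x hx
    have hx' := b.sum_repr ⟨x, hx⟩
    have hx'' : x = ∑ i, b.repr ⟨x, hx⟩ i • (b i : E) := by
      have := congrArg (fun z : K' => (z : E)) hx'
      simp only [IntermediateField.coe_sum, IntermediateField.coe_smul] at this
      exact this.symm
    rw [hx'', map_sum]
    refine Finset.sum_congr rfl fun i _ => ?_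
    rw [Algebra.smul_def, map_mul, AlgEquiv.commutes, hb i]
  have hroot : ∀ (g : Gal(E/F)) i, g • θ i ∈ (minpoly ℤ (θ i)).rootSet (𝓞 E) := by
    intro g i
    rw [Polynomial.mem_rootSet]
    refine ⟨minpoly.ne_zero (RingOfIntegers.isIntegral _), ?_⟩
    exact minpoly.aeval_algHom ℤ (MulSemiringAction.toRingHom Gal(E/F) (𝓞 E) g).toIntAlgHom (θ i)
  refine (Set.finite_iUnion fun i => Set.Finite.biUnion
    (Polynomial.rootSet_finite (minpoly ℤ (θ i)) (𝓞 E)) fun η _ =>
      htow_finite_primes_of_mem (η - θ i)).subset ?_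
  rintro p ⟨hp, P, hP, hover, hram⟩
  obtain ⟨g, hg, hgV⟩ := SetLike.not_le_iff_exists.1 hram
  have hex : ∃ i, g • θ i ≠ θ i := by
    by_contra hcon
    push Not at hcon
    exact hgV (hθV g hcon)
  obtain ⟨i, hi⟩ := hex
  simp only [Set.mem_iUnion]
  exact ⟨i, g • θ i, hroot g i, hp, sub_ne_zero.2 hi, P, hP, hover, hbas_mem_inert_iff.1 hg.1 (θ i)⟩

end

end Claimed.Agent.R239
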