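/-
Row 239 (S0475), package HIL, leaf HIL.trivial_inter (owner helper82).
`hint_trivial_inter` = `hil_trivial_inter` of `Iface/HIL.lean`: GLUE from `lc_unique_prime` (LC/UQ.lean, pro-`ℓ` form),
`prof_lpart` (LC/PROF_b.lean, `ℓ`-part of an element), `solv_radClosed` and `htow_decomp_isClosed`.  No sorry in this file.
-/
import Claimed.Agent.R239.Tame.HilTower
import Claimed.Agent.R239.LC.UQ
import Claimed.Agent.R239.LC.PROF_b
import Claimed.Agent.R239.Glue.NoAbelian

set_option autoImplicit false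

namespace Claimed.Agent.R239

open NumberField Claims.C0403
open scoped Pointwise

/-- A nontrivial element of a profinite group has a nontrivial `ℓ`-part for some prime `ℓ`. -/
theorem hint_exists_lpart {G : Type*} [Group G] [TopologicalSpace G] [IsTopologicalGroup G] [CompactSpace G]
    [TotallyDisconnectedSpace G] [T2Space G] {g : G} (hg : g ≠ 1) :
    ∃ (ℓ : ℕ) (_ : Fact ℓ.Prime), ∃ τ ∈ lcCl g, τ ≠ 1 ∧ IsProL ℓ τ := by
  obtain ⟨W, hWn, hWo, hWs⟩ := prof_exists_normal (U := {g}ᶜ) isOpen_compl_singleton (by simpa using hg.symm)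
  have hgW : g ∉ W := fun h => hWs h rfl
  let q : G ⧸ W := (g : G ⧸ W)
  have hq : q ≠ 1 := by rwa [Ne, QuotientGroup.eq_one_iff]
  have hord : orderOf q ≠ 1 := by rwa [Ne, orderOf_eq_one_iff]
  obtain ⟨ℓ, hℓ, hdvd⟩ := Nat.exists_prime_and_dvd hord
  have hF : Fact ℓ.Prime := ⟨hℓ⟩
  obtain ⟨g', hg', g'', -, hgg, hpro, hpro'⟩ := prof_lpart ℓ g
  refine ⟨ℓ, hF, g', hg', ?_, hpro⟩
  rintro rfl
  rw [one_mul] at hgg
  obtain ⟨m, -, hcop, hmW⟩ := hpro' W hWo
  rw [← hgg] at hmW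
  have hqm : q ^ m = 1 := by
    rw [← QuotientGroup.mk_pow, QuotientGroup.eq_one_iff]
    exact hmW
  have h2 : ℓ ∣ m := hdvd.trans (orderOf_dvd_of_pow_eq_one hqm)
  exact hℓ.one_lt.ne' (hcop.symm.eq_one_of_dvd h2)

/-- `hil_trivial_inter` of `Iface/HIL.lean`. -/
theorem hint_trivial_inter {F E : Type} [Field F] [NumberField F] [Field E] [Algebra F E] [IsGalois F E]
    (hE : SolvablyClosed E) (P Q : Ideal (𝓞 E)) [P.IsMaximal] [Q.IsMaximal]
    {g : Gal(E/F)} (hg : g ≠ 1) (hP : g ∈ decomp F P) (hQ : g ∈ decomp F Q) : P = Q := by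
  have hchar : CharZero E := charZero_of_injective_algebraMap (algebraMap F E).injective
  have halg : Algebra.IsAlgebraic ℚ E := Algebra.IsAlgebraic.trans ℚ F E
  obtain ⟨ℓ, hℓ, τ, hτ, hτ1, hpro⟩ := hint_exists_lpart hg
  have hclP : lcCl g ≤ decomp F P :=
    Subgroup.topologicalClosure_minimal _ (by rwa [Subgroup.zpowers_le]) (htow_decomp_isClosed P)
  have hclQ : lcCl g ≤ decomp F Q :=
    Subgroup.topologicalClosure_minimal _ (by rwa [Subgroup.zpowers_le]) (htow_decomp_isClosed Q)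
  exact lc_unique_prime Q (solv_radClosed hE) hpro hτ1 P (hclQ hτ) (hclP hτ)

end Claimed.Agent.R239
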