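/-
Row 239 (S0475), package HIL+TAME (owner helper28).  File Tmb: small complements on `Gal(E/F)`, `𝓞 E`,
inertia.  AVAILABLE SORRY-FREE, USE THEM: Tame/HilBase (`hilb_*`: `hilb_transitive`, `hilb_key`,
`hilb_restrictScalars_mem`, ...), Tame/HilBasic (`hbas_*`), Tame/HilProf (`hilp_*`), Tame/HilTower (`htow_*`:
`htow_decomp_isClosed`, `htow_inert_isClosed`, `htow_inert_normal`, `htow_comm_mem_inert`), Glue/BaseChange (`bcR*`),
LC/VAL_a, LC/TC_a (`lcv`, `lc_val_*`), LC/PROF_a-d (`prof_*`), LC/Stab (`lcStab`, `lc_stab_isOpen`).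
Do NOT import Iface/* in the files of Tame/ (Iface/HIL and Iface/TAME import them).
-/
import Claimed.Agent.R239.Tame.HilBasic
import Claimed.Agent.R239.Tame.HilProf
import Claimed.Agent.R239.Tame.HilTower
import Claimed.Agent.R239.Glue.BaseChange
import Claimed.Agent.R239.LC.VAL_b
import Claimed.Agent.R239.LC.TC_a
import Claimed.Agent.R239.LC.Stab
import Claimed.Agent.R239.LC.PROF_b
import Claimed.Agent.R239.LC.PROF_c
import Claimed.Agent.R239.LC.PROF_d

set_option autoImplicit false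

namespace Claimed.Agent.R239

open NumberField
open scoped Pointwise

/-! ### The two instances required by `lcv`.  In a proof of a statement without them write
`have := tmb_charZero F E; have := tmb_algQ F E`. -/

theorem tmb_charZero (F E : Type*) [Field F] [NumberField F] [Field E] [Algebra F E] :
    CharZero E :=
  charZero_of_injective_algebraMap (algebraMap F E).injective

theorem tmb_algQ (F E : Type*) [Field F] [NumberField F] [Field E] [Algebra F E]
    [Algebra.IsAlgebraic F E] [CharZero E] : Algebra.IsAlgebraic ℚ E :=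
  Algebra.IsAlgebraic.trans ℚ F E

variable {F E : Type*} [Field F] [NumberField F] [Field E] [Algebra F E] [IsGalois F E]

/-! ### Generalities on `Gal(E/F)` acting on `E` -/

theorem tmb_mem_fld {U : Subgroup Gal(E/F)} {x : E} : x ∈ fld U ↔ ∀ g ∈ U, g x = x :=
  IntermediateField.mem_fixedField_iff _ _

/-- Galois correspondence for closed subgroups. -/
theorem tmb_mem_of_fixes {U : Subgroup Gal(E/F)} (hU : IsClosed (U : Set Gal(E/F)))
    {g : Gal(E/F)} (h : ∀ x ∈ fld U, g x = x) : g ∈ U := by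
  rw [← hilb_fixingSubgroup_fld U hU, IntermediateField.mem_fixingSubgroup_iff]
  exact h

/-- Every open subgroup contains the stabiliser `lcStab F x` of one element (it contains the fixing
subgroup of a finite extension `L / F` by definition of the Krull topology
(`krullTopology_mem_nhds_one_iff`); primitive element `Field.exists_primitive_element`). -/
theorem tmb_exists_stab_le (V : Subgroup Gal(E/F)) (hV : IsOpen (V : Set Gal(E/F))) :
    ∃ x : E, lcStab F x ≤ V := by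
  have hnhds : (V : Set Gal(E/F)) ∈ nhds (1 : Gal(E/F)) := hV.mem_nhds V.one_mem
  rw [krullTopology_mem_nhds_one_iff] at hnhds
  obtain ⟨L, hL, hLV⟩ := hnhds
  let pb := Field.powerBasisOfFiniteOfSeparable F L
  refine ⟨(pb.gen : E), fun g hg => hLV ?_⟩
  rw [SetLike.mem_coe, IntermediateField.mem_fixingSubgroup_iff]
  intro x hx
  have h1 : ((g : E ≃ₐ[F] E) : E →ₐ[F] E).comp L.val = L.val := by
    apply pb.algHom_ext
    exact hg
  exact DFunLike.congr_fun h1 ⟨x, hx⟩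

/-- Orbits are finite (`prof_exists_pow_mem` for the open subgroup `lcStab F x`). -/
theorem tmb_exists_pow_fix (g : Gal(E/F)) (x : E) : ∃ n : ℕ, 0 < n ∧ (g ^ n) x = x := by
  obtain ⟨m, hm, h⟩ := prof_exists_pow_mem g (lc_stab_isOpen (N := F) x)
  exact ⟨m, hm, h⟩

/-- `g ↦ g x` is locally constant. -/
theorem tmb_isOpen_setOf_apply (x : E) (S : Set E) : IsOpen {g : Gal(E/F) | g x ∈ S} := by
  rw [isOpen_iff_mem_nhds]
  intro g₀ hg₀
  have hopen : IsOpen {g : Gal(E/F) | g₀⁻¹ * g ∈ lcStab F x} :=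
    (lc_stab_isOpen (N := F) x).preimage (continuous_const.mul continuous_id)
  refine Filter.mem_of_superset (hopen.mem_nhds (by simp)) ?_
  intro g hg
  have h1 : (g₀⁻¹ * g) x = x := hg
  have h2 : g x = g₀ x := by
    have := congrArg g₀ h1
    simpa using this
  show g x ∈ S
  rw [h2]
  exact hg₀

/-- Elementwise criterion for pro-`ℓ` elements (`lc_stab_isOpen`, `tmb_exists_stab_le`). -/
theorem isProL_iff {ℓ : ℕ} {τ : Gal(E/F)} :
    IsProL ℓ τ ↔ ∀ x : E, ∃ k : ℕ, (τ ^ ℓ ^ k) x = x := by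
  constructor
  · intro h x
    exact h _ (lc_stab_isOpen (N := F) x)
  · intro h V hV
    obtain ⟨x, hx⟩ := tmb_exists_stab_le V hV
    obtain ⟨k, hk⟩ := h x
    exact ⟨k, hx hk⟩

/-- Every element of `E` is an algebraic integer divided by a positive natural number. -/
theorem tmb_exists_int_mul (F : Type*) {E : Type*} [Field F] [NumberField F] [Field E] [Algebra F E]
    [IsGalois F E] (x : E) : ∃ (n : ℕ) (a : 𝓞 E), n ≠ 0 ∧ (n : E) * x = (a : E) := by
  have halgZF : Algebra.IsAlgebraic ℤ F :=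
    (IsFractionRing.comap_isAlgebraic_iff (A := ℤ) (K := ℚ) (C := F)).2 inferInstance
  have halg : Algebra.IsAlgebraic ℤ E := Algebra.IsAlgebraic.trans ℤ F E
  obtain ⟨y, hy0, hy⟩ := (halg.isAlgebraic x).exists_integral_multiple
  have h1 : IsIntegral ℤ ((y.natAbs : E) * x) := by
    rcases Int.natAbs_eq y with h | h
    · have e : (y.natAbs : E) * x = y • x := by
        rw [zsmul_eq_mul]
        congr 1
        conv_rhs => rw [h]
        simp
      rw [e]
      exact hy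
    · have e : (y.natAbs : E) * x = -(y • x) := by
        rw [zsmul_eq_mul, ← neg_mul]
        congr 1
        conv_rhs => rw [h]
        simp
      rw [e]
      exact hy.neg
  exact ⟨y.natAbs, ⟨_, h1⟩, Int.natAbs_ne_zero.2 hy0, rfl⟩

/-- A non-zero algebraic integer divides a non-zero rational integer (constant term of the minimal
polynomial over `ℤ`). -/
theorem tmb_exists_mul_eq_int (F : Type*) {E : Type*} [Field F] [NumberField F] [Field E]
    [Algebra F E] [IsGalois F E] (y : 𝓞 E) (hy : y ≠ 0) :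
    ∃ (z : 𝓞 E) (n : ℕ), n ≠ 0 ∧ y * z = (n : 𝓞 E) := by
  have hne : (Ideal.span {y}).comap (algebraMap ℤ (𝓞 E)) ≠ ⊥ :=
    Ideal.comap_ne_bot_of_integral_mem hy (Ideal.mem_span_singleton_self y) (RingOfIntegers.isIntegral y)
  obtain ⟨c, hc, hc0⟩ := Submodule.exists_mem_ne_zero_of_ne_bot hne
  have h1 : algebraMap ℤ (𝓞 E) c ∈ Ideal.span {y} := Ideal.mem_comap.1 hc
  obtain ⟨z, hz⟩ := Ideal.mem_span_singleton'.1 h1
  have hz' : y * z = (c : 𝓞 E) := by rw [mul_comm, hz]; simp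
  rcases Int.natAbs_eq c with h | h
  · refine ⟨z, c.natAbs, Int.natAbs_ne_zero.2 hc0, ?_⟩
    rw [hz']
    conv_lhs => rw [h]
    simp
  · refine ⟨-z, c.natAbs, Int.natAbs_ne_zero.2 hc0, ?_⟩
    rw [mul_neg, hz']
    conv_lhs => rw [h]
    simp

theorem tmb_smul_mem_iff {P : Ideal (𝓞 E)} {g : Gal(E/F)} (hg : g ∈ decomp F P) (y : 𝓞 E) :
    g • y ∈ P ↔ y ∈ P := by
  constructor
  · intro h
    have := hilp_smul_mem_of_decomp (inv_mem hg) h
    rwa [inv_smul_smul] at this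
  · exact hilp_smul_mem_of_decomp hg

/-- A natural number lies in `P` iff the residue characteristic divides it. -/
theorem tmb_natCast_mem_iff {E : Type*} [Field E] (P : Ideal (𝓞 E)) [P.IsMaximal] {p : ℕ}
    (hp : p.Prime) (h : Over P p) (n : ℕ) : (n : 𝓞 E) ∈ P ↔ p ∣ n := by
  constructor
  · intro hn
    by_contra hnd
    have hcop : Nat.Coprime p n := (Nat.Prime.coprime_iff_not_dvd hp).2 hnd
    obtain ⟨a, b, hab⟩ := Nat.isCoprime_iff_coprime.2 hcop
    apply (‹P.IsMaximal›).ne_top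
    rw [Ideal.eq_top_iff_one]
    have h1 : ((a : 𝓞 E) * (p : 𝓞 E) + (b : 𝓞 E) * (n : 𝓞 E)) = 1 := by
      exact_mod_cast congrArg (Int.cast : ℤ → 𝓞 E) hab
    rw [← h1]
    exact P.add_mem (P.mul_mem_left _ h) (P.mul_mem_left _ hn)
  · rintro ⟨k, rfl⟩
    rw [Nat.cast_mul]
    exact P.mul_mem_right _ h

theorem tmb_below_ne_bot (U : Subgroup Gal(E/F)) (P : Ideal (𝓞 E)) [P.IsMaximal] :
    below U P ≠ ⊥ := by
  obtain ⟨p, hp, hover⟩ := hbas_exists_over P
  have hchar : CharZero (fld U) := charZero_of_injective_algebraMap (algebraMap F (fld U)).injective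
  intro hbot
  have hmem : (p : 𝓞 (fld U)) ∈ below U P := by
    rw [Ideal.mem_comap, map_natCast]
    exact hover
  rw [hbot, Ideal.mem_bot] at hmem
  exact hp.ne_zero (by exact_mod_cast hmem)

theorem tmb_inert_mul_frob {U : Subgroup Gal(E/F)} {P : Ideal (𝓞 E)} [P.IsMaximal]
    {σ i : Gal(E/F)} (h : IsFrob U P σ) (hi : i ∈ inert F P ⊓ U) : IsFrob U P (i * σ) := by
  refine ⟨U.mul_mem hi.2 h.1, fun y => ?_⟩
  have h1 := hbas_mem_inert_iff.1 hi.1 (σ • y)
  have := P.add_mem h1 (h.2 y)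
  simpa [mul_smul] using this

/-- A closed subgroup `U` permutes transitively the primes of `E` above a prime of `fld U`
(`hilb_transitive (fld U)`, `hilb_restrictScalars_mem`). -/
theorem tmb_transitive_closed (U : Subgroup Gal(E/F)) (hU : IsClosed (U : Set Gal(E/F)))
    (P Q : Ideal (𝓞 E)) [P.IsMaximal] [Q.IsMaximal] (h : below U P = below U Q) :
    ∃ g ∈ U, g • P = Q := by
  obtain ⟨g, hg⟩ := hilb_transitive (fld U) P Q h
  exact ⟨g.restrictScalars F, hilb_restrictScalars_mem U hU g, hg.symm⟩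

/-- LIFTING INERTIA.  If `g` acts trivially modulo `P` on the integers of `fld W`, `W` closed, then
`g w ∈ I(P)` for some `w ∈ W`.
(1) `below W (g⁻¹ • P) = below W P` (inclusion of maximal ideals), so `w₁ • P = g⁻¹ • P` for some
`w₁ ∈ W` (`tmb_transitive_closed`), i.e. `g w₁ ∈ D(P)`; (2) `g w₁` still acts trivially on the integers
of `fld W`; `hilb_key (fld W) P` gives `w₂ ∈ W ∩ D(P)` with the same action on `𝓞 E / P`;
(3) `g w₁ w₂⁻¹ ∈ I(P)`.  (Compare the proof of `hilp_decomp_factor`.) -/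
theorem tmb_inert_lift (W : Subgroup Gal(E/F)) (hW : IsClosed (W : Set Gal(E/F)))
    (P : Ideal (𝓞 E)) [P.IsMaximal] (g : Gal(E/F))
    (hg : ∀ y : 𝓞 E, (y : E) ∈ fld W → g • y - y ∈ P) : ∃ w ∈ W, g * w ∈ inert F P := by
  have hmax : (g⁻¹ • P).IsMaximal := by
    rw [Ideal.pointwise_smul_eq_comap]
    exact Ideal.comap_isMaximal_of_equiv _
  have hfixW : ∀ (w : Gal(E/F)), w ∈ W → ∀ x : 𝓞 (fld W),
      w • algebraMap (𝓞 (fld W)) (𝓞 E) x = algebraMap (𝓞 (fld W)) (𝓞 E) x := by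
    intro w hw x
    apply RingOfIntegers.ext
    exact x.1.2 ⟨w, hw⟩
  have hbelow : below W P = below W (g⁻¹ • P) := by
    ext x
    rw [Ideal.mem_comap, Ideal.mem_comap, Ideal.mem_inv_pointwise_smul_iff]
    have h1 := hg (algebraMap (𝓞 (fld W)) (𝓞 E) x) x.1.2
    constructor
    · intro h
      have := P.add_mem h1 h
      simpa using this
    · intro h
      have := P.sub_mem h h1
      simpa using this
  obtain ⟨w₁, hw₁, hw₁P⟩ := tmb_transitive_closed W hW P (g⁻¹ • P) hbelow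
  set t : Gal(E/F) := g * w₁ with ht
  have htD : t • P = P := by rw [ht, mul_smul, hw₁P, smul_inv_smul]
  have htM : ∀ x : 𝓞 (fld W), t • algebraMap (𝓞 (fld W)) (𝓞 E) x - algebraMap (𝓞 (fld W)) (𝓞 E) x ∈ P := by
    intro x
    rw [ht, mul_smul, hfixW w₁ hw₁ x]
    exact hg _ x.1.2
  obtain ⟨h', -, hh'⟩ := hilb_key (fld W) P (MulSemiringAction.toRingEquiv Gal(E/F) (𝓞 E) t) htD.symm htM
  have hvW : h'.restrictScalars F ∈ W := hilb_restrictScalars_mem W hW h'
  refine ⟨w₁ * (h'.restrictScalars F)⁻¹, W.mul_mem hw₁ (W.inv_mem hvW), ?_⟩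
  rw [hbas_mem_inert_iff]
  intro y
  have := hh' ((h'.restrictScalars F)⁻¹ • y)
  have e : h' • ((h'.restrictScalars F)⁻¹ • y) = y := smul_inv_smul (h'.restrictScalars F) y
  rw [e] at this
  rw [← mul_assoc, mul_smul]
  exact this

/-- The same for an intermediate field (`InfiniteGalois.fixedField_fixingSubgroup`;
`L.fixingSubgroup` is closed: `IntermediateField.fixingSubgroup_isClosed`). -/
theorem tmb_inert_lift_field (L : IntermediateField F E)
    (P : Ideal (𝓞 E)) [P.IsMaximal] (g : Gal(E/F))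
    (hg : ∀ y : 𝓞 E, (y : E) ∈ L → g • y - y ∈ P) : ∃ w ∈ L.fixingSubgroup, g * w ∈ inert F P := by
  have hcl : IsClosed (L.fixingSubgroup : Set Gal(E/F)) := InfiniteGalois.fixingSubgroup_isClosed L
  have hfix : fld L.fixingSubgroup = L := InfiniteGalois.fixedField_fixingSubgroup L
  exact tmb_inert_lift L.fixingSubgroup hcl P g (fun y hy => hg y (by rwa [hfix] at hy))

/-! ### Complements to LC/PROF -/

section Prof

variable {G : Type*} [Group G] [TopologicalSpace G]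

theorem IsProL.one (ℓ : ℕ) : IsProL ℓ (1 : G) := fun V _ => ⟨0, by simp [V.one_mem]⟩

/-- `(τ ^ n) ^ ℓ ^ k = (τ ^ ℓ ^ k) ^ n`. -/
theorem IsProL.pow {ℓ : ℕ} {τ : G} (h : IsProL ℓ τ) (n : ℕ) : IsProL ℓ (τ ^ n) := by
  intro V hV
  obtain ⟨k, hk⟩ := h V hV
  exact ⟨k, by rw [← pow_mul, mul_comm, pow_mul]; exact V.pow_mem hk n⟩

variable [IsTopologicalGroup G]

/-- Apply the definition to the open subgroup `g⁻¹ V g`. -/
theorem IsProL.conj {ℓ : ℕ} {τ : G} (h : IsProL ℓ τ) (g : G) : IsProL ℓ (g * τ * g⁻¹) := by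
  intro V hV
  let V' : Subgroup G := V.comap (MulAut.conj g).toMonoidHom
  have hV' : IsOpen (V' : Set G) :=
    hV.preimage ((continuous_const.mul continuous_id).mul continuous_const)
  obtain ⟨k, hk⟩ := h V' hV'
  refine ⟨k, ?_⟩
  rw [conj_pow]
  exact hk

variable [CompactSpace G] [TotallyDisconnectedSpace G] [T2Space G]

/-- In a profinite group the open subgroups meet in `1` (`prof_exists_normal` for `{g}ᶜ`). -/
theorem tprof_eq_one_of_forall_mem {g : G} (h : ∀ V : Subgroup G, IsOpen (V : Set G) → g ∈ V) :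
    g = 1 := by
  by_contra hg
  obtain ⟨W, -, hWo, hWs⟩ := prof_exists_normal (U := {g}ᶜ) isOpen_compl_singleton (by simpa using Ne.symm hg)
  exact hWs (h W hWo) rfl

/-- An element which is both pro-`ℓ` and pro-`ℓ'` is trivial (Bezout in every open subgroup). -/
theorem tprof_eq_one_of_proL_proL' {ℓ : ℕ} {g : G} (h₁ : IsProL ℓ g) (h₂ : IsProL' ℓ g) :
    g = 1 := by
  apply tprof_eq_one_of_forall_mem
  intro V hV
  obtain ⟨k, hk⟩ := h₁ V hV
  obtain ⟨m, -, hcop, hm⟩ := h₂ V hV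
  have hcop' : Nat.Coprime (ℓ ^ k) m := (Nat.Coprime.pow_right k hcop).symm
  have h1 := Nat.gcd_eq_gcd_ab (ℓ ^ k) m
  rw [hcop', Nat.cast_one] at h1
  have h2 : g = (g ^ ℓ ^ k) ^ (Nat.gcdA (ℓ ^ k) m) * (g ^ m) ^ (Nat.gcdB (ℓ ^ k) m) := by
    rw [← zpow_natCast, ← zpow_natCast, ← zpow_mul, ← zpow_mul, ← zpow_add, ← h1, zpow_one]
  rw [h2]
  exact V.mul_mem (V.zpow_mem hk _) (V.zpow_mem hm _)

omit [IsTopologicalGroup G] [CompactSpace G] [TotallyDisconnectedSpace G] [T2Space G] in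
/-- A pro-`p` element is pro-`ℓ'` for `ℓ ≠ p`. -/
theorem tprof_proL'_of_proL {p ℓ : ℕ} (hp : p.Prime) (hℓ : ℓ.Prime) (hne : p ≠ ℓ) {g : G}
    (h : IsProL p g) : IsProL' ℓ g := by
  intro V hV
  obtain ⟨k, hk⟩ := h V hV
  exact ⟨p ^ k, pow_pos hp.pos k, Nat.Coprime.pow_left k ((Nat.coprime_primes hp hℓ).2 hne), hk⟩

/-- A continuous character `c : Z → ℤ/ℓ` of a subgroup `Z` kills the pro-`ℓ'` elements of `Z`.
(`ker c` is open in `Z`, so it contains `Z ∩ O` for an open nbhd `O` of `1` in `G`, which contains an open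
subgroup `V` (`prof_exists_normal`); `x ^ m ∈ V ∩ Z` with `m` prime to `ℓ`, so `m • c x = 0`.) -/
theorem tprof_char_proL' {ℓ : ℕ} [Fact ℓ.Prime] (Z : Subgroup G)
    (c : Z →* Multiplicative (ZMod ℓ)) (hc : Continuous c) (x : Z) (hx : IsProL' ℓ (x : G)) :
    c x = 1 := by
  have hker : IsOpen (c ⁻¹' {1}) := (isOpen_discrete _).preimage hc
  obtain ⟨O, hO, hOeq⟩ := isOpen_induced_iff.1 hker
  have h1O : (1 : G) ∈ O := by
    have : (1 : Z) ∈ Subtype.val ⁻¹' O := by rw [hOeq]; simp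
    exact this
  obtain ⟨V, -, hVo, hVs⟩ := prof_exists_normal hO h1O
  obtain ⟨m, -, hcop, hm⟩ := hx V hVo
  have h2 : x ^ m ∈ c ⁻¹' {1} := by
    rw [← hOeq]
    exact hVs hm
  have h3 : c x ^ m = 1 := by
    rw [← map_pow]
    exact h2
  have h4 : c x ^ ℓ = 1 := by
    have : (ℓ : ℕ) • Multiplicative.toAdd (c x) = 0 := by
      rw [nsmul_eq_mul, ZMod.natCast_self, zero_mul]
    exact congrArg Multiplicative.ofAdd this
  have h5 : orderOf (c x) ∣ Nat.gcd m ℓ :=
    Nat.dvd_gcd (orderOf_dvd_of_pow_eq_one h3) (orderOf_dvd_of_pow_eq_one h4)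
  rw [hcop, Nat.dvd_one, orderOf_eq_one_iff] at h5
  exact h5

/-- CONJUGACY (Schur-Zassenhaus / Sylow in `W ⋊ cl a`).  `W` closed, all its elements pro-`ℓ'`;
`a`, `b` pro-`ℓ`, `a` normalises `W`, `b ∈ a W`.  Then `b` is conjugate to `a` under `W`.
Apply `prof_sylow_conj` to `B' = W`, `τ = a`, `y = b`, `B = {i t | i ∈ W, t ∈ cl a}` (a subgroup because
`cl a` normalises the closed subgroup `W`): `i b i⁻¹ ∈ cl a` for some `i ∈ W`.  Then
`a⁻¹ i b i⁻¹ ∈ W ∩ cl a` (`W` is normal in `B`, `b ∈ a W`), which is pro-`ℓ'` and pro-`ℓ`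
(`prof_isProL_of_mem_cl`), hence `1`. -/
theorem tprof_conj {ℓ : ℕ} [Fact ℓ.Prime]
    (W : Subgroup G) (hW : IsClosed (W : Set G)) (hWp : ∀ w ∈ W, IsProL' ℓ w)
    (a b : G) (ha : IsProL ℓ a) (hb : IsProL ℓ b) (hn : ∀ w ∈ W, a * w * a⁻¹ ∈ W)
    (hn' : ∀ w ∈ W, a⁻¹ * w * a ∈ W) (hab : a⁻¹ * b ∈ W) : ∃ w ∈ W, w * b * w⁻¹ = a := by
  -- `cl a` normalises `W`
  let Nz : Subgroup G :=
    { carrier := {t | ∀ w ∈ W, t * w * t⁻¹ ∈ W ∧ t⁻¹ * w * t ∈ W}
      one_mem' := fun w hw => by simpa using hw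
      mul_mem' := by
        intro s t hs ht w hw
        refine ⟨?_, ?_⟩
        · have := (hs _ (ht w hw).1).1
          simpa [mul_assoc] using this
        · have := (ht _ (hs w hw).2).2
          simpa [mul_assoc] using this
      inv_mem' := by
        intro t ht w hw
        refine ⟨?_, ?_⟩
        · simpa using (ht w hw).2
        · simpa using (ht w hw).1 }
  have hNzcl : IsClosed (Nz : Set G) := by
    have : (Nz : Set G) = ⋂ w ∈ W, ({t | t * w * t⁻¹ ∈ W} ∩ {t | t⁻¹ * w * t ∈ W}) := by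
      ext t
      simp only [Set.mem_iInter, Set.mem_inter_iff]
      rfl
    rw [this]
    refine isClosed_biInter fun w _ => IsClosed.inter ?_ ?_
    · exact hW.preimage ((continuous_id.mul continuous_const).mul continuous_inv)
    · exact hW.preimage ((continuous_inv.mul continuous_const).mul continuous_id)
  have haNz : a ∈ Nz := fun w hw => ⟨hn w hw, hn' w hw⟩
  have hclNz : lcCl a ≤ Nz :=
    Subgroup.topologicalClosure_minimal _ (by rwa [Subgroup.zpowers_le]) hNzcl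
  let B : Subgroup G :=
    { carrier := {x | ∃ i ∈ W, ∃ t ∈ lcCl a, x = i * t}
      one_mem' := ⟨1, W.one_mem, 1, (lcCl a).one_mem, by simp⟩
      mul_mem' := by
        rintro _ _ ⟨i, hi, t, ht, rfl⟩ ⟨i', hi', t', ht', rfl⟩
        refine ⟨i * (t * i' * t⁻¹), W.mul_mem hi (hclNz ht i' hi').1, t * t', (lcCl a).mul_mem ht ht', ?_⟩
        group
      inv_mem' := by
        rintro _ ⟨i, hi, t, ht, rfl⟩
        refine ⟨t⁻¹ * i⁻¹ * t, (hclNz ht _ (W.inv_mem hi)).2, t⁻¹, (lcCl a).inv_mem ht, ?_⟩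
        group }
  have hle : W ≤ B := fun w hw => ⟨w, hw, 1, (lcCl a).one_mem, by simp⟩
  have hnorm : ∀ x ∈ B, ∀ i ∈ W, x * i * x⁻¹ ∈ W := by
    rintro _ ⟨j, hj, t, ht, rfl⟩ i hi
    have h1 := (hclNz ht i hi).1
    have h2 : j * t * i * (j * t)⁻¹ = j * (t * i * t⁻¹) * j⁻¹ := by group
    rw [h2]
    exact W.mul_mem (W.mul_mem hj h1) (W.inv_mem hj)
  have haB : a ∈ B := ⟨1, W.one_mem, a, prof_self_mem_cl a, by simp⟩
  have hbB : b ∈ B := by
    have : b = a * (a⁻¹ * b) := by group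
    rw [this]
    exact B.mul_mem haB (hle hab)
  obtain ⟨i, hi, hib⟩ := prof_sylow_conj hW hle hnorm hWp ha haB (fun x hx => hx) hb hbB
  refine ⟨i, hi, ?_⟩
  have hc1 : a⁻¹ * (i * b * i⁻¹) ∈ lcCl a := (lcCl a).mul_mem ((lcCl a).inv_mem (prof_self_mem_cl a)) hib
  have hc2 : a⁻¹ * (i * b * i⁻¹) ∈ W := by
    have e : a⁻¹ * (i * b * i⁻¹) = (a⁻¹ * i * a) * (a⁻¹ * b) * i⁻¹ := by group
    rw [e]
    exact W.mul_mem (W.mul_mem (hn' i hi) hab) (W.inv_mem hi)
  have hc3 : a⁻¹ * (i * b * i⁻¹) = 1 :=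
    tprof_eq_one_of_proL_proL' (prof_isProL_of_mem_cl ha hc1) (hWp _ hc2)
  exact (inv_mul_eq_one.1 hc3).symm

end Prof

end Claimed.Agent.R239
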