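/-
Row 239 (S0475), package HIL+TAME (owner helper28).  File Val: complements to LC/VAL_a on the valuation
`lcv P` of `E` attached to a prime `P` of `𝓞 E` (`lcv P x ≤ 1 ↔ x ∈ lcLoc P`, i.e. `x = a / s`, `s ∉ P`).
Already available (sorry-free) in LC/VAL_a, LC/TC_a: `lc_val_le_one_iff`, `lc_val_le_iff`, `lc_val_le_one`,
`lc_val_lt_one_iff`, `lc_val_eq_one`, `lc_val_ne_zero`, `lc_val_pos`, `lc_val_over_lt_one`,
`lc_val_natCast_eq_one`, `lc_val_intCast`, `lc_val_commens_over`, `lc_val_commens`, `lc_val_arch`,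
`lc_val_galois`, `lc_exists_frac_of_val_eq_one`, `lc_root_eq_one_of_sub_mem`, `lc_inert_fix_root`.
-/
import Claimed.Agent.R239.Tame.Tmb

set_option autoImplicit false

namespace Claimed.Agent.R239

open NumberField
open scoped Pointwise

section

variable {E : Type*} [Field E] [CharZero E] [Algebra.IsAlgebraic ℚ E]
variable (P : Ideal (𝓞 E)) [P.IsMaximal]

theorem vP_lt_one_iff {x : E} :
    lcv P x < 1 ↔ ∃ a b : 𝓞 E, a ∈ P ∧ b ∉ P ∧ x * (b : E) = (a : E) := by
  constructor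
  · intro h
    obtain ⟨a, s, hs, has⟩ := (lc_val_le_one_iff P x).1 h.le
    refine ⟨a, s, ?_, hs, has⟩
    rw [← lc_val_lt_one_iff P a, ← has, map_mul, lc_val_eq_one P hs, mul_one]
    exact h
  · rintro ⟨a, b, ha, hb, hab⟩
    have h1 := (lc_val_lt_one_iff P a).2 ha
    rwa [← hab, map_mul, lc_val_eq_one P hb, mul_one] at h1

/-- Natural numbers. -/
theorem vP_natCast_eq_one_iff {p : ℕ} (hp : p.Prime) (h : Over P p) (n : ℕ) :
    lcv P (n : E) = 1 ↔ ¬ p ∣ n := by
  constructor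
  · rintro h1 ⟨m, rfl⟩
    have h2 : lcv P ((m : ℕ) : E) ≤ 1 := by
      exact lc_val_le_one P (m : 𝓞 E)
    have h3 := lc_val_over_lt_one P h
    rw [Nat.cast_mul, map_mul] at h1
    have h4 : lcv P (p : E) * lcv P (m : E) < 1 := by
      calc lcv P (p : E) * lcv P (m : E) ≤ lcv P (p : E) * 1 := by gcongr
        _ < 1 := by rwa [mul_one]
    exact h4.ne h1
  · intro h1
    exact lc_val_natCast_eq_one P h ((Nat.Prime.coprime_iff_not_dvd hp).2 h1).symm

/-- `¬ Over P ℓ` in valuation form. -/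
theorem vP_prime_eq_one {ℓ : ℕ} (hℓ : ¬ Over P ℓ) : lcv P (ℓ : E) = 1 := by
  have := lc_val_eq_one P hℓ
  simpa using this

theorem vP_prime_pow_eq_one {ℓ : ℕ} (hℓ : ¬ Over P ℓ) (n : ℕ) : lcv P ((ℓ ^ n : ℕ) : E) = 1 := by
  rw [Nat.cast_pow, map_pow, vP_prime_eq_one P hℓ, one_pow]

/-- Strict archimedean property (from `lc_val_arch`). -/
theorem vP_arch {x y : E} (hx : lcv P x < 1) (hy : y ≠ 0) : ∃ n : ℕ, lcv P x ^ n < lcv P y := by
  obtain ⟨n, hn⟩ := lc_val_arch P hx hy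
  refine ⟨n + 1, ?_⟩
  rw [map_pow] at hn
  by_cases hx0 : x = 0
  · rw [hx0, map_zero, zero_pow (Nat.succ_ne_zero n)]
    exact lc_val_pos P hy
  refine lt_of_lt_of_le ?_ hn
  rw [pow_succ]
  calc lcv P x ^ n * lcv P x < lcv P x ^ n * 1 := by
        gcongr
        exact pow_pos (lc_val_pos P hx0) n
    _ = lcv P x ^ n := mul_one _

/-- If `x ^ n` is a `P`-unit so is `x` (ordered group: torsion free). -/
theorem vP_eq_one_of_pow {x : E} {n : ℕ} (hn : 0 < n) (h : lcv P (x ^ n) = 1) : lcv P x = 1 := by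
  rw [map_pow] at h
  exact (pow_eq_one_iff_of_nonneg zero_le' hn.ne').mp h

/-- Roots are unique in the value group. -/
theorem vP_eq_of_pow_eq {x y : E} {n : ℕ} (hn : 0 < n) (h : lcv P x ^ n = lcv P y ^ n) :
    lcv P x = lcv P y :=
  (pow_left_inj₀ zero_le' zero_le' hn.ne').mp h

end

section

variable {F E : Type*} [Field F] [NumberField F] [Field E] [Algebra F E] [IsGalois F E]
  [CharZero E] [Algebra.IsAlgebraic ℚ E]
variable {P : Ideal (𝓞 E)} [P.IsMaximal]

/-- Transport: `g` maps `(𝓞 E)_P` onto `(𝓞 E)_{gP}`. -/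
theorem vP_smul_le_one_iff (g : Gal(E/F)) (x : E) [(g • P).IsMaximal] :
    lcv (g • P) (g x) ≤ 1 ↔ lcv P x ≤ 1 := by
  rw [lc_val_le_one_iff, lc_val_le_one_iff]
  constructor
  · rintro ⟨a, s, hs, h⟩
    refine ⟨g⁻¹ • a, g⁻¹ • s, ?_, ?_⟩
    · intro h1
      apply hs
      have := (Ideal.smul_mem_pointwise_smul_iff (a := g)).2 h1
      rwa [smul_inv_smul] at this
    · show x * g⁻¹ (s : E) = g⁻¹ (a : E)
      rw [← h, map_mul]
      simp
  · rintro ⟨a, s, hs, h⟩
    refine ⟨g • a, g • s, ?_, ?_⟩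
    · rw [Ideal.smul_mem_pointwise_smul_iff]
      exact hs
    · show g x * g (s : E) = g (a : E)
      rw [← map_mul, h]

/-- `I(P)` acts trivially on the residue field of `(𝓞 E)_P`:
`h(a/b) - a/b = ((ha - a) b - a (hb - b)) / (b hb)`. -/
theorem vP_inert {h : Gal(E/F)} (hh : h ∈ inert F P) {x : E} (hx : lcv P x ≤ 1) :
    lcv P (h x - x) < 1 := by
  obtain ⟨a, b, hb, hab⟩ := (lc_val_le_one_iff P x).1 hx
  have hprime : P.IsPrime := Ideal.IsMaximal.isPrime ‹_›
  have hhb : h • b ∉ P := by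
    intro h1
    apply hb
    have := P.sub_mem h1 (hh b)
    simpa using this
  rw [vP_lt_one_iff P]
  refine ⟨(h • a - a) * b - a * (h • b - b), b * h • b, ?_, ?_, ?_⟩
  · exact P.sub_mem (P.mul_mem_right _ (hh a)) (P.mul_mem_left _ (hh b))
  · intro h1
    rcases hprime.mem_or_mem h1 with h1 | h1
    · exact hb h1
    · exact hhb h1
  · have e1 : h (a : E) = h x * h (b : E) := by rw [← hab, map_mul]
    show (h x - x) * ((b : E) * h (b : E)) = (h (a : E) - a) * b - a * (h (b : E) - b)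
    linear_combination (-(b : E)) * e1 - h (b : E) * hab

/-- Converse. -/
theorem mem_inert_of_vP {h : Gal(E/F)} (hh : ∀ x : E, lcv P x ≤ 1 → lcv P (h x - x) < 1) :
    h ∈ inert F P := by
  intro y
  have h1 := hh (y : E) (lc_val_le_one P y)
  exact (lc_val_lt_one_iff P (h • y - y)).1 h1

/-- For a `P`-unit `u` and `h ∈ I(P)`: `h u / u ≡ 1`. -/
theorem vP_inert_unit {h : Gal(E/F)} (hh : h ∈ inert F P) {u : E} (hu : lcv P u = 1) :
    lcv P (h u / u - 1) < 1 := by
  have hu0 : u ≠ 0 := by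
    rintro rfl
    rw [map_zero] at hu
    exact zero_ne_one hu
  have h1 := vP_inert hh hu.le
  have e : h u / u - 1 = (h u - u) / u := by field_simp
  rw [e, map_div₀, hu, div_one]
  exact h1

/-- A Frobenius lift acts as `x ↦ x ^ N` on the residue field of `(𝓞 E)_P`. -/
theorem vP_frob {U : Subgroup Gal(E/F)} {σ : Gal(E/F)} (hσ : IsFrob U P σ) {x : E}
    (hx : lcv P x ≤ 1) : lcv P (σ x - x ^ normAt U P) < 1 := by
  obtain ⟨a, b, hb, hab⟩ := (lc_val_le_one_iff P x).1 hx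
  have hprime : P.IsPrime := Ideal.IsMaximal.isPrime ‹_›
  set N := normAt U P with hN
  have hbN : b ^ N ∉ P := fun h1 => hb (hprime.mem_of_pow_mem N h1)
  have hσb : σ • b ∉ P := by
    intro h1
    apply hbN
    have := P.sub_mem h1 (hσ.2 b)
    simpa using this
  rw [vP_lt_one_iff P]
  refine ⟨(σ • a - a ^ N) * b ^ N - a ^ N * (σ • b - b ^ N), b ^ N * σ • b, ?_, ?_, ?_⟩
  · exact P.sub_mem (P.mul_mem_right _ (hσ.2 a)) (P.mul_mem_left _ (hσ.2 b))
  · intro h1
    rcases hprime.mem_or_mem h1 with h1 | h1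
    · exact hbN h1
    · exact hσb h1
  · have e1 : σ (a : E) = σ x * σ (b : E) := by rw [← hab, map_mul]
    have e2 : (a : E) ^ N = x ^ N * (b : E) ^ N := by rw [← hab, mul_pow]
    show (σ x - x ^ N) * ((b : E) ^ N * σ (b : E)) =
      (σ (a : E) - (a : E) ^ N) * (b : E) ^ N - (a : E) ^ N * (σ (b : E) - (b : E) ^ N)
    rw [e1, e2]
    ring

end

end Claimed.Agent.R239
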