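/-
Row 239 (S0475), package HIL+TAME (owner helper28).  File RU: roots of unity and roots of units
modulo `P`.
-/
import Claimed.Agent.R239.Tame.Val

set_option autoImplicit false

namespace Claimed.Agent.R239

open NumberField
open scoped Pointwise

variable {F E : Type*} [Field F] [NumberField F] [Field E] [Algebra F E] [IsGalois F E]
  [CharZero E] [Algebra.IsAlgebraic ℚ E]
variable {P : Ideal (𝓞 E)} [P.IsMaximal]

section

/-- A root of unity is a `P`-unit. -/
theorem ru_vP_eq_one {ξ : E} {n : ℕ} (hn : 0 < n) (h : ξ ^ n = 1) : lcv P ξ = 1 :=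
  vP_eq_one_of_pow P hn (by rw [h, map_one])

theorem ru_aux_val_eq_one {u : E} (h : lcv P (u - 1) < 1) : lcv P u = 1 := by
  have := Valuation.map_add_eq_of_lt_left (lcv P) (x := 1) (y := u - 1) (by simpa using h)
  simpa using this

theorem ru_aux_ne_zero {n : ℕ} (hn : lcv P (n : E) = 1) : 0 < n := by
  rcases Nat.eq_zero_or_pos n with rfl | h
  · rw [Nat.cast_zero, map_zero] at hn
    exact absurd hn zero_ne_one
  · exact h

/-- The `P`-units congruent to `1` form a group: products. -/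
theorem vP_one_mul {u u' : E} (h : lcv P (u - 1) < 1) (h' : lcv P (u' - 1) < 1) :
    lcv P (u * u' - 1) < 1 := by
  have e : u * u' - 1 = (u - 1) * u' + (u' - 1) := by ring
  rw [e]
  refine lt_of_le_of_lt ((lcv P).map_add _ _) (max_lt ?_ h')
  rw [map_mul, ru_aux_val_eq_one h', mul_one]
  exact h

theorem vP_one_inv {u : E} (h : lcv P (u - 1) < 1) : lcv P (u⁻¹ - 1) < 1 := by
  have h1 := ru_aux_val_eq_one h
  have hu0 : u ≠ 0 := by
    rintro rfl
    rw [map_zero] at h1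
    exact zero_ne_one h1
  have e : u⁻¹ - 1 = -((u - 1) / u) := by field_simp; ring
  rw [e, Valuation.map_neg, map_div₀, h1, div_one]
  exact h

theorem ru_aux_one_pow {u : E} (h : lcv P (u - 1) < 1) (k : ℕ) : lcv P (u ^ k - 1) < 1 := by
  induction k with
  | zero => simp
  | succ k ih =>
    rw [pow_succ]
    exact vP_one_mul ih h

theorem vP_one_zpow {u : E} (h : lcv P (u - 1) < 1) (k : ℤ) : lcv P (u ^ k - 1) < 1 := by
  rcases k with k | k
  · rw [Int.ofNat_eq_natCast, zpow_natCast]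
    exact ru_aux_one_pow h k
  · rw [zpow_negSucc]
    exact vP_one_inv (ru_aux_one_pow h _)

/-- An `n`-th root of unity `ε ≡ 1 (mod P)`, `n` prime to the residue characteristic, is `1`:
otherwise `0 = 1 + ε + ... + ε ^ (n-1) ≡ n`. -/
theorem ru_eq_one {ε : E} {n : ℕ} (hn : lcv P (n : E) = 1) (h : ε ^ n = 1)
    (h1 : lcv P (ε - 1) < 1) : ε = 1 := by
  by_contra hne
  have hg : (∑ i ∈ Finset.range n, ε ^ i) * (ε - 1) = 0 := by
    rw [geom_sum_mul, h, sub_self]
  have hs : ∑ i ∈ Finset.range n, ε ^ i = 0 :=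
    (mul_eq_zero.1 hg).resolve_right (sub_ne_zero.2 hne)
  have h2 : (n : E) = -∑ i ∈ Finset.range n, (ε ^ i - 1) := by
    rw [Finset.sum_sub_distrib, hs]
    simp
  have h3 : lcv P (n : E) < 1 := by
    rw [h2, Valuation.map_neg]
    exact Valuation.map_sum_lt _ one_ne_zero fun i _ => ru_aux_one_pow h1 i
  exact h3.ne hn

/-- Reduction modulo `P` is injective on `n`-th roots of unity. -/
theorem ru_inj {ξ ξ' : E} {n : ℕ} (hn : lcv P (n : E) = 1) (h : ξ ^ n = 1) (h' : ξ' ^ n = 1)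
    (h1 : lcv P (ξ - ξ') < 1) : ξ = ξ' := by
  have hn0 := ru_aux_ne_zero hn
  have hv : lcv P ξ' = 1 := ru_vP_eq_one hn0 h'
  have h0 : ξ' ≠ 0 := by
    rintro rfl
    rw [map_zero] at hv
    exact zero_ne_one hv
  have h2 : ξ / ξ' = 1 := by
    refine ru_eq_one hn (by rw [div_pow, h, h', div_one]) ?_
    have e : ξ / ξ' - 1 = (ξ - ξ') / ξ' := by field_simp
    rw [e, map_div₀, hv, div_one]
    exact h1
  exact (div_eq_one_iff_eq h0).1 h2

/-- Teichmüller lift: `u ^ m ≡ 1` implies `u ≡ ξ` for an `m`-th root of unity `ξ`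
(`u ^ m - 1 = ∏ (u - ζ ^ i)`, `IsPrimitiveRoot`/`X_pow_sub_one_eq_prod`). -/
theorem ru_lift {ζ u : E} {m : ℕ} (hm : 0 < m) (hζ : IsPrimitiveRoot ζ m)
    (hu : lcv P (u ^ m - 1) < 1) : ∃ i : ℕ, lcv P (u - ζ ^ i) < 1 := by
  have : NeZero m := ⟨hm.ne'⟩
  have h1 := hζ.pow_sub_pow_eq_prod_sub_mul u 1 hm
  rw [one_pow] at h1
  rw [h1, map_prod] at hu
  by_contra hcon
  push Not at hcon
  have h2 : (1 : (lcVS P).ValueGroup) ≤ ∏ μ ∈ Polynomial.nthRootsFinset m (1 : E), lcv P (u - μ * 1) := by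
    refine Finset.prod_induction _ (fun x => 1 ≤ x) (fun a b ha hb => one_le_mul ha hb) le_rfl ?_
    intro μ hμ
    rw [Polynomial.mem_nthRootsFinset hm] at hμ
    obtain ⟨i, -, rfl⟩ := hζ.eq_pow_of_pow_eq_one hμ
    rw [mul_one]
    exact hcon i
  exact absurd hu (not_lt.2 h2)

/-- Congruent units have congruent powers. -/
theorem vP_congr_pow {u u' : E} (hu : lcv P u ≤ 1) (hu' : lcv P u' ≤ 1) (h : lcv P (u - u') < 1)
    (n : ℕ) : lcv P (u ^ n - u' ^ n) < 1 := by
  induction n with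
  | zero => simp
  | succ n ih =>
    have e : u ^ (n + 1) - u' ^ (n + 1) = u ^ n * (u - u') + (u ^ n - u' ^ n) * u' := by ring
    rw [e]
    refine lt_of_le_of_lt ((lcv P).map_add _ _) (max_lt ?_ ?_)
    · rw [map_mul, map_pow]
      calc lcv P u ^ n * lcv P (u - u') ≤ 1 * lcv P (u - u') := by
            gcongr
            exact pow_le_one' hu n
        _ < 1 := by rwa [one_mul]
    · rw [map_mul]
      calc lcv P (u ^ n - u' ^ n) * lcv P u' ≤ lcv P (u ^ n - u' ^ n) * 1 := by gcongr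
        _ < 1 := by rwa [mul_one]

/-- Bezout: `u ^ a ≡ 1`, `u ^ b ≡ 1`, `gcd(a, b) = 1` imply `u ≡ 1`. -/
theorem vP_one_of_coprime {u : E} {a b : ℕ} (hab : Nat.Coprime a b) (ha : lcv P (u ^ a - 1) < 1)
    (hb : lcv P (u ^ b - 1) < 1) : lcv P (u - 1) < 1 := by
  by_cases hu : u = 0
  · subst hu
    rcases Nat.eq_zero_or_pos a with rfl | ha0
    · rw [Nat.coprime_zero_left] at hab
      subst hab
      rwa [pow_one] at hb
    · rw [zero_pow ha0.ne'] at ha
      exact ha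
  have hbez := Nat.gcd_eq_gcd_ab a b
  rw [hab, Nat.cast_one] at hbez
  have e : u = (u ^ a) ^ (Nat.gcdA a b) * (u ^ b) ^ (Nat.gcdB a b) := by
    rw [← zpow_natCast u a, ← zpow_natCast u b, ← zpow_mul, ← zpow_mul, ← zpow_add₀ hu, ← hbez,
      zpow_one]
  rw [e]
  exact vP_one_mul (vP_one_zpow ha _) (vP_one_zpow hb _)

end

/-- Inertia fixes the roots of unity of order prime to the residue characteristic. -/
theorem ru_inert_fix {h : Gal(E/F)} (hh : h ∈ inert F P) {ξ : E} {n : ℕ} (hn : lcv P (n : E) = 1)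
    (hξ : ξ ^ n = 1) : h ξ = ξ :=
  ru_inj hn (by rw [← map_pow, hξ, map_one]) hξ
    (vP_inert hh (ru_vP_eq_one (ru_aux_ne_zero hn) hξ).le)

/-- A Frobenius lift raises them to the power `N`. -/
theorem ru_frob {U : Subgroup Gal(E/F)} {σ : Gal(E/F)} (hσ : IsFrob U P σ) {ξ : E} {n : ℕ}
    (hn : lcv P (n : E) = 1) (hξ : ξ ^ n = 1) : σ ξ = ξ ^ normAt U P :=
  ru_inj hn (by rw [← map_pow, hξ, map_one]) (by rw [← pow_mul, mul_comm, pow_mul, hξ, one_pow])
    (vP_frob hσ (ru_vP_eq_one (ru_aux_ne_zero hn) hξ).le)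

/-- Inertia fixes the `n`-th roots of the `P`-units which it fixes (`h ω / ω` is an `n`-th root of
unity congruent to `1` by `vP_inert_unit`). -/
theorem ru_inert_fix_root {h : Gal(E/F)} (hh : h ∈ inert F P) {ω : E} {n : ℕ}
    (hn : lcv P (n : E) = 1) (hω : lcv P ω = 1) (hfix : h (ω ^ n) = ω ^ n) : h ω = ω := by
  have h0 : ω ≠ 0 := by
    rintro rfl
    rw [map_zero] at hω
    exact zero_ne_one hω
  have h1 : h ω / ω = 1 := by
    refine ru_eq_one hn ?_ (vP_inert_unit hh hω)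
    rw [div_pow, ← map_pow, hfix, div_self (pow_ne_zero _ h0)]
  exact (div_eq_one_iff_eq h0).1 h1

end Claimed.Agent.R239
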