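/-
Row 239 (S0475), package HIL+TAME (owner helper28).  File Wild: the tame pairing
`(h, x) ↦ h x / x  (mod P)` on `I(P) × Eˣ` and its kernel, the wild inertia group, which is pro-`p`.
Notation in the sketches: `v = lcv P`;  `u ≡ u'` means `v (u - u') < 1` (for `P`-integral `u, u'`);
`q(h, x) = h x / x`, a `P`-unit for `h ∈ D(P)`, `x ≠ 0`.
-/
import Claimed.Agent.R239.Tame.RU

set_option autoImplicit false

namespace Claimed.Agent.R239

open NumberField
open scoped Pointwise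

variable {F E : Type*} [Field F] [NumberField F] [Field E] [Algebra F E] [IsGalois F E]
  [CharZero E] [Algebra.IsAlgebraic ℚ E]
variable {P : Ideal (𝓞 E)} [P.IsMaximal]

/-- `q(h, x)` is a unit. -/
theorem wild_quot_unit {h : Gal(E/F)} (hh : h ∈ decomp F P) {x : E} (hx : x ≠ 0) :
    lcv P (h x / x) = 1 := by
  rw [map_div₀, lc_val_galois P hh, div_self]
  exact (Valuation.ne_zero_iff _).mpr hx

/-! ### a small calculus of congruences `v (a - b) < 1` (helper lemmas, prefix `wild_cg`) -/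

theorem wild_cg_refl (a : E) : lcv P (a - a) < 1 := by
  rw [sub_self, map_zero]
  exact zero_lt_one

theorem wild_cg_symm {a b : E} (h : lcv P (a - b) < 1) : lcv P (b - a) < 1 := by
  rwa [Valuation.map_sub_swap]

theorem wild_cg_trans {a b c : E} (h : lcv P (a - b) < 1) (h' : lcv P (b - c) < 1) :
    lcv P (a - c) < 1 := by
  have e : a - c = (a - b) + (b - c) := by ring
  rw [e]
  exact Valuation.map_add_lt _ h h'

theorem wild_cg_mul_right {a b c : E} (h : lcv P (a - b) < 1) (hc : lcv P c ≤ 1) :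
    lcv P (a * c - b * c) < 1 := by
  rw [← sub_mul, map_mul]
  exact mul_lt_one_of_lt_of_le h hc

theorem wild_cg_mul_left {a b c : E} (h : lcv P (a - b) < 1) (hc : lcv P c ≤ 1) :
    lcv P (c * a - c * b) < 1 := by
  rw [mul_comm c a, mul_comm c b]
  exact wild_cg_mul_right h hc

/-- `q(h, x)` depends only on `v x`, modulo `P`: `y = x u` with `u` a unit, and
`q(h, y) = q(h, x) * (h u / u)`, `h u / u ≡ 1` (`vP_inert_unit`). -/
theorem wild_quot_congr {h : Gal(E/F)} (hh : h ∈ inert F P) {x y : E} (hx : x ≠ 0) (hy : y ≠ 0)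
    (hxy : lcv P x = lcv P y) : lcv P (h x / x - h y / y) < 1 := by
  have hu : lcv P (y / x) = 1 := by
    rw [map_div₀, hxy, div_self (lc_val_ne_zero P hy)]
  have h1 := vP_inert_unit hh hu
  have hhx : h x ≠ 0 := by simpa using hx
  have e : h x / x - h y / y = (h x / x) * (1 - h (y / x) / (y / x)) := by
    rw [map_div₀]
    field_simp
  rw [e, map_mul, wild_quot_unit (lc_inert_le_decomp P hh) hx, one_mul, Valuation.map_sub_swap]
  exact h1

/-- Multiplicativity in `h`: `q(h h', x) = q(h, h' x) q(h', x) ≡ q(h, x) q(h', x)`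
(`wild_quot_congr`, `v (h' x) = v x`). -/
theorem wild_quot_mul {h h' : Gal(E/F)} (hh : h ∈ inert F P) (hh' : h' ∈ inert F P) {x : E}
    (hx : x ≠ 0) : lcv P ((h * h') x / x - (h x / x) * (h' x / x)) < 1 := by
  have hx' : h' x ≠ 0 := by simpa using hx
  have e : (h * h') x / x = (h (h' x) / h' x) * (h' x / x) := by
    rw [AlgEquiv.mul_apply]
    field_simp
  rw [e]
  refine wild_cg_mul_right (wild_quot_congr hh hx' hx (lc_val_galois P (lc_inert_le_decomp P hh') x)) ?_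
  exact (wild_quot_unit (lc_inert_le_decomp P hh') hx).le

theorem wild_quot_pow {h : Gal(E/F)} (hh : h ∈ inert F P) {x : E} (hx : x ≠ 0) (n : ℕ) :
    lcv P ((h ^ n) x / x - (h x / x) ^ n) < 1 := by
  induction n with
  | zero =>
    have e : (h ^ 0) x / x - (h x / x) ^ 0 = 0 := by
      rw [pow_zero, pow_zero, AlgEquiv.one_apply, div_self hx, sub_self]
    rw [e, map_zero]
    exact zero_lt_one
  | succ n ih =>
    rw [pow_succ, pow_succ]
    refine wild_cg_trans (wild_quot_mul (Subgroup.pow_mem _ hh n) hh hx) ?_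
    exact wild_cg_mul_right ih (wild_quot_unit (lc_inert_le_decomp P hh) hx).le

/-- Equivariance: `q(g h g⁻¹, x) = g (q(h, g⁻¹ x)) ≡ g (q(h, x))` for `g ∈ D(P)`. -/
theorem wild_quot_conj {g h : Gal(E/F)} (hg : g ∈ decomp F P) (hh : h ∈ inert F P) {x : E}
    (hx : x ≠ 0) : lcv P ((g * h * g⁻¹) x / x - g (h x / x)) < 1 := by
  have hx' : g⁻¹ x ≠ 0 := by simpa using hx
  have hgg : g (g⁻¹ x) = x := by
    rw [← AlgEquiv.mul_apply]; simp
  have e : (g * h * g⁻¹) x / x - g (h x / x) = g (h (g⁻¹ x) / g⁻¹ x - h x / x) := by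
    rw [map_sub, map_div₀ g (h (g⁻¹ x)), hgg, AlgEquiv.mul_apply, AlgEquiv.mul_apply]
  rw [e, lc_val_galois P hg]
  exact wild_quot_congr hh hx' hx (lc_val_galois P (inv_mem hg) x)

/-- THE WILD INERTIA GROUP `{h | v (h x - x) < v x for all x ≠ 0}`. -/
def wild (F : Type*) {E : Type*} [Field F] [Field E] [Algebra F E] [CharZero E]
    [Algebra.IsAlgebraic ℚ E] (P : Ideal (𝓞 E)) [P.IsMaximal] : Subgroup Gal(E/F) where
  carrier := {h | ∀ x : E, x ≠ 0 → lcv P (h x - x) < lcv P x}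
  mul_mem' := by
    intro h h' hh hh' x hx
    have key : ∀ y : E, lcv P (h y) = lcv P y := by
      intro y
      by_cases hy : y = 0
      · simp [hy]
      · exact Valuation.map_eq_of_sub_lt _ (hh y hy)
    have e : (h * h') x - x = h (h' x - x) + (h x - x) := by
      simp [AlgEquiv.mul_apply]
    rw [e]
    refine Valuation.map_add_lt _ ?_ (hh x hx)
    rw [key]
    exact hh' x hx
  one_mem' := by
    intro x hx
    simpa using zero_lt_iff.mpr ((Valuation.ne_zero_iff (lcv P)).mpr hx)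
  inv_mem' := by
    intro h hh x hx
    have hy : h⁻¹ x ≠ 0 := by simpa using hx
    have h1 := hh (h⁻¹ x) hy
    have h2 : lcv P (h (h⁻¹ x)) = lcv P (h⁻¹ x) := Valuation.map_eq_of_sub_lt _ h1
    have h3 : h (h⁻¹ x) = x := by
      rw [← AlgEquiv.mul_apply]; simp
    rw [h3] at h1 h2
    rw [← Valuation.map_neg, neg_sub, h2]
    exact h1

theorem mem_wild {h : Gal(E/F)} : h ∈ wild F P ↔ ∀ x : E, x ≠ 0 → lcv P (h x - x) < lcv P x :=
  Iff.rfl

theorem wild_le_inert : wild F P ≤ inert F P := by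
  intro h hh
  refine mem_inert_of_vP fun x hx => ?_
  by_cases hx0 : x = 0
  · rw [hx0, map_zero, sub_self, map_zero]
    exact zero_lt_one
  · exact (hh x hx0).trans_le hx

theorem mem_wild_iff {h : Gal(E/F)} :
    h ∈ wild F P ↔ h ∈ inert F P ∧ ∀ x : E, x ≠ 0 → lcv P (h x / x - 1) < 1 := by
  have key : ∀ x : E, x ≠ 0 → (lcv P (h x / x - 1) < 1 ↔ lcv P (h x - x) < lcv P x) := by
    intro x hx
    have e : h x / x - 1 = (h x - x) / x := by
      field_simp
    rw [e, map_div₀, div_lt_one₀ (lc_val_pos P hx)]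
  constructor
  · intro hh
    exact ⟨wild_le_inert hh, fun x hx => (key x hx).2 (hh x hx)⟩
  · rintro ⟨-, hh⟩ x hx
    exact (key x hx).1 (hh x hx)

/-- Intersection of the clopen sets `{h | v (h x - x) < v x}` (`tmb_isOpen_setOf_apply`). -/
theorem wild_isClosed : IsClosed (wild F P : Set Gal(E/F)) := by
  have e : (wild F P : Set Gal(E/F)) =
      ⋂ x : {x : E // x ≠ 0}, {h : Gal(E/F) | h x.1 ∈ {y : E | ¬ lcv P (y - x.1) < lcv P x.1}}ᶜ := by
    ext h
    simp only [SetLike.mem_coe, mem_wild, Set.mem_iInter, Set.mem_compl_iff, Set.mem_ofPred_eq,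
      not_not, Subtype.forall]
  rw [e]
  exact isClosed_iInter fun x => (tmb_isOpen_setOf_apply x.1 _).isClosed_compl

/-- `wild` is normal in `D(P)`. -/
theorem wild_conj_mem {g h : Gal(E/F)} (hg : g ∈ decomp F P) (hh : h ∈ wild F P) :
    g * h * g⁻¹ ∈ wild F P := by
  intro x hx
  have hx' : g⁻¹ x ≠ 0 := by simpa using hx
  have hgg : g (g⁻¹ x) = x := by
    rw [← AlgEquiv.mul_apply]; simp
  have e : (g * h * g⁻¹) x - x = g (h (g⁻¹ x) - g⁻¹ x) := by
    rw [map_sub, hgg, AlgEquiv.mul_apply, AlgEquiv.mul_apply]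
  rw [e, lc_val_galois P hg, ← lc_val_galois P (inv_mem hg) x]
  exact hh _ hx'

/-- THE `δ`-ARGUMENT.  `L` an additive subgroup of `E` stable under `g`, with
`v (g x - x) < v x` for all `0 ≠ x ∈ L`.  Then every `x ∈ L` is fixed by some `g ^ p ^ s`.
Proof.  The hypothesis passes to powers of `g`.  `g ^ m x = x` for some `m = p ^ s m' > 0`, `p ∤ m'`
(`tmb_exists_pow_fix`).  Put `g₁ = g ^ p ^ s`, `δ = g₁ - 1` (additive operator on `L`), so
`v (δ y) < v y` for `0 ≠ y ∈ L`.  `0 = (1 + δ) ^ m' x - x = m' δ x + ∑_{j ≥ 2} C(m', j) δ ^ j x`.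
If `δ x ≠ 0` then `v (m' δ x) = v (δ x)` (`vP_natCast_eq_one_iff`) is strictly bigger than the valuation
of every other term: contradiction with the ultrametric inequality. -/
theorem wild_pow_fix {p : ℕ} (hp : p.Prime) (hP : Over P p) (g : Gal(E/F)) (L : AddSubgroup E)
    (hL : ∀ x ∈ L, g x ∈ L) (hw : ∀ x ∈ L, x ≠ 0 → lcv P (g x - x) < lcv P x) {x : E} (hx : x ∈ L) :
    ∃ s : ℕ, (g ^ p ^ s) x = x := by
  -- the hypotheses pass to the powers of `g`
  have hpow : ∀ k : ℕ, ∀ y ∈ L, (g ^ k) y ∈ L ∧ (y ≠ 0 → lcv P ((g ^ k) y - y) < lcv P y) := by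
    intro k
    induction k with
    | zero =>
      intro y hy
      refine ⟨by simpa using hy, fun hy0 => ?_⟩
      rw [pow_zero, AlgEquiv.one_apply, sub_self, map_zero]
      exact lc_val_pos P hy0
    | succ k ih =>
      intro y hy
      have e1 : (g ^ (k + 1)) y = (g ^ k) (g y) := by rw [pow_succ, AlgEquiv.mul_apply]
      refine ⟨by rw [e1]; exact (ih _ (hL y hy)).1, fun hy0 => ?_⟩
      have hgy0 : g y ≠ 0 := by simpa using hy0
      have h1 := (ih _ (hL y hy)).2 hgy0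
      have h2 := hw y hy hy0
      have h3 : lcv P (g y) = lcv P y := Valuation.map_eq_of_sub_lt _ h2
      have e2 : (g ^ (k + 1)) y - y = ((g ^ k) (g y) - g y) + (g y - y) := by rw [e1]; ring
      rw [e2]
      exact Valuation.map_add_lt _ (h3 ▸ h1) h2
  obtain ⟨m, hm, hmx⟩ := tmb_exists_pow_fix g x
  obtain ⟨s, m', hpm', rfl⟩ := Nat.exists_eq_pow_mul_and_not_dvd hm.ne' p hp.ne_one
  refine ⟨s, ?_⟩
  set g₁ := g ^ p ^ s with hg₁
  have hg₁pow : ∀ i : ℕ, g₁ ^ i = g ^ (p ^ s * i) := fun i => by rw [hg₁, ← pow_mul]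
  by_contra hne
  set z := g₁ x - x with hz
  have hz0 : z ≠ 0 := sub_ne_zero.2 hne
  have hzL : z ∈ L := L.sub_mem (hpow _ x hx).1 hx
  have htel : ∑ i ∈ Finset.range m', (g₁ ^ i) z = 0 := by
    have h1 : ∀ i : ℕ, (g₁ ^ i) z = (g₁ ^ (i + 1)) x - (g₁ ^ i) x := by
      intro i
      rw [hz, map_sub, pow_succ, AlgEquiv.mul_apply]
    rw [Finset.sum_congr rfl fun i _ => h1 i, Finset.sum_range_sub (fun i => (g₁ ^ i) x), hg₁pow m',
      hmx, pow_zero, AlgEquiv.one_apply, sub_self]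
  have hsmall : lcv P (∑ i ∈ Finset.range m', ((g₁ ^ i) z - z)) < lcv P z := by
    refine Valuation.map_sum_lt _ (lc_val_ne_zero P hz0) fun i _ => ?_
    rw [hg₁pow i]
    exact (hpow _ z hzL).2 hz0
  rw [Finset.sum_sub_distrib, htel, Finset.sum_const, Finset.card_range, zero_sub, Valuation.map_neg,
    nsmul_eq_mul, map_mul, (vP_natCast_eq_one_iff P hp hP m').2 hpm', one_mul] at hsmall
  exact lt_irrefl _ hsmall

/-- The wild inertia group is pro-`p` (`wild_pow_fix` with `L = ⊤`, `isProL_iff`). -/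
theorem wild_isProL {p : ℕ} (hp : p.Prime) (hP : Over P p) {h : Gal(E/F)} (hh : h ∈ wild F P) :
    IsProL p h := by
  rw [isProL_iff]
  intro x
  exact wild_pow_fix hp hP h ⊤ (fun _ _ => AddSubgroup.mem_top _) (fun y _ hy => hh y hy)
    (AddSubgroup.mem_top x)

/-- THE TAME RELATION MODULO WILD INERTIA.  For a Frobenius lift `σ` of `U` and `τ ∈ I(P)`:
`q(σ τ σ⁻¹, x) ≡ σ (q(τ, x)) ≡ q(τ, x) ^ N ≡ q(τ ^ N, x)`
(`wild_quot_conj`, `vP_frob`, `wild_quot_pow`), hence `(τ ^ N)⁻¹ σ τ σ⁻¹` is wild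
(`wild_quot_mul`, `mem_wild_iff`). -/
theorem wild_frob_conj {U : Subgroup Gal(E/F)} {σ τ : Gal(E/F)} (hσ : IsFrob U P σ)
    (hτ : τ ∈ inert F P) : (τ ^ normAt U P)⁻¹ * (σ * τ * σ⁻¹) ∈ wild F P := by
  have hσd : σ ∈ decomp F P := hbas_frob_mem_decomp hσ
  have ha : τ ^ normAt U P ∈ inert F P := Subgroup.pow_mem _ hτ _
  have ha' : (τ ^ normAt U P)⁻¹ ∈ inert F P := inv_mem ha
  have hb : σ * τ * σ⁻¹ ∈ inert F P := lc_inert_normal P hσd hτ
  rw [mem_wild_iff]
  refine ⟨mul_mem ha' hb, fun x hx => ?_⟩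
  -- `q(b, x) ≡ q(a, x)`
  have h1 : lcv P ((σ * τ * σ⁻¹) x / x - (τ ^ normAt U P) x / x) < 1 := by
    refine wild_cg_trans (wild_quot_conj hσd hτ hx) ?_
    refine wild_cg_trans (vP_frob hσ (wild_quot_unit (lc_inert_le_decomp P hτ) hx).le) ?_
    exact wild_cg_symm (wild_quot_pow hτ hx _)
  have hu : lcv P ((τ ^ normAt U P)⁻¹ x / x) ≤ 1 :=
    (wild_quot_unit (lc_inert_le_decomp P ha') hx).le
  refine wild_cg_trans (wild_quot_mul ha' hb hx) ?_
  refine wild_cg_trans (wild_cg_mul_left h1 hu) ?_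
  have h2 := wild_cg_symm (wild_quot_mul ha' ha hx)
  rwa [inv_mul_cancel, AlgEquiv.one_apply, div_self hx] at h2

/-- A pro-`ℓ` element of `I(P)`, `ℓ` different from the residue characteristic, which is wild is
trivial (`wild_isProL`, `tprof_proL'_of_proL`, `tprof_eq_one_of_proL_proL'`). -/
theorem wild_eq_one {ℓ : ℕ} [Fact ℓ.Prime] (hℓ : ¬ Over P ℓ) {h : Gal(E/F)} (hh : h ∈ wild F P)
    (hl : IsProL ℓ h) : h = 1 := by
  obtain ⟨p, hp, hP⟩ := lc_exists_over P
  have hne : p ≠ ℓ := by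
    rintro rfl
    exact hℓ hP
  exact tprof_eq_one_of_proL_proL' hl
    (tprof_proL'_of_proL hp (Fact.out : ℓ.Prime) hne (wild_isProL hp hP hh))

/-- For a pro-`ℓ` element `h ∈ I(P)` the unit `q(h, x)` is of `ℓ`-power order modulo `P`
(`isProL_iff`, `wild_quot_pow`). -/
theorem wild_quot_proL {ℓ : ℕ} {h : Gal(E/F)} (hh : h ∈ inert F P) (hl : IsProL ℓ h) {x : E}
    (hx : x ≠ 0) : ∃ k : ℕ, lcv P ((h x / x) ^ ℓ ^ k - 1) < 1 := by
  obtain ⟨k, hk⟩ := isProL_iff.1 hl x
  refine ⟨k, ?_⟩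
  have h1 := wild_cg_symm (wild_quot_pow hh hx (ℓ ^ k))
  rwa [hk, div_self hx] at h1

end Claimed.Agent.R239
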