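/-
Row 239 (S0475), package HIL+TAME (owner helper28).  File Gen: tame generators.
Throughout `P ∤ ℓ`, `p` = residue characteristic of `P`, `v = lcv P`, `π` a uniformiser of `fld U` at `P`,
`I_U = inert F P ⊓ U`, `q(h, x) = h x / x`, `u ≡ u'` means `v (u - u') < 1`.
The theorems `tm_*` are the statements `tame_*` of Iface/TAME (with `RadClosed` instead of `SolvablyClosed`).
-/
import Claimed.Agent.R239.Tame.Wild
import Claimed.Agent.R239.Tame.Ram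

set_option autoImplicit false

namespace Claimed.Agent.R239

open NumberField
open scoped Pointwise

variable {F E : Type*} [Field F] [NumberField F] [Field E] [Algebra F E] [IsGalois F E]
  [CharZero E] [Algebra.IsAlgebraic ℚ E]
variable {ℓ : ℕ} [Fact ℓ.Prime]

/-- If `y ^ n = y' ^ n ≠ 0` with `n` prime to the residue characteristic, an element of `I(P)` fixes `y`
iff it fixes `y'` (`y' / y` is an `n`-th root of unity: `ru_inert_fix`). -/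
theorem tame_fix_root_iff {P : Ideal (𝓞 E)} [P.IsMaximal] {h : Gal(E/F)} (hh : h ∈ inert F P)
    {n : ℕ} (hn : lcv P (n : E) = 1) {y y' : E} (hy : y ≠ 0) (hyy : y ^ n = y' ^ n) :
    h y = y ↔ h y' = y' := by
  have hn0 : n ≠ 0 := by
    rintro rfl
    simp at hn
  have hξ : (y' / y) ^ n = 1 := by
    rw [div_pow, ← hyy, div_self (pow_ne_zero _ hy)]
  have hξ0 : y' / y ≠ 0 := by
    intro h0
    rw [h0, zero_pow hn0] at hξ
    exact zero_ne_one hξ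
  have hfix : h (y' / y) = y' / y := ru_inert_fix hh hn hξ
  have e : y' = y' / y * y := by rw [div_mul_cancel₀ _ hy]
  constructor
  · intro h1
    rw [e, map_mul, hfix, h1]
  · intro h1
    rw [e, map_mul, hfix] at h1
    exact mul_left_cancel₀ hξ0 h1

/-- If `h ∈ I(P)` fixes `y` and `x ^ n`, `v x = v y`, `n` prime to the residue characteristic, then `h` fixes
`x`:  `q(h, x) ≡ q(h, y) = 1` (`wild_quot_congr`) and `q(h, x) ^ n = 1`; `ru_eq_one`. -/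
theorem tame_fix_of_val {P : Ideal (𝓞 E)} [P.IsMaximal] {h : Gal(E/F)} (hh : h ∈ inert F P)
    {n : ℕ} (hn : lcv P (n : E) = 1) {x y : E} (hx : x ≠ 0) (hy : y ≠ 0)
    (hxy : lcv P x = lcv P y) (hfy : h y = y) (hfx : h (x ^ n) = x ^ n) : h x = x := by
  have h1 := wild_quot_congr hh hx hy hxy
  rw [hfy, div_self hy] at h1
  have h2 : (h x / x) ^ n = 1 := by
    rw [div_pow, ← map_pow, hfx, div_self (pow_ne_zero _ hx)]
  have h3 := ru_eq_one hn h2 h1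
  rwa [div_eq_one_iff_eq hx] at h3

/-- KEY LEMMA.  A pro-`ℓ` element `h` of `I(P)` fixing all `ℓ`-power roots of ONE `π ≠ 0` with `v π < 1` is
trivial.  By `wild_eq_one` and `mem_wild_iff` it suffices that `q := h x / x ≡ 1` for all `x ≠ 0`.
(i) `q ^ ℓ ^ k ≡ 1` for some `k` (`wild_quot_proL`).
(ii) `v (x ^ n) = v (π ^ m)`, `n = ℓ ^ a n'`, `ℓ ∤ n'` (`lc_val_commens`).  Take `y` with `y ^ ℓ ^ a = π`
(`hE.root`).  Then `v (x ^ n') ^ ℓ ^ a = v (y ^ m) ^ ℓ ^ a`, so `v (x ^ n') = v (y ^ m)` (`vP_eq_of_pow_eq`), so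
`q ^ n' = h (x ^ n') / x ^ n' ≡ h (y ^ m) / y ^ m = 1` (`wild_quot_congr`).
(iii) `vP_one_of_coprime`. -/
theorem tame_key (hE : RadClosed E) {P : Ideal (𝓞 E)} [P.IsMaximal]
    (hℓ : ¬ Over P ℓ) {π : E} (hπ0 : π ≠ 0) (hπ1 : lcv P π < 1) {h : Gal(E/F)}
    (hh : h ∈ inert F P) (hl : IsProL ℓ h)
    (hfix : ∀ (j : ℕ) (y : E), y ^ ℓ ^ j = π → h y = y) : h = 1 := by
  have hp : ℓ.Prime := Fact.out
  refine wild_eq_one hℓ (mem_wild_iff.2 ⟨hh, fun x hx => ?_⟩) hl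
  obtain ⟨k, hk⟩ := wild_quot_proL hh hl hx
  obtain ⟨s, hs, r, hr⟩ := lc_val_commens P hπ1 hπ0 hx
  obtain ⟨a, n', hn', rfl⟩ := Nat.exists_eq_pow_mul_and_not_dvd hs.ne' ℓ hp.ne_one
  obtain ⟨y, hy⟩ := hE.root (ℓ ^ a) (pow_pos hp.pos a) π
  have hy0 : y ≠ 0 := by
    rintro rfl
    rw [zero_pow (pow_pos hp.pos a).ne'] at hy
    exact hπ0 hy.symm
  have hval : lcv P (x ^ n') = lcv P (y ^ r) := by
    refine vP_eq_of_pow_eq P (pow_pos hp.pos a) ?_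
    rw [← map_pow, ← map_pow, ← pow_mul, mul_comm n', hr, ← hy, ← zpow_natCast, ← zpow_natCast,
      ← zpow_mul, ← zpow_mul, mul_comm]
  have h1 := wild_quot_congr hh (pow_ne_zero n' hx) (zpow_ne_zero r hy0) hval
  rw [map_zpow₀, hfix a y hy, div_self (zpow_ne_zero r hy0), map_pow, ← div_pow] at h1
  exact vP_one_of_coprime (Nat.Coprime.pow_left k ((Nat.Prime.coprime_iff_not_dvd hp).2 hn')) hk h1

/-- (= LC S1)  An element `g` of `I(P)` fixing all `ℓ`-power roots of `π` is pro-`ℓ'`.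
`g = g' g''` (`prof_lpart`), `g' ∈ cl g` lies in `I(P)` and fixes the roots (closed conditions:
`hil`-closedness `lc_inert_isClosed`, `lc_stab_isOpen`), so `g' = 1` by `tame_key`. -/
theorem tame_ker_proL' (hE : RadClosed E) {P : Ideal (𝓞 E)} [P.IsMaximal]
    (hℓ : ¬ Over P ℓ) {π : E} (hπ0 : π ≠ 0) (hπ1 : lcv P π < 1) {g : Gal(E/F)}
    (hg : g ∈ inert F P) (hfix : ∀ (j : ℕ) (y : E), y ^ ℓ ^ j = π → g y = y) : IsProL' ℓ g := by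
  obtain ⟨g', hg', g'', -, hgg, hpro, hpro'⟩ := prof_lpart ℓ g
  have h1 : g' ∈ inert F P :=
    Subgroup.topologicalClosure_minimal _ ((Subgroup.zpowers_le).2 hg) (lc_inert_isClosed P) hg'
  have h2 : ∀ (j : ℕ) (y : E), y ^ ℓ ^ j = π → g' y = y := by
    intro j y hy
    have hle : lcCl g ≤ lcStab F y :=
      Subgroup.topologicalClosure_minimal _ ((Subgroup.zpowers_le).2 (hfix j y hy))
        (Subgroup.isClosed_of_isOpen _ (lc_stab_isOpen y))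
    exact hle hg'
  have h3 : g' = 1 := tame_key hE hℓ hπ0 hπ1 h1 hpro h2
  rw [hgg, h3, one_mul]
  exact hpro'

/-- THE CHARACTER `t̄ : I_U → μ_ℓ ≅ ℤ/ℓ`, `h ↦ h ρ / ρ`, for `ρ ^ ℓ = π ∈ fld U`.
`h ρ / ρ` is an `ℓ`-th root of unity (`h π = π`), so `= ζ ^ k(h)` for a fixed primitive `ζ`
(`hE.prim`), `k(h) ∈ ZMod ℓ` unique; multiplicative because `I(P)` fixes `ζ` (`ru_inert_fix`);
continuous because it is trivial on the open subgroup `lcStab F ρ`.  (See also `kum_char` in LC/KUM_a.) -/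
theorem tame_tbar (hE : RadClosed E) {U : Subgroup Gal(E/F)} {P : Ideal (𝓞 E)} [P.IsMaximal]
    (hℓ : ¬ Over P ℓ) {π ρ : E} (hπ : π ∈ fld U) (hπ0 : π ≠ 0) (hρ : ρ ^ ℓ = π) :
    ∃ c : ↥(inert F P ⊓ U) →* Multiplicative (ZMod ℓ), Continuous c ∧
      ∀ h, c h = 1 ↔ h.1 ρ = ρ := by
  have hp : ℓ.Prime := Fact.out
  have : NeZero ℓ := ⟨hp.ne_zero⟩
  obtain ⟨ζ, hζ⟩ := hE.prim ℓ hp.pos
  have hρ0 : ρ ≠ 0 := by
    rintro rfl
    rw [zero_pow hp.ne_zero] at hρ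
    exact hπ0 hρ.symm
  have hζH : ζ ∈ fld (inert F P ⊓ U) :=
    tmb_mem_fld.2 fun g hg => ru_inert_fix hg.1 (vP_prime_eq_one P hℓ) hζ.pow_eq_one
  have hρH : ρ ^ ℓ ∈ fld (inert F P ⊓ U) := by
    rw [hρ]
    exact tmb_mem_fld.2 fun g hg => tmb_mem_fld.1 hπ g hg.2
  obtain ⟨c, hc, hch⟩ := kum_char hζ hζH hρ0 hρH
  refine ⟨c, hc, fun h => ⟨fun h1 => ?_, fun h1 => ?_⟩⟩
  · rw [hch h, h1]
    simp
  · have h2 := hch h
    rw [h1] at h2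
    have h3 : ζ ^ (Multiplicative.toAdd (c h)).val = 1 := by
      have h4 : ζ ^ (Multiplicative.toAdd (c h)).val * ρ = 1 * ρ := by rw [← h2, one_mul]
      exact mul_right_cancel₀ hρ0 h4
    have h5 := (hζ.pow_eq_one_iff_dvd _).1 h3
    have h6 : (Multiplicative.toAdd (c h)).val = 0 :=
      Nat.eq_zero_of_dvd_of_lt h5 (ZMod.val_lt _)
    have h7 : Multiplicative.toAdd (c h) = 0 := (ZMod.val_eq_zero _).1 h6
    exact h7

omit [NumberField F] [IsGalois F E] [CharZero E] [Algebra.IsAlgebraic ℚ E] in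
/-- powers of an automorphism acting on `y` by a fixed scalar -/
theorem tame_pow_apply {g : Gal(E/F)} {ξ y : E} (hξ : g ξ = ξ) (hy : g y = ξ * y) (n : ℕ) :
    (g ^ n) y = ξ ^ n * y := by
  induction n with
  | zero => simp
  | succ n ih =>
    rw [pow_succ', AlgEquiv.mul_apply, ih, map_mul, map_pow, hξ, hy]
    ring

/-- the root of unity by which `τ ∈ I_U` acts on an `ℓ ^ j`-th root of `π ∈ fld U` -/
theorem tame_quot_spec {U : Subgroup Gal(E/F)} {P : Ideal (𝓞 E)} [P.IsMaximal]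
    (hℓ : ¬ Over P ℓ) {π : E} (hπ : π ∈ fld U) (hπ0 : π ≠ 0)
    {τ : Gal(E/F)} (hτ : τ ∈ inert F P ⊓ U) {j : ℕ} {y : E} (hy : y ^ ℓ ^ j = π) :
    y ≠ 0 ∧ (τ y / y) ^ ℓ ^ j = 1 ∧ τ y = τ y / y * y ∧
      ∀ g ∈ inert F P, g (τ y / y) = τ y / y := by
  have hp : ℓ.Prime := Fact.out
  have hy0 : y ≠ 0 := by
    rintro rfl
    rw [zero_pow (pow_pos hp.pos j).ne'] at hy
    exact hπ0 hy.symm
  have h1 : (τ y / y) ^ ℓ ^ j = 1 := by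
    rw [div_pow, ← map_pow, hy, tmb_mem_fld.1 hπ τ hτ.2, div_self hπ0]
  exact ⟨hy0, h1, (div_mul_cancel₀ _ hy0).symm,
    fun g hg => ru_inert_fix hg (vP_prime_pow_eq_one P hℓ j) h1⟩

/-- If `τ ∈ I_U` moves an `ℓ`-th root `ρ` of `π ∈ fld U` then on every `ℓ ^ j`-th root `y` of `π` every
`h ∈ I_U` acts like a power of `τ`.
`τ y = ξ y` with `ξ ^ ℓ ^ j = 1`; `ξ` is primitive: otherwise `j ≥ 1` and `τ` fixes `y ^ ℓ ^ (j-1)`, an
`ℓ`-th root of `π`, hence `ρ` (`tame_fix_root_iff`).  `h y = ξ' y`, `ξ' = ξ ^ n`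
(`IsPrimitiveRoot.eq_pow_of_pow_eq_one`), and `τ ^ n y = ξ ^ n y` since `τ ξ = ξ`. -/
theorem tame_pow_approx {U : Subgroup Gal(E/F)} {P : Ideal (𝓞 E)} [P.IsMaximal]
    (hℓ : ¬ Over P ℓ) {π ρ : E} (hπ : π ∈ fld U) (hπ0 : π ≠ 0) (hρ : ρ ^ ℓ = π)
    {τ : Gal(E/F)} (hτ : τ ∈ inert F P ⊓ U) (hτρ : τ ρ ≠ ρ) {j : ℕ} {y : E} (hy : y ^ ℓ ^ j = π)
    {h : Gal(E/F)} (hh : h ∈ inert F P ⊓ U) : ∃ n : ℕ, h y = (τ ^ n) y := by
  have hp : ℓ.Prime := Fact.out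
  obtain ⟨hy0, hξ1, hτy, hξfix⟩ := tame_quot_spec hℓ hπ hπ0 hτ hy
  obtain ⟨-, hξ'1, hhy, -⟩ := tame_quot_spec hℓ hπ hπ0 hh hy
  have hprim : IsPrimitiveRoot (τ y / y) (ℓ ^ j) := by
    cases j with
    | zero =>
      rw [pow_zero, pow_one] at hξ1
      rw [hξ1, pow_zero]
      exact IsPrimitiveRoot.one
    | succ j =>
      have hne : ¬ (τ y / y) ^ ℓ ^ j = 1 := by
        intro h1
        apply hτρ
        have h2 : τ (y ^ ℓ ^ j) = y ^ ℓ ^ j := by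
          rw [map_pow, hτy, mul_pow, h1, one_mul]
        refine (tame_fix_root_iff hτ.1 (vP_prime_eq_one P hℓ) (pow_ne_zero _ hy0) ?_).1 h2
        rw [← pow_mul, ← pow_succ, hy, hρ]
      have := orderOf_eq_prime_pow hne hξ1
      rw [← this]
      exact IsPrimitiveRoot.orderOf _
  have : NeZero (ℓ ^ j) := ⟨(pow_pos hp.pos j).ne'⟩
  obtain ⟨n, -, hn⟩ := hprim.eq_pow_of_pow_eq_one hξ'1
  refine ⟨n, ?_⟩
  rw [tame_pow_apply (hξfix τ hτ.1) hτy n, hn]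
  exact hhy

/-- DECOMPOSITION `I_U = N · cl τ`, `N` = the elements of `I_U` fixing all `ℓ`-power roots of `π`.
`C_j = {t ∈ cl τ | t y = g y for all y with y ^ ℓ ^ j = π}` is closed, non-empty (`tame_pow_approx`,
`tame_fix_root_iff`-type argument: two `ℓ ^ j`-th roots differ by a root of unity fixed by `I(P)`) and
decreasing in `j`; `cl τ` is compact; take `t` in the intersection and `i = g t⁻¹`. -/
theorem tame_decomp (hE : RadClosed E) {U : Subgroup Gal(E/F)} (hU : IsOpen (U : Set Gal(E/F)))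
    {P : Ideal (𝓞 E)} [P.IsMaximal]
    (hℓ : ¬ Over P ℓ) {π ρ : E} (hπ : π ∈ fld U) (hπ0 : π ≠ 0) (hρ : ρ ^ ℓ = π)
    {τ : Gal(E/F)} (hτ : τ ∈ inert F P ⊓ U) (hτρ : τ ρ ≠ ρ)
    {g : Gal(E/F)} (hg : g ∈ inert F P ⊓ U) :
    ∃ i ∈ inert F P ⊓ U, (∀ (j : ℕ) (y : E), y ^ ℓ ^ j = π → i y = y) ∧
      ∃ t ∈ lcCl τ, g = i * t := by
  have hp : ℓ.Prime := Fact.out
  have hIU : IsClosed ((inert F P ⊓ U : Subgroup Gal(E/F)) : Set Gal(E/F)) := by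
    rw [Subgroup.coe_inf]
    exact (lc_inert_isClosed P).inter (Subgroup.isClosed_of_isOpen _ hU)
  have hcl : lcCl τ ≤ inert F P ⊓ U :=
    Subgroup.topologicalClosure_minimal _ ((Subgroup.zpowers_le).2 hτ) hIU
  let C : ℕ → Set Gal(E/F) := fun j =>
    ((lcCl τ : Subgroup Gal(E/F)) : Set Gal(E/F)) ∩ ⋂ y : {y : E // y ^ ℓ ^ j = π}, {t | t y.1 = g y.1}
  have hCcl : ∀ j, IsClosed (C j) := by
    intro j
    refine (prof_cl_isClosed τ).inter (isClosed_iInter fun y => ?_)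
    have ho : IsOpen {t : Gal(E/F) | t y.1 ∈ ({g y.1}ᶜ : Set E)} := tmb_isOpen_setOf_apply y.1 _
    have e : {t : Gal(E/F) | t y.1 = g y.1} = {t : Gal(E/F) | t y.1 ∈ ({g y.1}ᶜ : Set E)}ᶜ := by
      ext t
      simp
    rw [e]
    exact ho.isClosed_compl
  have hCne : ∀ j, (C j).Nonempty := by
    intro j
    obtain ⟨y, hy⟩ := hE.root (ℓ ^ j) (pow_pos hp.pos j) π
    obtain ⟨n, hn⟩ := tame_pow_approx hℓ hπ hπ0 hρ hτ hτρ hy hg
    obtain ⟨hy0, -, -, -⟩ := tame_quot_spec hℓ hπ hπ0 hτ hy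
    refine ⟨τ ^ n, (lcCl τ).pow_mem (prof_self_mem_cl τ) n, ?_⟩
    rw [Set.mem_iInter]
    rintro ⟨y', hy'⟩
    show (τ ^ n) y' = g y'
    have hξ : (y' / y) ^ ℓ ^ j = 1 := by
      rw [div_pow, hy, hy', div_self hπ0]
    have e : y' = y' / y * y := (div_mul_cancel₀ _ hy0).symm
    have h1 : (τ ^ n) (y' / y) = y' / y :=
      ru_inert_fix ((inert F P).pow_mem hτ.1 n) (vP_prime_pow_eq_one P hℓ j) hξ
    have h2 : g (y' / y) = y' / y := ru_inert_fix hg.1 (vP_prime_pow_eq_one P hℓ j) hξ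
    rw [e, map_mul, map_mul, h1, h2, hn]
  have hCmono : ∀ j, C (j + 1) ⊆ C j := by
    rintro j t ⟨ht1, ht2⟩
    refine ⟨ht1, ?_⟩
    rw [Set.mem_iInter] at ht2 ⊢
    rintro ⟨y, hy⟩
    obtain ⟨z, hz⟩ := hE.root ℓ hp.pos y
    have hz' : z ^ ℓ ^ (j + 1) = π := by rw [pow_succ', pow_mul, hz, hy]
    have h1 : t z = g z := ht2 ⟨z, hz'⟩
    show t y = g y
    rw [← hz, map_pow, map_pow, h1]
  obtain ⟨t, ht⟩ := IsCompact.nonempty_iInter_of_sequence_nonempty_isCompact_isClosed C hCmono hCne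
    (hCcl 0).isCompact hCcl
  rw [Set.mem_iInter] at ht
  have htcl : t ∈ lcCl τ := (ht 0).1
  have htIU := hcl htcl
  refine ⟨g * t⁻¹, mul_mem hg (inv_mem htIU), ?_, t, htcl, by group⟩
  intro j y hy
  have h1 : (t⁻¹ y) ^ ℓ ^ j = π := by
    rw [← map_pow, hy]
    exact tmb_mem_fld.1 hπ _ (inv_mem htIU.2)
  have h2 := (ht j).2
  rw [Set.mem_iInter] at h2
  have h3 : t (t⁻¹ y) = g (t⁻¹ y) := h2 ⟨t⁻¹ y, h1⟩
  rw [AlgEquiv.mul_apply, ← h3, ← AlgEquiv.mul_apply, mul_inv_cancel, AlgEquiv.one_apply]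

/-- CHARACTERISATION OF TAME GENERATORS.
`⇒`: `tame_tbar` gives `c` with kernel the stabiliser of `ρ`; `c ≠ 1` by `tame_ram`; so `c τ ≠ 1`.
`⇐`: let `c τ = 1`, `g ∈ I_U`, `g = i t` as in `tame_decomp`.  `c i = 1` because `i` is pro-`ℓ'`
(`tame_ker_proL'`, `tprof_char_proL'`); `c t = 1` because `ker c` is closed in `I_U` and contains `τ`
(so it contains `cl τ`). -/
theorem tame_gen_iff (hE : RadClosed E) {U : Subgroup Gal(E/F)}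
    (hU : IsOpen (U : Set Gal(E/F))) {P : Ideal (𝓞 E)} [P.IsMaximal] (hℓ : ¬ Over P ℓ)
    {π ρ : E} (hπ : IsUnif U P π) (hρ : ρ ^ ℓ = π) {τ : Gal(E/F)} :
    IsTameGen ℓ U P τ ↔ τ ∈ inert F P ⊓ U ∧ IsProL ℓ τ ∧ τ ρ ≠ ρ := by
  have hp : ℓ.Prime := Fact.out
  have hIU : IsClosed ((inert F P ⊓ U : Subgroup Gal(E/F)) : Set Gal(E/F)) := by
    rw [Subgroup.coe_inf]
    exact (lc_inert_isClosed P).inter (Subgroup.isClosed_of_isOpen _ hU)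
  constructor
  · intro hτ
    refine ⟨hτ.mem, hτ.proL, fun hfix => ?_⟩
    obtain ⟨c, hc, hch⟩ := tame_tbar hE (U := U) hℓ hπ.mem hπ.ne_zero hρ
    have h1 : c = 1 := hτ.gen c hc ((hch ⟨τ, hτ.mem⟩).2 hfix)
    obtain ⟨h, hh, hhρ⟩ := tame_ram hE hU hp hπ hρ
    apply hhρ
    refine (hch ⟨h, hh⟩).1 ?_
    rw [h1]
    rfl
  · rintro ⟨hmem, hpro, hτρ⟩
    refine ⟨hmem, hpro, fun c hc hcτ => ?_⟩
    -- the kernel of `c`, as a closed subgroup of `Gal(E/F)`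
    have hker : IsClosed (((c.ker).map (inert F P ⊓ U).subtype : Subgroup Gal(E/F)) : Set Gal(E/F)) := by
      have h3 : IsClosed ((c.ker : Subgroup ↥(inert F P ⊓ U)) : Set ↥(inert F P ⊓ U)) :=
        isClosed_singleton.preimage hc
      exact hIU.isClosedEmbedding_subtypeVal.isClosedMap _ h3
    have hle : lcCl τ ≤ (c.ker).map (inert F P ⊓ U).subtype :=
      Subgroup.topologicalClosure_minimal _
        ((Subgroup.zpowers_le).2 ⟨⟨τ, hmem⟩, hcτ, rfl⟩) hker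
    ext ⟨g, hg⟩
    obtain ⟨i, hi, hifix, t, ht, hgit⟩ :=
      tame_decomp hE hU hℓ hπ.mem hπ.ne_zero hρ hmem hτρ hg
    obtain ⟨t', ht', htt'⟩ := hle ht
    have hci : c ⟨i, hi⟩ = 1 :=
      tprof_char_proL' _ c hc ⟨i, hi⟩ (tame_ker_proL' hE hℓ hπ.ne_zero hπ.lt_one hi.1 hifix)
    have e : (⟨g, hg⟩ : ↥(inert F P ⊓ U)) = ⟨i, hi⟩ * t' := by
      apply Subtype.ext
      show g = i * (t' : Gal(E/F))
      rw [hgit]
      congr 1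
      exact htt'.symm
    rw [e, map_mul, hci, one_mul]
    exact ht'

/-! ### Gen-b: helper lemmas (prefix `tmg_`) -/

omit [NumberField F] [CharZero E] [Algebra.IsAlgebraic ℚ E] in
theorem tmg_IU_isClosed {U : Subgroup Gal(E/F)} (hU : IsOpen (U : Set Gal(E/F)))
    (P : Ideal (𝓞 E)) : IsClosed ((inert F P ⊓ U : Subgroup Gal(E/F)) : Set Gal(E/F)) := by
  rw [Subgroup.coe_inf]
  exact (htow_inert_isClosed P).inter (Subgroup.isClosed_of_isOpen U hU)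

omit [NumberField F] [CharZero E] [Algebra.IsAlgebraic ℚ E] in
theorem tmg_cl_le {U : Subgroup Gal(E/F)} (hU : IsOpen (U : Set Gal(E/F)))
    {P : Ideal (𝓞 E)} {h : Gal(E/F)} (hh : h ∈ inert F P ⊓ U) : lcCl h ≤ inert F P ⊓ U :=
  Subgroup.topologicalClosure_minimal _ ((Subgroup.zpowers_le).2 hh) (tmg_IU_isClosed hU P)

omit [NumberField F] [IsGalois F E] [CharZero E] [Algebra.IsAlgebraic ℚ E] in
theorem tmg_pow_apply {τ : Gal(E/F)} {ξ y : E} (h1 : τ y = ξ * y) (h2 : τ ξ = ξ) (n : ℕ) :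
    (τ ^ n) y = ξ ^ n * y := by
  induction n with
  | zero => simp
  | succ n ih =>
    rw [pow_succ', AlgEquiv.mul_apply, ih, map_mul, map_pow, h2, h1]
    ring

omit [NumberField F] [IsGalois F E] [CharZero E] [Algebra.IsAlgebraic ℚ E] in
theorem tmg_fix_of_coprime {g : Gal(E/F)} {x : E} {a b : ℕ} (hab : Nat.Coprime a b)
    (ha : (g ^ a) x = x) (hb : (g ^ b) x = x) : g x = x := by
  have h1 : g ^ a ∈ lcStab F x := ha
  have h2 : g ^ b ∈ lcStab F x := hb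
  have h3 : g ^ ((a : ℤ) * Nat.gcdA a b + (b : ℤ) * Nat.gcdB a b) ∈ lcStab F x := by
    rw [zpow_add, zpow_mul, zpow_mul, zpow_natCast, zpow_natCast]
    exact mul_mem (zpow_mem h1 _) (zpow_mem h2 _)
  rw [← Nat.gcd_eq_gcd_ab, hab.gcd_eq_one] at h3
  simpa using h3

/-- `τ y / y` is a primitive `ℓ ^ j`-th root of unity. -/
theorem tmg_prim {P : Ideal (𝓞 E)} [P.IsMaximal] (hℓ : ¬ Over P ℓ) {π ρ : E} (hπ0 : π ≠ 0)
    (hρ : ρ ^ ℓ = π) {τ : Gal(E/F)} (hτ : τ ∈ inert F P) (hτπ : τ π = π) (hτρ : τ ρ ≠ ρ)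
    {j : ℕ} {y : E} (hy : y ^ ℓ ^ j = π) : IsPrimitiveRoot (τ y / y) (ℓ ^ j) := by
  have hy0 : y ≠ 0 := by
    rintro rfl
    rw [zero_pow (pow_ne_zero _ (Fact.out : ℓ.Prime).ne_zero)] at hy
    exact hπ0 hy.symm
  have h1 : (τ y / y) ^ ℓ ^ j = 1 := by
    rw [div_pow, ← map_pow, hy, hτπ, div_self hπ0]
  cases j with
  | zero => simpa using h1
  | succ j =>
    have h2 : ¬ (τ y / y) ^ ℓ ^ j = 1 := by
      intro h
      apply hτρ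
      have h3 : τ (y ^ ℓ ^ j) = y ^ ℓ ^ j := by
        rw [div_pow, ← map_pow, div_eq_one_iff_eq (pow_ne_zero _ hy0)] at h
        exact h
      refine (tame_fix_root_iff hτ (vP_prime_eq_one P hℓ) (pow_ne_zero _ hy0) ?_).1 h3
      rw [hρ, ← pow_mul, ← pow_succ, hy]
    have := orderOf_eq_prime_pow h2 h1
    rw [← this]
    exact IsPrimitiveRoot.orderOf _

section congr

variable {P : Ideal (𝓞 E)} [P.IsMaximal]

theorem tmg_trans {a b c : E} (h1 : lcv P (a - b) < 1) (h2 : lcv P (b - c) < 1) :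
    lcv P (a - c) < 1 := by
  have : a - c = (a - b) + (b - c) := by ring
  rw [this]
  exact Valuation.map_add_lt _ h1 h2

theorem tmg_symm {a b : E} (h1 : lcv P (a - b) < 1) : lcv P (b - a) < 1 := by
  rwa [Valuation.map_sub_swap]

end congr

/-- Tame generators exist: `h ∈ I_U` with `h ρ ≠ ρ` (`tame_ram`), `h = h' h''` (`prof_lpart`), `τ = h'`;
`τ ∈ I_U` (closed), `c τ = c h ≠ 1` for `c` of `tame_tbar` (`tprof_char_proL'` kills `h''`). -/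
theorem tm_exists_gen (hE : RadClosed E) (U : Subgroup Gal(E/F))
    (hU : IsOpen (U : Set Gal(E/F))) (P : Ideal (𝓞 E)) [P.IsMaximal] (hℓ : ¬ Over P ℓ) :
    ∃ τ, IsTameGen ℓ U P τ := by
  have hℓp : ℓ.Prime := Fact.out
  obtain ⟨π, hπ⟩ := exists_unif U hU P
  obtain ⟨ρ, hρ⟩ := hE.root ℓ hℓp.pos π
  obtain ⟨h, hh, hhρ⟩ := tame_ram hE hU hℓp hπ hρ
  obtain ⟨h', hh', h'', hh'', heq, hl, hl'⟩ := prof_lpart ℓ h
  have hle := tmg_cl_le hU hh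
  obtain ⟨c, hc, hck⟩ := tame_tbar (F := F) (U := U) hE hℓ hπ.mem hπ.ne_zero hρ
  refine ⟨h', (tame_gen_iff hE hU hℓ hπ hρ).2 ⟨hle hh', hl, ?_⟩⟩
  intro hfix
  have h1 : c ⟨h', hle hh'⟩ = 1 := (hck _).2 hfix
  have h2 : c ⟨h'', hle hh''⟩ = 1 := tprof_char_proL' _ c hc _ hl'
  have h3 : c ⟨h, hh⟩ = 1 := by
    have : (⟨h, hh⟩ : ↥(inert F P ⊓ U)) = ⟨h', hle hh'⟩ * ⟨h'', hle hh''⟩ := Subtype.ext heq
    rw [this, map_mul, h1, h2, one_mul]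
  exact hhρ ((hck _).1 h3)

/-- A tame generator has infinite order.  If `τ ^ n = 1`, `n = ℓ ^ a m`, `ℓ ∤ m`, take `y` with
`y ^ ℓ ^ (a+1) = π`, `τ y = ξ y` with `ξ` a primitive `ℓ ^ (a+1)`-th root of unity fixed by `τ`; then
`τ ^ n y = ξ ^ n y`, so `ξ ^ n = 1`, so `ℓ ^ (a+1) ∣ n`. -/
theorem tm_gen_pow_ne_one (hE : RadClosed E) {U : Subgroup Gal(E/F)}
    (hU : IsOpen (U : Set Gal(E/F))) {P : Ideal (𝓞 E)} [P.IsMaximal] (hℓ : ¬ Over P ℓ)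
    {τ : Gal(E/F)} (hτ : IsTameGen ℓ U P τ) {n : ℕ} (hn : 0 < n) : τ ^ n ≠ 1 := by
  have hℓp : ℓ.Prime := Fact.out
  intro h1
  obtain ⟨π, hπ⟩ := exists_unif U hU P
  obtain ⟨ρ, hρ⟩ := hE.root ℓ hℓp.pos π
  obtain ⟨hm, -, hτρ⟩ := (tame_gen_iff hE hU hℓ hπ hρ).1 hτ
  obtain ⟨a, m, hma, rfl⟩ := Nat.exists_eq_pow_mul_and_not_dvd hn.ne' ℓ hℓp.ne_one
  obtain ⟨y, hy⟩ := hE.root (ℓ ^ (a + 1)) (pow_pos hℓp.pos _) π
  have hy0 : y ≠ 0 := by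
    rintro rfl
    rw [zero_pow (pow_ne_zero _ hℓp.ne_zero)] at hy
    exact hπ.ne_zero hy.symm
  have hτπ : τ π = π := tmb_mem_fld.1 hπ.mem τ hm.2
  have hprim := tmg_prim hℓ hπ.ne_zero hρ hm.1 hτπ hτρ hy
  have hfix : τ (τ y / y) = τ y / y :=
    ru_inert_fix hm.1 (vP_prime_pow_eq_one P hℓ (a + 1)) hprim.pow_eq_one
  have h2 := tmg_pow_apply (τ := τ) (ξ := τ y / y) (y := y) (by field_simp) hfix (ℓ ^ a * m)
  rw [h1, AlgEquiv.one_apply] at h2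
  have h3 : (τ y / y) ^ (ℓ ^ a * m) = 1 := by
    have := mul_right_cancel₀ hy0 (by rw [one_mul]; exact h2 : 1 * y = (τ y / y) ^ (ℓ ^ a * m) * y)
    exact this.symm
  have h4 := hprim.dvd_of_pow_eq_one _ h3
  rw [pow_succ] at h4
  exact hma (Nat.dvd_of_mul_dvd_mul_left (pow_pos hℓp.pos a) h4)

/-- THE TAME RELATION, general form: for EVERY pro-`ℓ` element `τ` of `I_U(P)` some Frobenius lift `σ` of
`U` satisfies `σ τ σ⁻¹ = τ ^ N`.  Take any Frobenius lift `σ₀` (`hilp_exists_frob`), `a = τ ^ N`,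
`b = σ₀ τ σ₀⁻¹`, `W = wild F P ⊓ U`: closed (`wild_isClosed`), elementwise pro-`p` (`wild_isProL`) hence
pro-`ℓ'` (`tprof_proL'_of_proL`), normalised by `a` (`wild_conj_mem`), `a⁻¹ b ∈ W` (`wild_frob_conj`), `a`, `b`
pro-`ℓ`.  `tprof_conj` gives `w ∈ W` with `w b w⁻¹ = a`; `σ = w σ₀` is a Frobenius lift
(`tmb_inert_mul_frob`, `wild_le_inert`). -/
theorem tm_exists_frob' {U : Subgroup Gal(E/F)} (hU : IsOpen (U : Set Gal(E/F)))
    {P : Ideal (𝓞 E)} [P.IsMaximal] (hℓ : ¬ Over P ℓ) {τ : Gal(E/F)} (hτ : τ ∈ inert F P ⊓ U)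
    (hl : IsProL ℓ τ) : ∃ σ, IsFrob U P σ ∧ σ * τ * σ⁻¹ = τ ^ normAt U P := by
  have hℓp : ℓ.Prime := Fact.out
  obtain ⟨σ₀, hσ₀⟩ := hilp_exists_frob U hU P
  obtain ⟨p, hp, hPp⟩ := lc_exists_over P
  have hne : p ≠ ℓ := by
    rintro rfl
    exact hℓ hPp
  have haI : τ ^ normAt U P ∈ inert F P ⊓ U := pow_mem hτ _
  have haD : τ ^ normAt U P ∈ decomp F P := hbas_inert_le_decomp P haI.1
  have hWcl : IsClosed ((wild F P ⊓ U : Subgroup Gal(E/F)) : Set Gal(E/F)) := by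
    rw [Subgroup.coe_inf]
    exact wild_isClosed.inter (Subgroup.isClosed_of_isOpen U hU)
  obtain ⟨w, hw, hwab⟩ := tprof_conj (ℓ := ℓ) (wild F P ⊓ U) hWcl
    (fun w hw => tprof_proL'_of_proL hp hℓp hne (wild_isProL hp hPp hw.1))
    (τ ^ normAt U P) (σ₀ * τ * σ₀⁻¹) (hl.pow _) (hl.conj σ₀)
    (fun w hw => Subgroup.mem_inf.2 ⟨wild_conj_mem haD hw.1,
      U.mul_mem (U.mul_mem haI.2 hw.2) (U.inv_mem haI.2)⟩)
    (fun w hw => Subgroup.mem_inf.2 ⟨by simpa using wild_conj_mem (inv_mem haD) hw.1,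
      U.mul_mem (U.mul_mem (U.inv_mem haI.2) hw.2) haI.2⟩)
    (Subgroup.mem_inf.2 ⟨wild_frob_conj hσ₀ hτ.1,
      U.mul_mem (U.inv_mem haI.2) (U.mul_mem (U.mul_mem hσ₀.1 hτ.2) (U.inv_mem hσ₀.1))⟩)
  refine ⟨w * σ₀, tmb_inert_mul_frob hσ₀ ⟨wild_le_inert hw.1, hw.2⟩, ?_⟩
  rw [← hwab]
  group

/-- THE TAME RELATION (two levels), as in the interface. -/
theorem tm_exists_frob {U V : Subgroup Gal(E/F)}
    (hV : IsOpen (V : Set Gal(E/F))) (hVU : V ≤ U)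
    {P : Ideal (𝓞 E)} [P.IsMaximal] (hℓ : ¬ Over P ℓ)
    {τ : Gal(E/F)} (hτ : IsTameGen ℓ V P τ) :
    ∃ σ, IsFrob U P σ ∧ σ * τ * σ⁻¹ = τ ^ normAt U P :=
  tm_exists_frob' (Subgroup.isOpen_mono hVU hV) hℓ ⟨hτ.mem.1, hVU hτ.mem.2⟩ hτ.proL

/-- Passing to an open subgroup `V` normal in `U`.
Let `π, π'` be uniformisers for `U, V`, `v π = v π' ^ e`, `e = ℓ ^ a m`, `ℓ ∤ m` (`IsUnif.tower`);
`ρ' ^ ℓ = π'`, `y ^ ℓ ^ (a+1) = π`.
(1) `v (ρ' ^ m) = v y` (`vP_eq_of_pow_eq`), so `q(τ, ρ') ^ m ≡ q(τ, y) = ξ`, a PRIMITIVE `ℓ ^ (a+1)`-th root of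
unity (as in `tame_pow_approx`).
(2) `g = τ ^ ℓ ^ a ∈ V`: for `0 ≠ x ∈ fld V`, `v x = v π' ^ s`, so `q(g, x) ≡ q(τ, π') ^ (s ℓ ^ a)`, and
`q(τ, π') ^ (m ℓ ^ a) = q(τ, ρ') ^ (m ℓ ^ (a+1)) ≡ ξ ^ ℓ ^ (a+1) = 1`, while `q(τ, π')` has `ℓ`-power order mod `P`
(`wild_quot_proL`): so `q(g, x) ≡ 1` (`vP_one_of_coprime`).  `fld V` is `g`-stable (`V` normal in `U`);
`wild_pow_fix` gives `g ^ p ^ s x = x`; also `g ^ ℓ ^ r x = x`; so `g x = x`.  `tmb_mem_of_fixes`.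
(3) `k = a` works: `q(τ ^ ℓ ^ a, ρ') ^ m ≡ q(τ, ρ') ^ (m ℓ ^ a) ≡ ξ ^ ℓ ^ a ≠ 1` (`ru_eq_one`), so
`τ ^ ℓ ^ a` moves `ρ'`; conclude by `tame_gen_iff` for `V`. -/
theorem tm_sub (hE : RadClosed E) {U V : Subgroup Gal(E/F)}
    (hV : IsOpen (V : Set Gal(E/F))) (hVU : V ≤ U) (hn : ∀ u ∈ U, ∀ v ∈ V, u * v * u⁻¹ ∈ V)
    {P : Ideal (𝓞 E)} [P.IsMaximal] (hℓ : ¬ Over P ℓ) {τ : Gal(E/F)} (hτ : IsTameGen ℓ U P τ) :
    ∃ k : ℕ, IsTameGen ℓ V P (τ ^ ℓ ^ k) := by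
  have hℓp : ℓ.Prime := Fact.out
  have hU : IsOpen (U : Set Gal(E/F)) := Subgroup.isOpen_mono hVU hV
  obtain ⟨p, hp, hPp⟩ := lc_exists_over P
  have hne : p ≠ ℓ := by
    rintro rfl
    exact hℓ hPp
  obtain ⟨π, hπ⟩ := exists_unif U hU P
  obtain ⟨π', hπ'⟩ := exists_unif V hV P
  obtain ⟨e, he, hve⟩ := IsUnif.tower hVU hπ hπ'
  obtain ⟨a, m, hma, rfl⟩ := Nat.exists_eq_pow_mul_and_not_dvd he.ne' ℓ hℓp.ne_one
  obtain ⟨ρ, hρ⟩ := hE.root ℓ hℓp.pos π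
  obtain ⟨ρ', hρ'⟩ := hE.root ℓ hℓp.pos π'
  obtain ⟨y, hy⟩ := hE.root (ℓ ^ (a + 1)) (pow_pos hℓp.pos _) π
  obtain ⟨hm, hl, hτρ⟩ := (tame_gen_iff hE hU hℓ hπ hρ).1 hτ
  have hy0 : y ≠ 0 := by
    rintro rfl
    rw [zero_pow (pow_ne_zero _ hℓp.ne_zero)] at hy
    exact hπ.ne_zero hy.symm
  have hρ'0 : ρ' ≠ 0 := by
    rintro rfl
    rw [zero_pow hℓp.ne_zero] at hρ'
    exact hπ'.ne_zero hρ'.symm
  have hτπ : τ π = π := tmb_mem_fld.1 hπ.mem τ hm.2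
  have hprim := tmg_prim hℓ hπ.ne_zero hρ hm.1 hτπ hτρ hy
  have hD := hbas_inert_le_decomp P hm.1
  have hQ1 : lcv P (τ ρ' / ρ') = 1 := wild_quot_unit hD hρ'0
  have hξ1 : lcv P (τ y / y) = 1 := wild_quot_unit hD hy0
  generalize hξ : τ y / y = ξ at hprim hξ1
  generalize hQ : τ ρ' / ρ' = Q at hQ1
  have hQp : ∀ n : ℕ, lcv P (Q ^ n) ≤ 1 := fun n => by rw [map_pow, hQ1, one_pow]
  -- (1)
  have hv1 : lcv P (ρ' ^ m) = lcv P y := by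
    apply vP_eq_of_pow_eq P (pow_pos hℓp.pos (a + 1))
    rw [← map_pow, ← map_pow, hy, hve, ← map_pow, ← hρ']
    congr 1
    ring
  have hQm : lcv P (Q ^ m - ξ) < 1 := by
    have := wild_quot_congr hm.1 (pow_ne_zero m hρ'0) hy0 hv1
    rwa [map_pow, ← div_pow, hQ, hξ] at this
  have hR : lcv P (Q ^ ℓ ^ (a + 1) - 1) < 1 := by
    obtain ⟨k, hk⟩ := wild_quot_proL hm.1 hl hρ'0
    rw [hQ] at hk
    apply vP_one_of_coprime (a := m) (b := ℓ ^ k)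
      (Nat.Coprime.pow_right k ((Nat.Prime.coprime_iff_not_dvd hℓp).2 hma).symm)
    · have := vP_congr_pow (hQp m) hξ1.le hQm (ℓ ^ (a + 1))
      rw [hprim.pow_eq_one] at this
      rwa [← pow_mul, mul_comm, pow_mul]
    · have := vP_congr_pow (hQp _) (by simp) hk (ℓ ^ (a + 1))
      rw [one_pow] at this
      rwa [← pow_mul, mul_comm, pow_mul]
  -- (2)
  have hgI : τ ^ ℓ ^ a ∈ inert F P ⊓ U := pow_mem hm _
  have hgl : IsProL ℓ (τ ^ ℓ ^ a) := hl.pow _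
  have hgρ' := wild_quot_pow hm.1 hρ'0 (ℓ ^ a)
  have hgπ' : lcv P ((τ ^ ℓ ^ a) π' / π' - 1) < 1 := by
    have h1 := wild_quot_pow hm.1 hπ'.ne_zero (ℓ ^ a)
    have h2 : τ π' / π' = Q ^ ℓ := by rw [← hρ', map_pow, ← div_pow, hQ]
    rw [h2, ← pow_mul, ← pow_succ'] at h1
    exact tmg_trans h1 hR
  rw [hQ] at hgρ'
  generalize hg : τ ^ ℓ ^ a = g at hgI hgl hgρ' hgπ'
  have hw : ∀ x ∈ fld V, x ≠ 0 → lcv P (g x - x) < lcv P x := by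
    intro x hx hx0
    obtain ⟨s, hs⟩ := hπ'.gen x hx hx0
    have h1 : lcv P x = lcv P (π' ^ s) := by rw [map_zpow₀]; exact hs
    have h2 := wild_quot_congr hgI.1 hx0 (zpow_ne_zero s hπ'.ne_zero) h1
    rw [map_zpow₀, ← div_zpow] at h2
    have h3 := tmg_trans h2 (vP_one_zpow hgπ' s)
    have h4 : g x - x = (g x / x - 1) * x := by field_simp
    rw [h4, map_mul]
    exact mul_lt_of_lt_one_left (lc_val_pos P hx0) h3
  have hst : ∀ x ∈ fld V, g x ∈ fld V := by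
    intro x hx
    rw [tmb_mem_fld] at hx ⊢
    intro w hw
    have h1 := hx (g⁻¹ * w * g) (by simpa using hn g⁻¹ (inv_mem hgI.2) w hw)
    have h2 : g ((g⁻¹ * w * g) x) = w (g x) := by
      rw [← AlgEquiv.mul_apply, ← AlgEquiv.mul_apply]
      congr 1
      group
    rw [h1] at h2
    exact h2.symm
  have hgV : g ∈ V := by
    refine tmb_mem_of_fixes (Subgroup.isClosed_of_isOpen V hV) fun x hx => ?_
    obtain ⟨s, hs⟩ := wild_pow_fix hp hPp g (fld V).toSubfield.toSubring.toAddSubgroup hst hw hx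
    obtain ⟨k, hk⟩ := isProL_iff.1 hgl x
    exact tmg_fix_of_coprime (Nat.Coprime.pow _ _ ((Nat.coprime_primes hp hℓp).2 hne)) hs hk
  -- (3)
  rw [← hg] at hgI hgV hgl
  refine ⟨a, (tame_gen_iff hE hV hℓ hπ' hρ').2 ⟨⟨hgI.1, hgV⟩, hgl, ?_⟩⟩
  rw [hg]
  intro hfix
  rw [hfix, div_self hρ'0] at hgρ'
  have h2 : lcv P ((Q ^ ℓ ^ a) ^ m - 1) < 1 := by
    simpa using vP_congr_pow (hQp _) (by simp) (tmg_symm hgρ') m
  have h3 := vP_congr_pow (hQp m) hξ1.le hQm (ℓ ^ a)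
  have h4 : lcv P (ξ ^ ℓ ^ a - 1) < 1 :=
    tmg_trans (tmg_symm h3) (by rwa [← pow_mul, mul_comm, pow_mul])
  have h5 : ξ ^ ℓ ^ a = 1 :=
    ru_eq_one (n := ℓ) (vP_prime_eq_one P hℓ) (by rw [← pow_mul, ← pow_succ]; exact hprim.pow_eq_one) h4
  exact hprim.pow_ne_one_of_pos_of_lt (pow_pos hℓp.pos a).ne'
    (pow_lt_pow_right₀ hℓp.one_lt (Nat.lt_succ_self a)) h5

omit [NumberField F] [IsGalois F E] [CharZero E] [Algebra.IsAlgebraic ℚ E] in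
/-- Conjugation maps `cl τ` into `cl (g τ g⁻¹)`. -/
theorem tmg_conj_mem_cl {τ x : Gal(E/F)} (hx : x ∈ lcCl τ) (g : Gal(E/F)) :
    g * x * g⁻¹ ∈ closure (Subgroup.zpowers (g * τ * g⁻¹) : Set Gal(E/F)) := by
  have hx' : x ∈ closure (Subgroup.zpowers τ : Set Gal(E/F)) := hx
  refine map_mem_closure (f := fun z => g * z * g⁻¹) (by fun_prop) hx' ?_
  rintro z hz
  obtain ⟨n, rfl⟩ := Subgroup.mem_zpowers_iff.1 hz
  exact Subgroup.mem_zpowers_iff.2 ⟨n, by simp [conj_zpow]⟩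

/-- The subgroup of `I_V` fixing all `ℓ`-power roots of `π`. -/
def tmgKer (ℓ : ℕ) (V : Subgroup Gal(E/F)) (P : Ideal (𝓞 E)) (π : E) : Subgroup Gal(E/F) :=
  (inert F P ⊓ V) ⊓ ⨅ y : {y : E // ∃ j : ℕ, y ^ ℓ ^ j = π}, lcStab F y.1

omit [NumberField F] [IsGalois F E] [CharZero E] [Algebra.IsAlgebraic ℚ E] [Fact ℓ.Prime] in
theorem tmg_mem_ker {V : Subgroup Gal(E/F)} {P : Ideal (𝓞 E)} {π : E} {i : Gal(E/F)} :
    i ∈ tmgKer ℓ V P π ↔ i ∈ inert F P ⊓ V ∧ ∀ (j : ℕ) (y : E), y ^ ℓ ^ j = π → i y = y := by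
  unfold tmgKer
  rw [Subgroup.mem_inf, Subgroup.mem_iInf]
  refine and_congr Iff.rfl ⟨fun h j y hy => h ⟨y, j, hy⟩, fun h y => ?_⟩
  obtain ⟨j, hj⟩ := y.2
  exact h j y.1 hj

omit [NumberField F] [CharZero E] [Algebra.IsAlgebraic ℚ E] [Fact ℓ.Prime] in
theorem tmg_ker_isClosed {V : Subgroup Gal(E/F)} (hV : IsOpen (V : Set Gal(E/F)))
    (P : Ideal (𝓞 E)) (π : E) : IsClosed (tmgKer ℓ V P π : Set Gal(E/F)) := by
  unfold tmgKer
  rw [Subgroup.coe_inf, Subgroup.coe_iInf]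
  exact (tmg_IU_isClosed hV P).inter
    (isClosed_iInter fun y => Subgroup.isClosed_of_isOpen _ (lc_stab_isOpen (N := F) y.1))

/-- SYLOW CONJUGACY.  `prof_sylow_conj` with `B = I_V`, `B'` = the elements of `I_V` fixing all `ℓ`-power roots
of a uniformiser `π` (closed; normal in `I_V` since `b⁻¹ y` is again a root of `π`; elementwise
pro-`ℓ'` by `tame_ker_proL'`), `hgen` = `tame_decomp` (+ `tame_gen_iff`), `y = τ'`:  `i τ' i⁻¹ ∈ cl τ`, i.e.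
`τ' ∈ cl (i⁻¹ τ i)`. -/
theorem tm_conj (hE : RadClosed E) {V : Subgroup Gal(E/F)} (hV : IsOpen (V : Set Gal(E/F)))
    {P : Ideal (𝓞 E)} [P.IsMaximal] (hℓ : ¬ Over P ℓ) {τ τ' : Gal(E/F)}
    (hτ : IsTameGen ℓ V P τ) (hτ' : IsTameGen ℓ V P τ') :
    ∃ i ∈ inert F P ⊓ V, τ' ∈ closure (Subgroup.zpowers (i * τ * i⁻¹) : Set Gal(E/F)) := by
  have hℓp : ℓ.Prime := Fact.out
  obtain ⟨π, hπ⟩ := exists_unif V hV P
  obtain ⟨ρ, hρ⟩ := hE.root ℓ hℓp.pos π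
  obtain ⟨hm, hl, hτρ⟩ := (tame_gen_iff hE hV hℓ hπ hρ).1 hτ
  obtain ⟨i, hi, hit⟩ := prof_sylow_conj (ℓ := ℓ) (B := inert F P ⊓ V) (B' := tmgKer ℓ V P π)
    (tmg_ker_isClosed hV P π) (fun i hi => (tmg_mem_ker.1 hi).1)
    (fun b hb i hi => by
      obtain ⟨hi1, hi2⟩ := tmg_mem_ker.1 hi
      refine tmg_mem_ker.2 ⟨mul_mem (mul_mem hb hi1) (inv_mem hb), fun j y hy => ?_⟩
      have h1 : (b⁻¹ y) ^ ℓ ^ j = π := by
        rw [← map_pow, hy]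
        exact tmb_mem_fld.1 hπ.mem _ (inv_mem hb.2)
      rw [AlgEquiv.mul_apply, AlgEquiv.mul_apply, hi2 j _ h1, ← AlgEquiv.mul_apply]
      simp)
    (fun i hi => tame_ker_proL' hE hℓ hπ.ne_zero hπ.lt_one (tmg_mem_ker.1 hi).1.1
      (tmg_mem_ker.1 hi).2)
    hl hm
    (fun b hb => by
      obtain ⟨i, hi, hfix, t, ht, hbt⟩ := tame_decomp hE hV hℓ hπ.mem hπ.ne_zero hρ hm hτρ hb
      exact ⟨i, tmg_mem_ker.2 ⟨hi, hfix⟩, t, ht, hbt⟩)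
    hτ'.proL hτ'.mem
  refine ⟨i⁻¹, inv_mem (tmg_mem_ker.1 hi).1, ?_⟩
  have := tmg_conj_mem_cl hit i⁻¹
  have e : i⁻¹ * (i * τ' * i⁻¹) * i⁻¹⁻¹ = τ' := by group
  rwa [e] at this

/-- (= LC S3)  A tame generator moves some `ℓ`-power root of the residue characteristic
(`tame_key` with `π = p`; `τ ≠ 1` by `tm_gen_pow_ne_one`). -/
theorem tm_gen_moves (hE : RadClosed E) {P : Ideal (𝓞 E)} [P.IsMaximal] (hℓ : ¬ Over P ℓ) {p : ℕ}
    (hp : Over P p) (hp0 : p ≠ 0)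
    {U : Subgroup Gal(E/F)} (hU : IsOpen (U : Set Gal(E/F))) {τ : Gal(E/F)}
    (hτ : IsTameGen ℓ U P τ) : ∃ (n : ℕ) (ϖ : E), ϖ ^ ℓ ^ n = (p : E) ∧ τ ϖ ≠ ϖ := by
  by_contra hcon
  push Not at hcon
  have h1 : τ = 1 := tame_key hE hℓ (Nat.cast_ne_zero.2 hp0) (lc_val_over_lt_one P hp) hτ.mem.1
    hτ.proL hcon
  exact tm_gen_pow_ne_one hE hU hℓ hτ one_pos (by rw [pow_one, h1])

/-- (= LC S4)  `tame_decomp` for a uniformiser `π`; `i` fixes the `ℓ ^ n`-th roots `ϖ` of `p` as well: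
`v p = v π ^ e`, `y ^ ℓ ^ n = π`, `v ϖ = v (y ^ e)`, `tame_fix_of_val`. -/
theorem tm_gen_decomp (hE : RadClosed E) {P : Ideal (𝓞 E)} [P.IsMaximal] (hℓ : ¬ Over P ℓ) {p : ℕ}
    (hp : Over P p) (hp0 : p ≠ 0)
    {U : Subgroup Gal(E/F)} (hU : IsOpen (U : Set Gal(E/F))) {τ : Gal(E/F)}
    (hτ : IsTameGen ℓ U P τ) {g : Gal(E/F)} (hg : g ∈ inert F P ⊓ U) :
    ∃ i ∈ inert F P ⊓ U, (∀ (n : ℕ) (ϖ : E), ϖ ^ ℓ ^ n = (p : E) → i ϖ = ϖ) ∧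
      ∃ t ∈ lcCl τ, g = i * t := by
  have hℓp : ℓ.Prime := Fact.out
  obtain ⟨π, hπ⟩ := exists_unif U hU P
  obtain ⟨ρ, hρ⟩ := hE.root ℓ hℓp.pos π
  obtain ⟨hm, hl, hτρ⟩ := (tame_gen_iff hE hU hℓ hπ hρ).1 hτ
  obtain ⟨i, hi, hfix, t, ht, hgt⟩ := tame_decomp hE hU hℓ hπ.mem hπ.ne_zero hρ hm hτρ hg
  refine ⟨i, hi, fun n ϖ hϖ => ?_, t, ht, hgt⟩
  have hpE : (p : E) ≠ 0 := Nat.cast_ne_zero.2 hp0
  obtain ⟨e, he⟩ := hπ.gen (p : E) (natCast_mem _ p) hpE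
  obtain ⟨y, hy⟩ := hE.root (ℓ ^ n) (pow_pos hℓp.pos _) π
  have hy0 : y ≠ 0 := by
    rintro rfl
    rw [zero_pow (pow_ne_zero _ hℓp.ne_zero)] at hy
    exact hπ.ne_zero hy.symm
  have hϖ0 : ϖ ≠ 0 := by
    rintro rfl
    rw [zero_pow (pow_ne_zero _ hℓp.ne_zero)] at hϖ
    exact hpE hϖ.symm
  have hv : lcv P ϖ = lcv P (y ^ e) := by
    apply vP_eq_of_pow_eq P (pow_pos hℓp.pos n)
    rw [← map_pow, hϖ, he, ← hy, map_zpow₀, map_pow, ← zpow_natCast, ← zpow_natCast, ← zpow_mul,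
      ← zpow_mul, mul_comm]
  refine tame_fix_of_val hi.1 (vP_prime_pow_eq_one P hℓ n) hϖ0 (zpow_ne_zero e hy0) hv ?_ ?_
  · rw [map_zpow₀, hfix n y hy]
  · rw [hϖ, map_natCast]

end Claimed.Agent.R239
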