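/-
Row 239 (S0475), package TAME, leaf TAME.chi (owner helper82).
`tchi_inert`, `tchi_frob`, `tchi_decomp` = `chi_inert`, `chi_frob`, `chi_decomp` of `Iface/TAME.lean`:
the `ℓ`-adic cyclotomic character on inertia, Frobenius lifts and decomposition groups at `P ∤ ℓ`.
Key point: reduction mod `P ∤ ℓ` is injective on the roots of unity of `ℓ`-power order.
-/
import Claimed.Agent.R239.Tame.HilTower
import Claimed.Agent.R239.Solv

set_option autoImplicit false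

namespace Claimed.Agent.R239

open NumberField Claims.C0403
open scoped Pointwise

variable {ℓ : ℕ} [hℓp : Fact ℓ.Prime]

section Roots

variable {E : Type*} [Field E]

omit hℓp in
/-- A root of unity of `ℓ`-power order which is `≡ 1 mod P`, `P ∤ ℓ`, is `1`. -/
theorem tchi_root_eq_one {P : Ideal (𝓞 E)} (hℓ : ¬ Over P ℓ) (n : ℕ) (ξ : 𝓞 E)
    (h1 : ξ ^ ℓ ^ n = 1) (h2 : ξ - 1 ∈ P) : ξ = 1 := by
  induction n generalizing ξ with
  | zero => simpa using h1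
  | succ n ih =>
    have hsub : ∀ i : ℕ, ξ ^ i - 1 ∈ P := fun i => by
      have := sub_dvd_pow_sub_pow ξ 1 i
      rw [one_pow] at this
      exact Ideal.mem_of_dvd P this h2
    have h3 : ξ ^ ℓ = 1 := ih (ξ ^ ℓ) (by rw [← pow_mul, ← pow_succ']; exact h1) (hsub ℓ)
    by_contra hne
    have h4 : (ξ - 1) * ∑ i ∈ Finset.range ℓ, ξ ^ i = 0 := by rw [mul_geom_sum, h3, sub_self]
    have h5 : ∑ i ∈ Finset.range ℓ, ξ ^ i = 0 := (mul_eq_zero.1 h4).resolve_left (sub_ne_zero.2 hne)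
    apply hℓ
    have h6 : (ℓ : 𝓞 E) = -∑ i ∈ Finset.range ℓ, (ξ ^ i - 1) := by
      rw [Finset.sum_sub_distrib, h5]
      simp
    show (ℓ : 𝓞 E) ∈ P
    rw [h6]
    exact P.neg_mem (P.sum_mem fun i _ => hsub i)

omit hℓp in
/-- Reduction mod `P ∤ ℓ` is injective on `μ_{ℓ^n}`. -/
theorem tchi_root_inj {P : Ideal (𝓞 E)} (hℓ : ¬ Over P ℓ) (hpos : 0 < ℓ) (n : ℕ) (S T : 𝓞 E)
    (hS : S ^ ℓ ^ n = 1) (hT : T ^ ℓ ^ n = 1) (h : S - T ∈ P) : S = T := by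
  have hpos' : 0 < ℓ ^ n := pow_pos hpos n
  have hTT : T ^ (ℓ ^ n - 1) * T = 1 := by rw [← pow_succ, Nat.sub_add_cancel hpos', hT]
  have h1 : S * T ^ (ℓ ^ n - 1) = 1 := by
    apply tchi_root_eq_one hℓ n
    · rw [mul_pow, hS, one_mul, ← pow_mul, mul_comm, pow_mul, hT, one_pow]
    · have e : S * T ^ (ℓ ^ n - 1) - 1 = (S - T) * T ^ (ℓ ^ n - 1) := by
        rw [sub_mul, mul_comm T, hTT]
      rw [e]
      exact P.mul_mem_right _ h
  calc S = S * (T ^ (ℓ ^ n - 1) * T) := by rw [hTT, mul_one]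
    _ = (S * T ^ (ℓ ^ n - 1)) * T := by ring
    _ = T := by rw [h1, one_mul]

omit hℓp in
theorem tchi_isIntegral (hpos : 0 < ℓ) {n : ℕ} {t : E} (ht : t ^ ℓ ^ n = 1) : IsIntegral ℤ t :=
  IsIntegral.of_pow (pow_pos hpos n) (by rw [ht]; exact isIntegral_one)

end Roots

section Chi

variable {F E : Type*} [Field F] [Field E] [Algebra F E]

/-- Characterisation of `χ_ℓ(g) mod ℓ^n`. -/
theorem tchi_toZModPow_eq (hprim : ∀ i : ℕ, ∃ ζ : E, IsPrimitiveRoot ζ (ℓ ^ i)) (g : Gal(E/F)) (n a : ℕ)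
    (hc : ∀ t : E, t ^ ℓ ^ n = 1 → g t = t ^ a) :
    PadicInt.toZModPow n ((chi ℓ F E g : ℤ_[ℓ]ˣ) : ℤ_[ℓ]) = (a : ZMod (ℓ ^ n)) := by
  have _ (i) : HasEnoughRootsOfUnity E (ℓ ^ i) := ⟨hprim i, rootsOfUnity.isCyclic _ _⟩
  unfold chi
  rw [MonoidHom.comp_apply, cyclotomicCharacter.toZModPow]
  symm
  apply modularCyclotomicCharacter.unique
  intro t ht
  have ht' : (t : E) ^ ℓ ^ n = 1 := by
    have := congrArg Units.val ((mem_rootsOfUnity _ _).1 ht)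
    rwa [Units.val_pow_eq_pow_val, Units.val_one] at this
  rw [ZMod.val_natCast, ← pow_eq_pow_mod a ht']
  exact hc t ht'

/-- If `g` acts on the integers `T` with `T^(ℓ^n) = 1` as `T ↦ T^a` modulo `P ∤ ℓ`, then `χ_ℓ(g) ≡ a mod ℓ^n`. -/
theorem tchi_toZModPow_of_mod (hprim : ∀ i : ℕ, ∃ ζ : E, IsPrimitiveRoot ζ (ℓ ^ i)) {P : Ideal (𝓞 E)}
    (hℓ : ¬ Over P ℓ) (g : Gal(E/F)) (n a : ℕ)
    (hc : ∀ T : 𝓞 E, T ^ ℓ ^ n = 1 → g • T - T ^ a ∈ P) :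
    PadicInt.toZModPow n ((chi ℓ F E g : ℤ_[ℓ]ˣ) : ℤ_[ℓ]) = (a : ZMod (ℓ ^ n)) := by
  apply tchi_toZModPow_eq hprim
  intro t ht
  let T : 𝓞 E := ⟨t, tchi_isIntegral hℓp.out.pos ht⟩
  have hT : T ^ ℓ ^ n = 1 := RingOfIntegers.ext ht
  have h1 : g • T = T ^ a := by
    apply tchi_root_inj hℓ hℓp.out.pos n _ _ _ _ (hc T hT)
    · rw [← smul_pow', hT, smul_one]
    · rw [← pow_mul, mul_comm, pow_mul, hT, one_pow]
  exact congrArg (fun z : 𝓞 E => (z : E)) h1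

theorem tchi_inert_of_prim (hprim : ∀ i : ℕ, ∃ ζ : E, IsPrimitiveRoot ζ (ℓ ^ i)) {P : Ideal (𝓞 E)}
    (hℓ : ¬ Over P ℓ) {g : Gal(E/F)} (hg : g ∈ inert F P) : chi ℓ F E g = 1 := by
  apply Units.ext
  apply PadicInt.ext_of_toZModPow.1
  intro n
  rw [tchi_toZModPow_of_mod hprim hℓ g n 1 fun T _ => by rw [pow_one]; exact hbas_mem_inert_iff.1 hg T]
  simp

theorem tchi_frob_of_prim (hprim : ∀ i : ℕ, ∃ ζ : E, IsPrimitiveRoot ζ (ℓ ^ i)) {U : Subgroup Gal(E/F)}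
    {P : Ideal (𝓞 E)} (hℓ : ¬ Over P ℓ) {σ : Gal(E/F)} (hσ : IsFrob U P σ) :
    ((chi ℓ F E σ : ℤ_[ℓ]ˣ) : ℤ_[ℓ]) = (normAt U P : ℤ_[ℓ]) := by
  apply PadicInt.ext_of_toZModPow.1
  intro n
  rw [tchi_toZModPow_of_mod hprim hℓ σ n (normAt U P) fun T _ => hσ.2 T, map_natCast]

end Chi

section Final

variable {F E : Type} [Field F] [NumberField F] [Field E] [Algebra F E] [IsGalois F E]

theorem tchi_prim (F : Type) {E : Type} [Field F] [CharZero F] [Field E] [Algebra F E]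
    (hE : SolvablyClosed E) (i : ℕ) : ∃ ζ : E, IsPrimitiveRoot ζ (ℓ ^ i) := by
  have hchar : CharZero E := charZero_of_injective_algebraMap (algebraMap F E).injective
  exact solv_exists_prim hE (pow_pos hℓp.out.pos i)

/-- an element of `D_U(P)` acts on a given integer as a power of the Frobenius of `M_U`. -/
theorem tchi_decomp_pow {U : Subgroup Gal(E/F)} (hU : IsOpen (U : Set Gal(E/F))) (P : Ideal (𝓞 E))
    [P.IsMaximal] {g : Gal(E/F)} (hg : g ∈ decomp F P ⊓ U) (y : 𝓞 E) :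
    ∃ j : ℕ, g • y - y ^ (normAt U P ^ j) ∈ P := by
  have := hilb_numberField U hU
  have hint : IsIntegral (fld U) (y : E) := (Algebra.IsIntegral.isIntegral (R := F) (y : E)).tower_top
  have hfd : FiniteDimensional (fld U) (IntermediateField.adjoin (fld U) {(y : E)}) :=
    IntermediateField.adjoin.finiteDimensional hint
  have hnf : NumberField (IntermediateField.adjoin (fld U) {(y : E)}) :=
    NumberField.of_module_finite (fld U) _
  have := hilp_finite_quot (fld U) (P.under (𝓞 (fld U)))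
  have := hilp_finite_quot (IntermediateField.adjoin (fld U) {(y : E)})
    (P.under (𝓞 (IntermediateField.adjoin (fld U) {(y : E)})))
  obtain ⟨j, hj⟩ := hilb_frob_pow_on_sub (fld U) (IntermediateField.adjoin (fld U) {(y : E)}) P
    (hilbToGal U ⟨g, hg.2⟩) (MulAction.mem_stabilizer_iff.1 hg.1)
  let y' : 𝓞 (IntermediateField.adjoin (fld U) {(y : E)}) :=
    ⟨⟨(y : E), IntermediateField.mem_adjoin_simple_self (fld U) (y : E)⟩, by
      show IsIntegral ℤ _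
      rw [← isIntegral_algebraMap_iff (algebraMap (IntermediateField.adjoin (fld U) {(y : E)}) E).injective]
      exact y.2⟩
  have hy' : algebraMap (𝓞 (IntermediateField.adjoin (fld U) {(y : E)})) (𝓞 E) y' = y :=
    RingOfIntegers.ext rfl
  have := hj y'
  rw [hy'] at this
  exact ⟨j, this⟩

omit [IsGalois F E] in
/-- `chi_inert` of `Iface/TAME.lean`. -/
theorem tchi_inert (hE : SolvablyClosed E) {P : Ideal (𝓞 E)} [P.IsMaximal] (hℓ : ¬ Over P ℓ)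
    {g : Gal(E/F)} (hg : g ∈ inert F P) : chi ℓ F E g = 1 :=
  tchi_inert_of_prim (tchi_prim F hE) hℓ hg

omit [IsGalois F E] in
/-- `chi_frob` of `Iface/TAME.lean`. -/
theorem tchi_frob (hE : SolvablyClosed E) {U : Subgroup Gal(E/F)} {P : Ideal (𝓞 E)} [P.IsMaximal]
    (hℓ : ¬ Over P ℓ) {σ : Gal(E/F)} (hσ : IsFrob U P σ) :
    ((chi ℓ F E σ : ℤ_[ℓ]ˣ) : ℤ_[ℓ]) = (normAt U P : ℤ_[ℓ]) :=
  tchi_frob_of_prim (tchi_prim F hE) hℓ hσ

/-- `chi_decomp` of `Iface/TAME.lean`. -/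
theorem tchi_decomp (hE : SolvablyClosed E) {U : Subgroup Gal(E/F)}
    (hU : IsOpen (U : Set Gal(E/F))) {P : Ideal (𝓞 E)} [P.IsMaximal]
    (hℓ : ¬ Over P ℓ) {g : Gal(E/F)} (hg : g ∈ decomp F P ⊓ U) (n : ℕ) :
    ∃ k : ℕ, PadicInt.toZModPow n ((chi ℓ F E g : ℤ_[ℓ]ˣ) : ℤ_[ℓ]) = (normAt U P : ZMod (ℓ ^ n)) ^ k := by
  obtain ⟨ζ, hζ⟩ := tchi_prim (ℓ := ℓ) F hE n
  let Z : 𝓞 E := ⟨ζ, tchi_isIntegral hℓp.out.pos hζ.pow_eq_one⟩
  have hZ : Z ^ ℓ ^ n = 1 := RingOfIntegers.ext hζ.pow_eq_one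
  obtain ⟨j, hj⟩ := tchi_decomp_pow hU P hg Z
  have h1 : g • Z = Z ^ (normAt U P ^ j) := by
    apply tchi_root_inj hℓ hℓp.out.pos n _ _ _ _ hj
    · rw [← smul_pow', hZ, smul_one]
    · rw [← pow_mul, mul_comm, pow_mul, hZ, one_pow]
  have h2 : g ζ = ζ ^ (normAt U P ^ j) := congrArg (fun z : 𝓞 E => (z : E)) h1
  refine ⟨j, ?_⟩
  rw [tchi_toZModPow_eq (tchi_prim F hE) g n (normAt U P ^ j), Nat.cast_pow]
  intro t ht
  obtain ⟨i, -, rfl⟩ := hζ.eq_pow_of_pow_eq_one ht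
  rw [map_pow, h2, ← pow_mul, ← pow_mul, mul_comm]

end Final

end Claimed.Agent.R239
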