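/-
Row 239 (S0475), package HIL+TAME (owner helper28).  File ChiConj: `tm_chi_of_conj` = `chi_of_conj` of Iface/TAME
(with `RadClosed`): conjugation on pro-`ℓ` inertia elements is through the cyclotomic character.
(`chi_inert`, `chi_frob`, `chi_decomp` are in helper82's Tame/Chi.lean.)
-/
import Claimed.Agent.R239.Tame.Wild

set_option autoImplicit false

namespace Claimed.Agent.R239

open NumberField
open scoped Pointwise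

variable {F E : Type*} [Field F] [NumberField F] [Field E] [Algebra F E] [IsGalois F E]
  [CharZero E] [Algebra.IsAlgebraic ℚ E]
variable {ℓ : ℕ} [Fact ℓ.Prime]

/-- Defining property (`cyclotomicCharacter.spec`; `HasEnoughRootsOfUnity E (ℓ ^ i)` from
`hE.prim`). -/
theorem tm_chi_spec (hE : RadClosed E) (g : Gal(E/F)) {n : ℕ} {t : E} (ht : t ^ ℓ ^ n = 1) :
    g t = t ^ (PadicInt.toZModPow n ((chi ℓ F E g : ℤ_[ℓ]ˣ) : ℤ_[ℓ])).val := by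
  have _ (i) : HasEnoughRootsOfUnity E (ℓ ^ i) :=
    ⟨hE.prim _ (pow_pos (Fact.out : ℓ.Prime).pos i), rootsOfUnity.isCyclic _ _⟩
  exact cyclotomicCharacter.spec ℓ (MulSemiringAction.toRingAut Gal(E/F) E g) t ht

/-- A non-trivial pro-`ℓ` element `τ ∈ I(P)` realises roots of unity of arbitrarily large `ℓ`-power order:
for every `j` there are `x ≠ 0` and a PRIMITIVE `ℓ ^ k`-th root of unity `ξ`, `k > j`, with
`τ x / x ≡ ξ`.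
`τ` is not wild (`wild_eq_one`), so `q(τ, x₀) ≢ 1` for some `x₀`.  Take `x ^ ℓ ^ j = x₀` (`hE.root`):
`q(τ, x) ^ ℓ ^ j = q(τ, x₀) ≢ 1`.  `q(τ, x) ^ ℓ ^ r ≡ 1` for some `r` (`wild_quot_proL`), so
`q(τ, x) ≡ ξ` with `ξ ^ ℓ ^ r = 1` (`ru_lift`), and `ξ ^ ℓ ^ j ≠ 1`; the order of `ξ` is `ℓ ^ k`, `k > j`. -/
theorem tm_chi_exists_large (hE : RadClosed E) {P : Ideal (𝓞 E)} [P.IsMaximal] (hℓ : ¬ Over P ℓ)
    {τ : Gal(E/F)} (hτ : τ ∈ inert F P) (hτ' : IsProL ℓ τ) (hτ1 : τ ≠ 1) (j : ℕ) :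
    ∃ (x ξ : E) (k : ℕ), x ≠ 0 ∧ j < k ∧ IsPrimitiveRoot ξ (ℓ ^ k) ∧ lcv P (τ x / x - ξ) < 1 := by
  have hℓp : ℓ.Prime := Fact.out
  have hnw : τ ∉ wild F P := fun hw => hτ1 (wild_eq_one hℓ hw hτ')
  rw [mem_wild_iff] at hnw
  push Not at hnw
  obtain ⟨x₀, hx₀, hq₀⟩ := hnw hτ
  obtain ⟨x, hx⟩ := hE.root (ℓ ^ j) (pow_pos hℓp.pos j) x₀
  have hx0 : x ≠ 0 := by
    rintro rfl
    rw [zero_pow (pow_pos hℓp.pos j).ne'] at hx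
    exact hx₀ hx.symm
  have hqpow : (τ x / x) ^ ℓ ^ j = τ x₀ / x₀ := by
    rw [div_pow, ← map_pow, hx]
  obtain ⟨r, hr⟩ := wild_quot_proL hτ hτ' hx0
  obtain ⟨ζ, hζ⟩ := hE.prim (ℓ ^ r) (pow_pos hℓp.pos r)
  obtain ⟨i, hi⟩ := ru_lift (pow_pos hℓp.pos r) hζ hr
  have hξr : (ζ ^ i) ^ ℓ ^ r = 1 := by
    rw [← pow_mul, mul_comm, pow_mul, hζ.pow_eq_one, one_pow]
  have hξu : lcv P (ζ ^ i) = 1 := ru_vP_eq_one (pow_pos hℓp.pos r) hξr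
  have hqu : lcv P (τ x / x) = 1 := wild_quot_unit (lc_inert_le_decomp P hτ) hx0
  have hξj : (ζ ^ i) ^ ℓ ^ j ≠ 1 := by
    intro h1
    have h2 := vP_congr_pow hqu.le hξu.le hi (ℓ ^ j)
    rw [h1, hqpow] at h2
    exact absurd h2 (not_lt.2 hq₀)
  obtain ⟨k, -, hk⟩ := (Nat.dvd_prime_pow hℓp).1 (orderOf_dvd_of_pow_eq_one hξr)
  refine ⟨x, ζ ^ i, k, hx0, ?_, hk ▸ IsPrimitiveRoot.orderOf (ζ ^ i), hi⟩
  by_contra hjk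
  apply hξj
  apply orderOf_dvd_iff_pow_eq_one.1
  rw [hk]
  exact pow_dvd_pow ℓ (not_lt.1 hjk)

/-- The conjugation action on a pro-`ℓ` inertia element is through `χ_ℓ`: if `g ∈ D(P)`, `τ ∈ I(P)`
is a non-trivial pro-`ℓ` element and `g τ g⁻¹ = τ ^ n`, then `χ_ℓ(g) = n`.
With `x, ξ, k` of `tm_chi_exists_large`: `ξ ^ n ≡ q(τ, x) ^ n ≡ q(τ ^ n, x) = q(g τ g⁻¹, x) ≡ g (q(τ, x)) ≡ g ξ
= ξ ^ χ(g)` (`wild_quot_pow`, `wild_quot_conj`, `lc_val_galois`, `tm_chi_spec`), so `ξ ^ n = ξ ^ χ(g)` (`ru_inj`),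
so `χ(g) ≡ n (mod ℓ ^ k)`, for arbitrarily large `k`. -/
theorem tm_chi_of_conj (hE : RadClosed E) {P : Ideal (𝓞 E)} [P.IsMaximal] (hℓ : ¬ Over P ℓ)
    {g τ : Gal(E/F)} (hg : g ∈ decomp F P) (hτ : τ ∈ inert F P) (hτ' : IsProL ℓ τ) (hτ1 : τ ≠ 1)
    {n : ℕ} (h : g * τ * g⁻¹ = τ ^ n) : ((chi ℓ F E g : ℤ_[ℓ]ˣ) : ℤ_[ℓ]) = (n : ℤ_[ℓ]) := by
  have hℓp : ℓ.Prime := Fact.out
  apply PadicInt.ext_of_toZModPow.1
  intro j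
  obtain ⟨x, ξ, k, hx0, hjk, hξ, hqξ⟩ := tm_chi_exists_large hE hℓ hτ hτ' hτ1 j
  have hξk : ξ ^ ℓ ^ k = 1 := hξ.pow_eq_one
  have hξu : lcv P ξ = 1 := ru_vP_eq_one (pow_pos hℓp.pos k) hξk
  have hqu : lcv P (τ x / x) = 1 := wild_quot_unit (lc_inert_le_decomp P hτ) hx0
  set c : ℕ := (PadicInt.toZModPow k ((chi ℓ F E g : ℤ_[ℓ]ˣ) : ℤ_[ℓ])).val with hc
  have hgξ : g ξ = ξ ^ c := tm_chi_spec hE g hξk
  have h1 : lcv P (ξ ^ n - (τ x / x) ^ n) < 1 := vP_congr_pow hξu.le hqu.le (wild_cg_symm hqξ) n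
  have h2 : lcv P ((τ x / x) ^ n - (τ ^ n) x / x) < 1 := wild_cg_symm (wild_quot_pow hτ hx0 n)
  have h3 : lcv P ((τ ^ n) x / x - g (τ x / x)) < 1 := by
    rw [← h]
    exact wild_quot_conj hg hτ hx0
  have h4 : lcv P (g (τ x / x) - ξ ^ c) < 1 := by
    rw [← hgξ, ← map_sub, lc_val_galois P hg]
    exact hqξ
  have h5 : lcv P (ξ ^ n - ξ ^ c) < 1 := wild_cg_trans (wild_cg_trans (wild_cg_trans h1 h2) h3) h4
  have h6 : ξ ^ n = ξ ^ c := by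
    refine ru_inj (vP_prime_pow_eq_one P hℓ k) ?_ ?_ h5
    · rw [← pow_mul, mul_comm, pow_mul, hξk, one_pow]
    · rw [← pow_mul, mul_comm, pow_mul, hξk, one_pow]
  have h7 : n ≡ c [MOD ℓ ^ k] := by
    rw [hξ.eq_orderOf]
    exact (isOfFinOrder_iff_pow_eq_one.2 ⟨ℓ ^ k, pow_pos hℓp.pos k, hξk⟩).pow_eq_pow_iff_modEq.1 h6
  have : NeZero (ℓ ^ k) := ⟨(pow_pos hℓp.pos k).ne'⟩
  have h8 : PadicInt.toZModPow k ((chi ℓ F E g : ℤ_[ℓ]ˣ) : ℤ_[ℓ]) = PadicInt.toZModPow k (n : ℤ_[ℓ]) := by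
    rw [map_natCast, (ZMod.natCast_eq_natCast_iff _ _ _).2 h7, hc, ZMod.natCast_zmod_val]
  rw [← PadicInt.cast_toZModPow j k hjk.le, ← PadicInt.cast_toZModPow j k hjk.le (n : ℤ_[ℓ]), h8]

end Claimed.Agent.R239
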