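/-
Row 239 (S0475), package TAME, leaf TAME.lg (owner helper82).
The `ℓ`-adic logarithm `Lg` on `ℤ_ℓˣ` of `Defs.lean`: additivity, continuity, kernel = roots of unity; `log χ_ℓ` is an additive
character.  Statements = `lg_mul`, `lg_continuous`, `lg_eq_zero_iff`, `logChi_mem` of `Iface.lean` (here with prefix `tlg_`).

Method: no formal power series.  For `‖t‖ < 1` one has  `log (1 + t) = lim_n ((1 + t)^(ℓ^n) - 1) / ℓ^n`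
(binomial theorem, `C(N,k+1)/N = C(N-1,k)/(k+1)`, `C(ℓ^n - 1, k) → (-1)^k`, Tannery), and additivity is read off from the limit.
Valid for every prime `ℓ`, including `2`.
-/
import Claimed.Agent.R239.Defs

set_option autoImplicit false

namespace Claimed.Agent.R239

open Filter Topology

variable {ℓ : ℕ} [hℓ : Fact ℓ.Prime]

/-! ### estimates for the terms of the series -/

theorem tlg_inv_norm_natCast_le {n : ℕ} (hn : n ≠ 0) : ‖(n : ℚ_[ℓ])‖⁻¹ ≤ n := by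
  rw [Padic.norm_eq_zpow_neg_valuation (by exact_mod_cast hn), Padic.valuation_natCast, zpow_neg, inv_inv,
    zpow_natCast]
  exact_mod_cast Nat.le_of_dvd (Nat.pos_of_ne_zero hn) pow_padicValNat_dvd

theorem tlg_norm_term_le (c t : ℚ_[ℓ]) (hc : ‖c‖ ≤ 1) (n : ℕ) :
    ‖c * t ^ (n + 1) / ((n : ℚ_[ℓ]) + 1)‖ ≤ ((n : ℝ) + 1) * ‖t‖ ^ (n + 1) := by
  have h1 : ((n : ℚ_[ℓ]) + 1) = ((n + 1 : ℕ) : ℚ_[ℓ]) := by push_cast; ring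
  rw [h1, norm_div, norm_mul, norm_pow, div_eq_mul_inv]
  have h2 := tlg_inv_norm_natCast_le (ℓ := ℓ) (Nat.succ_ne_zero n)
  have h3 : (((n + 1 : ℕ) : ℕ) : ℝ) = (n : ℝ) + 1 := by push_cast; ring
  rw [h3] at h2
  calc ‖c‖ * ‖t‖ ^ (n + 1) * ‖((n + 1 : ℕ) : ℚ_[ℓ])‖⁻¹ ≤ 1 * ‖t‖ ^ (n + 1) * ((n : ℝ) + 1) := by
        gcongr
    _ = ((n : ℝ) + 1) * ‖t‖ ^ (n + 1) := by ring

theorem tlg_summable_bound {r : ℝ} (h0 : 0 ≤ r) (h1 : r < 1) :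
    Summable fun n : ℕ => ((n : ℝ) + 1) * r ^ (n + 1) := by
  have h := summable_pow_mul_geometric_of_norm_lt_one (R := ℝ) 1 (r := r)
    (by rwa [Real.norm_eq_abs, abs_of_nonneg h0])
  have h' := (summable_nat_add_iff 1).2 h
  refine h'.congr fun n => ?_
  push_cast
  ring

theorem tlg_norm_neg_one_pow (n : ℕ) : ‖((-1 : ℚ_[ℓ]) ^ n)‖ ≤ 1 := by
  rw [norm_pow, norm_neg, norm_one, one_pow]

theorem tlg_summable {t : ℚ_[ℓ]} (ht : ‖t‖ < 1) :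
    Summable fun n : ℕ => (-1 : ℚ_[ℓ]) ^ n * t ^ (n + 1) / ((n : ℚ_[ℓ]) + 1) :=
  Summable.of_norm_bounded (tlg_summable_bound (norm_nonneg t) ht)
    fun n => tlg_norm_term_le _ t (tlg_norm_neg_one_pow n) n

/-! ### the limit formula -/

theorem tlg_pow_tendsto_zero : Tendsto (fun n : ℕ => ((ℓ : ℚ_[ℓ]) ^ n)) atTop (𝓝 0) :=
  tendsto_pow_atTop_nhds_zero_of_norm_lt_one Padic.norm_p_lt_one

theorem tlg_choose_tendsto (j : ℕ) :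
    Tendsto (fun n : ℕ => (((ℓ ^ n - 1).choose j : ℕ) : ℚ_[ℓ])) atTop (𝓝 ((-1) ^ j)) := by
  induction j with
  | zero => simp
  | succ j ih =>
    have hlim : Tendsto (fun n : ℕ => (((ℓ ^ n - 1).choose j : ℕ) : ℚ_[ℓ]) *
        (((ℓ : ℚ_[ℓ]) ^ n - 1 - j) / ((j : ℚ_[ℓ]) + 1))) atTop
        (𝓝 ((-1) ^ j * (((0 : ℚ_[ℓ]) - 1 - j) / ((j : ℚ_[ℓ]) + 1)))) :=
      ih.mul (((tlg_pow_tendsto_zero.sub_const 1).sub_const _).div_const _)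
    have hj : ((j : ℚ_[ℓ]) + 1) ≠ 0 := by exact_mod_cast Nat.succ_ne_zero j
    have hval : (-1 : ℚ_[ℓ]) ^ j * (((0 : ℚ_[ℓ]) - 1 - j) / ((j : ℚ_[ℓ]) + 1)) = (-1) ^ (j + 1) := by
      field_simp
      ring
    rw [hval] at hlim
    refine hlim.congr' ?_
    have hbig : ∀ᶠ n : ℕ in atTop, j + 1 ≤ ℓ ^ n :=
      (tendsto_pow_atTop_atTop_of_one_lt hℓ.out.one_lt).eventually_ge_atTop (j + 1)
    filter_upwards [hbig] with n hn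
    have h := Nat.choose_succ_right_eq (ℓ ^ n - 1) j
    have h' : (((ℓ ^ n - 1).choose (j + 1) : ℕ) : ℚ_[ℓ]) * ((j : ℚ_[ℓ]) + 1)
        = (((ℓ ^ n - 1).choose j : ℕ) : ℚ_[ℓ]) * ((ℓ : ℚ_[ℓ]) ^ n - 1 - j) := by
      have h2 : ((ℓ ^ n - 1 - j : ℕ) : ℚ_[ℓ]) = (ℓ : ℚ_[ℓ]) ^ n - 1 - j := by
        rw [Nat.sub_sub, Nat.cast_sub (by omega)]
        push_cast
        ring
      rw [← h2]
      exact_mod_cast h
    rw [mul_div_assoc', ← h', mul_div_cancel_right₀ _ hj]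

theorem tlg_binom (t : ℚ_[ℓ]) (M : ℕ) :
    ((1 + t) ^ (M + 1) - 1) / ((M + 1 : ℕ) : ℚ_[ℓ])
      = ∑ k ∈ Finset.range (M + 1), ((M.choose k : ℕ) : ℚ_[ℓ]) * t ^ (k + 1) / ((k : ℚ_[ℓ]) + 1) := by
  have hM : ((M + 1 : ℕ) : ℚ_[ℓ]) ≠ 0 := by exact_mod_cast Nat.succ_ne_zero M
  rw [add_comm 1 t, add_pow, Finset.sum_range_succ']
  simp only [one_pow, mul_one, pow_zero, Nat.choose_zero_right, Nat.cast_one, add_sub_cancel_right]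
  rw [Finset.sum_div]
  refine Finset.sum_congr rfl fun k _ => ?_
  have hk : ((k : ℚ_[ℓ]) + 1) ≠ 0 := by exact_mod_cast Nat.succ_ne_zero k
  have h : ((M + 1 : ℕ) : ℚ_[ℓ]) * ((M.choose k : ℕ) : ℚ_[ℓ])
      = (((M + 1).choose (k + 1) : ℕ) : ℚ_[ℓ]) * ((k : ℚ_[ℓ]) + 1) := by
    exact_mod_cast Nat.add_one_mul_choose_eq M k
  rw [div_eq_div_iff hM hk]
  linear_combination (-(t ^ (k + 1))) * h

theorem tlg_limit {t : ℚ_[ℓ]} (ht : ‖t‖ < 1) :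
    Tendsto (fun n : ℕ => ((1 + t) ^ (ℓ ^ n) - 1) / (ℓ : ℚ_[ℓ]) ^ n) atTop (𝓝 (logSeries ℓ t)) := by
  have key : Tendsto (fun n : ℕ => ∑' k : ℕ, (((ℓ ^ n - 1).choose k : ℕ) : ℚ_[ℓ]) * t ^ (k + 1) / ((k : ℚ_[ℓ]) + 1))
      atTop (𝓝 (∑' k : ℕ, (-1 : ℚ_[ℓ]) ^ k * t ^ (k + 1) / ((k : ℚ_[ℓ]) + 1))) := by
    refine tendsto_tsum_of_dominated_convergence (tlg_summable_bound (norm_nonneg t) ht) ?_ ?_
    · intro k
      exact ((tlg_choose_tendsto k).mul_const _).div_const _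
    · exact Eventually.of_forall fun n k =>
        tlg_norm_term_le _ t (IsUltrametricDist.norm_natCast_le_one _ _) k
  refine key.congr fun n => ?_
  obtain ⟨M, hM⟩ : ∃ M, ℓ ^ n = M + 1 := ⟨ℓ ^ n - 1, (Nat.sub_add_cancel (Nat.one_le_pow _ _ hℓ.out.pos)).symm⟩
  have h1 : ((ℓ : ℚ_[ℓ]) ^ n) = ((M + 1 : ℕ) : ℚ_[ℓ]) := by rw [← hM]; push_cast; ring
  rw [h1, hM, tlg_binom, Nat.add_sub_cancel]
  refine tsum_eq_sum fun k hk => ?_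
  rw [Finset.mem_range, not_lt] at hk
  rw [Nat.choose_eq_zero_of_lt (by omega)]
  simp

/-! ### additivity -/

theorem tlg_norm_lt_one {s t : ℚ_[ℓ]} (hs : ‖s‖ < 1) (ht : ‖t‖ < 1) : ‖s + t + s * t‖ < 1 := by
  refine lt_of_le_of_lt (IsUltrametricDist.norm_add_le_max _ _) (max_lt ?_ ?_)
  · exact lt_of_le_of_lt (IsUltrametricDist.norm_add_le_max _ _) (max_lt hs ht)
  · rw [norm_mul]
    exact mul_lt_one_of_nonneg_of_lt_one_left (norm_nonneg _) hs ht.le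

theorem tlg_logSeries_add {s t : ℚ_[ℓ]} (hs : ‖s‖ < 1) (ht : ‖t‖ < 1) :
    logSeries ℓ (s + t + s * t) = logSeries ℓ s + logSeries ℓ t := by
  have h1 := tlg_limit hs
  have h2 := tlg_limit ht
  have h3 := tlg_limit (tlg_norm_lt_one hs ht)
  have h4 : Tendsto (fun n : ℕ => ((1 + s) ^ (ℓ ^ n) - 1) / (ℓ : ℚ_[ℓ]) ^ n + ((1 + t) ^ (ℓ ^ n) - 1) / (ℓ : ℚ_[ℓ]) ^ n
      + (ℓ : ℚ_[ℓ]) ^ n * (((1 + s) ^ (ℓ ^ n) - 1) / (ℓ : ℚ_[ℓ]) ^ n * (((1 + t) ^ (ℓ ^ n) - 1) / (ℓ : ℚ_[ℓ]) ^ n)))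
      atTop (𝓝 (logSeries ℓ s + logSeries ℓ t + 0 * (logSeries ℓ s * logSeries ℓ t))) :=
    (h1.add h2).add (tlg_pow_tendsto_zero.mul (h1.mul h2))
  rw [zero_mul, add_zero] at h4
  refine tendsto_nhds_unique h3 (h4.congr fun n => ?_)
  have hne : (ℓ : ℚ_[ℓ]) ^ n ≠ 0 := pow_ne_zero _ (by exact_mod_cast hℓ.out.ne_zero)
  have hmul : (1 + (s + t + s * t)) = (1 + s) * (1 + t) := by ring
  rw [hmul, mul_pow]
  field_simp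
  ring

theorem tlg_logSeries_zero : logSeries ℓ 0 = 0 := by
  unfold logSeries
  simp

/-! ### units -/

/-- `t(u) = u^(ℓ-1) - 1`. -/
noncomputable def tlgArg (u : ℤ_[ℓ]ˣ) : ℚ_[ℓ] := (((u ^ (ℓ - 1) : ℤ_[ℓ]ˣ) : ℤ_[ℓ]) : ℚ_[ℓ]) - 1

theorem tlg_Lg_eq (u : ℤ_[ℓ]ˣ) : Lg ℓ u = ((ℓ : ℚ_[ℓ]) - 1)⁻¹ * logSeries ℓ (tlgArg u) := rfl

theorem tlg_dvd_arg (u : ℤ_[ℓ]ˣ) : (ℓ : ℤ_[ℓ]) ∣ ((u ^ (ℓ - 1) : ℤ_[ℓ]ˣ) : ℤ_[ℓ]) - 1 := by
  rw [← PadicInt.norm_lt_one_iff_dvd, ← PadicInt.mem_nonunits, ← IsLocalRing.mem_maximalIdeal,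
    ← PadicInt.ker_toZMod, RingHom.mem_ker, map_sub, map_one, Units.val_pow_eq_pow_val, map_pow, sub_eq_zero]
  apply ZMod.pow_card_sub_one_eq_one
  exact (u.isUnit.map (PadicInt.toZMod (p := ℓ))).ne_zero

theorem tlg_norm_arg_le (u : ℤ_[ℓ]ˣ) : ‖tlgArg u‖ ≤ (ℓ : ℝ)⁻¹ := by
  obtain ⟨c, hc⟩ := tlg_dvd_arg u
  have h : tlgArg u = (ℓ : ℚ_[ℓ]) * (c : ℚ_[ℓ]) := by
    unfold tlgArg
    have := congrArg (fun z : ℤ_[ℓ] => (z : ℚ_[ℓ])) hc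
    simpa using this
  rw [h, norm_mul, Padic.norm_p]
  exact mul_le_of_le_one_right (by positivity) c.2

theorem tlg_inv_lt_one : ((ℓ : ℝ)⁻¹) < 1 :=
  inv_lt_one_of_one_lt₀ (by exact_mod_cast hℓ.out.one_lt)

theorem tlg_norm_arg_lt (u : ℤ_[ℓ]ˣ) : ‖tlgArg u‖ < 1 := (tlg_norm_arg_le u).trans_lt tlg_inv_lt_one

theorem tlg_arg_mul (u v : ℤ_[ℓ]ˣ) : tlgArg (u * v) = tlgArg u + tlgArg v + tlgArg u * tlgArg v := by
  unfold tlgArg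
  rw [mul_pow]
  push_cast
  ring

/-- `lg_mul` of `Iface.lean`. -/
theorem tlg_mul (u v : ℤ_[ℓ]ˣ) : Lg ℓ (u * v) = Lg ℓ u + Lg ℓ v := by
  rw [tlg_Lg_eq, tlg_Lg_eq, tlg_Lg_eq, tlg_arg_mul, tlg_logSeries_add (tlg_norm_arg_lt u) (tlg_norm_arg_lt v), mul_add]

theorem tlg_one : Lg ℓ (1 : ℤ_[ℓ]ˣ) = 0 := by
  have := tlg_mul (ℓ := ℓ) 1 1
  rw [mul_one] at this
  linear_combination -this

theorem tlg_pow (u : ℤ_[ℓ]ˣ) (n : ℕ) : Lg ℓ (u ^ n) = n * Lg ℓ u := by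
  induction n with
  | zero => simp [tlg_one]
  | succ n ih => rw [pow_succ, tlg_mul, ih]; push_cast; ring

theorem tlg_continuous_arg : Continuous (tlgArg (ℓ := ℓ)) := by
  unfold tlgArg
  refine Continuous.sub ?_ continuous_const
  have h1 : Continuous fun u : ℤ_[ℓ]ˣ => ((u ^ (ℓ - 1) : ℤ_[ℓ]ˣ) : ℤ_[ℓ]) :=
    Units.continuous_val.comp (continuous_pow _)
  exact (continuous_subtype_val (p := fun x : ℚ_[ℓ] => ‖x‖ ≤ 1)).comp h1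

/-- `lg_continuous` of `Iface.lean`. -/
theorem tlg_continuous : Continuous (Lg ℓ) := by
  have h : Continuous fun u : ℤ_[ℓ]ˣ => logSeries ℓ (tlgArg u) := by
    unfold logSeries
    refine continuous_tsum (u := fun n : ℕ => ((n : ℝ) + 1) * ((ℓ : ℝ)⁻¹) ^ (n + 1)) ?_
      (tlg_summable_bound (by positivity) tlg_inv_lt_one) ?_
    · intro n
      exact (continuous_const.mul (tlg_continuous_arg.pow _)).div_const _
    · intro n u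
      refine (tlg_norm_term_le _ _ (tlg_norm_neg_one_pow n) n).trans ?_
      have := tlg_norm_arg_le u
      gcongr
  exact continuous_const.mul h

/-! ### the kernel -/

theorem tlg_aux_nat (n : ℕ) : ((n : ℝ) + 2) ≤ 2 * 4 ^ n := by
  induction n with
  | zero => norm_num
  | succ n ih =>
    have : (1 : ℝ) ≤ 4 ^ n := one_le_pow₀ (by norm_num)
    push_cast
    rw [pow_succ]
    linarith

theorem tlg_logSeries_inj {t : ℚ_[ℓ]} (ht : ‖t‖ ≤ 1 / 4) (h : logSeries ℓ t = 0) : t = 0 := by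
  have hlt : ‖t‖ < 1 := ht.trans_lt (by norm_num)
  have hsplit := (tlg_summable hlt).tsum_eq_zero_add
  have htail : ‖∑' n : ℕ, (-1 : ℚ_[ℓ]) ^ (n + 1) * t ^ (n + 1 + 1) / (((n + 1 : ℕ) : ℚ_[ℓ]) + 1)‖ ≤ ‖t‖ / 2 := by
    refine IsUltrametricDist.norm_tsum_le_of_forall_le_of_nonneg (by positivity) fun n => ?_
    refine (tlg_norm_term_le _ t (tlg_norm_neg_one_pow (n + 1)) (n + 1)).trans ?_
    have h1 : ‖t‖ ^ (n + 1) ≤ (1 / 4) ^ (n + 1) := by gcongr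
    have h2 := tlg_aux_nat n
    have h3 : (0 : ℝ) < 4 ^ n := by positivity
    have h4 : (((n + 1 : ℕ) : ℝ) + 1) * (1 / 4) ^ (n + 1) ≤ 1 / 2 := by
      rw [one_div, inv_pow, pow_succ, ← div_eq_mul_inv, div_le_iff₀ (by positivity)]
      push_cast
      linarith
    calc (((n + 1 : ℕ) : ℝ) + 1) * ‖t‖ ^ (n + 1 + 1)
        = ‖t‖ * ((((n + 1 : ℕ) : ℝ) + 1) * ‖t‖ ^ (n + 1)) := by ring
      _ ≤ ‖t‖ * ((((n + 1 : ℕ) : ℝ) + 1) * (1 / 4) ^ (n + 1)) := by gcongr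
      _ ≤ ‖t‖ * (1 / 2) := by gcongr
      _ = ‖t‖ / 2 := by ring
  have h0 : logSeries ℓ t = t + ∑' n : ℕ, (-1 : ℚ_[ℓ]) ^ (n + 1) * t ^ (n + 1 + 1) / (((n + 1 : ℕ) : ℚ_[ℓ]) + 1) := by
    unfold logSeries
    rw [hsplit]
    simp
  rw [h] at h0
  have h5 : t = -∑' n : ℕ, (-1 : ℚ_[ℓ]) ^ (n + 1) * t ^ (n + 1 + 1) / (((n + 1 : ℕ) : ℚ_[ℓ]) + 1) := by
    linear_combination -h0
  have h6 : ‖t‖ ≤ ‖t‖ / 2 := by
    conv_lhs => rw [h5]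
    rw [norm_neg]
    exact htail
  have h7 : ‖t‖ ≤ 0 := by linarith
  exact norm_le_zero_iff.1 h7

theorem tlg_norm_arg_pow_le (u : ℤ_[ℓ]ˣ) : ‖tlgArg (u ^ ℓ)‖ ≤ 1 / 4 := by
  have h := dvd_sub_pow_of_dvd_sub (tlg_dvd_arg u) 1
  obtain ⟨c, hc⟩ := h
  have h' : tlgArg (u ^ ℓ) = (ℓ : ℚ_[ℓ]) ^ 2 * (c : ℚ_[ℓ]) := by
    unfold tlgArg
    have := congrArg (fun z : ℤ_[ℓ] => (z : ℚ_[ℓ])) hc
    simp only [pow_one, one_pow, PadicInt.coe_sub, PadicInt.coe_pow, PadicInt.coe_one, PadicInt.coe_mul,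
      PadicInt.coe_natCast, Units.val_pow_eq_pow_val] at this
    simp only [Units.val_pow_eq_pow_val, PadicInt.coe_pow]
    rw [← this]
    ring
  rw [h', norm_mul, norm_pow, Padic.norm_p]
  have h2 : (2 : ℝ) ≤ ℓ := by exact_mod_cast hℓ.out.two_le
  have h3 : ((ℓ : ℝ)⁻¹) ≤ 1 / 2 := by
    rw [one_div]
    exact inv_anti₀ (by norm_num) h2
  have h4 : ((ℓ : ℝ)⁻¹) ^ 2 ≤ (1 / 2) ^ 2 := by
    have : (0 : ℝ) ≤ (ℓ : ℝ)⁻¹ := by positivity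
    gcongr
  calc ((ℓ : ℝ)⁻¹) ^ 2 * ‖(c : ℚ_[ℓ])‖ ≤ (1 / 2) ^ 2 * 1 := by
        have := c.2
        gcongr
    _ = 1 / 4 := by norm_num

/-- `lg_eq_zero_iff` of `Iface.lean`. -/
theorem tlg_eq_zero_iff (u : ℤ_[ℓ]ˣ) : Lg ℓ u = 0 ↔ ∃ n : ℕ, 0 < n ∧ u ^ n = 1 := by
  constructor
  · intro h
    refine ⟨ℓ * (ℓ - 1), Nat.mul_pos hℓ.out.pos (Nat.sub_pos_of_lt hℓ.out.one_lt), ?_⟩
    have h1 : Lg ℓ (u ^ ℓ) = 0 := by rw [tlg_pow, h, mul_zero]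
    rw [tlg_Lg_eq] at h1
    have hne : ((ℓ : ℚ_[ℓ]) - 1)⁻¹ ≠ 0 := by
      apply inv_ne_zero
      rw [sub_ne_zero]
      exact_mod_cast hℓ.out.one_lt.ne'
    have h2 : logSeries ℓ (tlgArg (u ^ ℓ)) = 0 := (mul_eq_zero.1 h1).resolve_left hne
    have h3 := tlg_logSeries_inj (tlg_norm_arg_pow_le u) h2
    unfold tlgArg at h3
    rw [sub_eq_zero] at h3
    have h4 : (((u ^ ℓ) ^ (ℓ - 1) : ℤ_[ℓ]ˣ) : ℤ_[ℓ]) = 1 := Subtype.ext h3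
    rw [pow_mul]
    exact Units.ext h4
  · rintro ⟨n, hn, hu⟩
    have h1 := tlg_pow u n
    rw [hu, tlg_one] at h1
    have hn' : (n : ℚ_[ℓ]) ≠ 0 := by exact_mod_cast hn.ne'
    exact (mul_eq_zero.1 h1.symm).resolve_left hn'

/-- `logChi_mem` of `Iface.lean` (for arbitrary fields). -/
theorem tlg_logChi_mem (F E : Type*) [Field F] [Field E] [Algebra F E] :
    logChi ℓ F E ∈ XChar ℓ Gal(E/F) := by
  refine ⟨?_, fun g h => ?_⟩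
  · exact tlg_continuous.comp (cyclotomicCharacter.continuous ℓ F E)
  · unfold logChi
    rw [map_mul, tlg_mul]

end Claimed.Agent.R239
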