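/-
Row 239 (S0475), package HIL+TAME (owner helper28).  File XCharTame: additive `ℓ`-adic characters on
inertia and decomposition groups at `P ∤ ℓ`.
-/
import Claimed.Agent.R239.Tame.Gen

set_option autoImplicit false
set_option linter.unusedSectionVars false

namespace Claimed.Agent.R239

open NumberField
open scoped Pointwise

variable {F E : Type*} [Field F] [NumberField F] [Field E] [Algebra F E] [IsGalois F E]
  [CharZero E] [Algebra.IsAlgebraic ℚ E]
variable {ℓ : ℕ} [Fact ℓ.Prime]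

theorem tm_continuous_toZMod : Continuous (PadicInt.toZMod : ℤ_[ℓ] → ZMod ℓ) := by
  rw [continuous_discrete_rng]
  intro b
  rw [Metric.isOpen_iff]
  intro z hz
  refine ⟨1, one_pos, fun w hw => ?_⟩
  rw [Metric.mem_ball, dist_eq_norm] at hw
  have h1 : w - z ∈ RingHom.ker (PadicInt.toZMod (p := ℓ)) := by
    rw [PadicInt.ker_toZMod, IsLocalRing.mem_maximalIdeal, PadicInt.mem_nonunits]
    exact hw
  rw [RingHom.mem_ker, map_sub, sub_eq_zero] at h1
  show PadicInt.toZMod w = b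
  rw [h1]
  exact hz

/-- PURE TOPOLOGY.  `H` a compact group, `c ∈ XChar ℓ H` non-zero.  Then there is a continuous
`c̄ : H → ℤ/ℓ`, non-trivial, killing the kernel of `c`.
`‖c‖` attains its maximum at `h₀`, `c h₀ ≠ 0`; `c₁ = c / c h₀` takes values in `ℤ_ℓ`
(`‖c₁ h‖ ≤ 1`), `c₁ h₀ = 1`; compose with `PadicInt.toZMod` (continuous: its kernel is open). -/
theorem tm_xchar_reduce {H : Type*} [Group H] [TopologicalSpace H] [CompactSpace H]
    (c : XChar ℓ H) (hc : c ≠ 0) :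
    ∃ cb : H →* Multiplicative (ZMod ℓ), Continuous cb ∧ cb ≠ 1 ∧ ∀ h, c.1 h = 0 → cb h = 1 := by
  obtain ⟨h₁, hh₁⟩ : ∃ h₁, c.1 h₁ ≠ 0 := by
    by_contra hcon
    push Not at hcon
    exact hc (Subtype.ext (funext hcon))
  have : Nonempty H := ⟨h₁⟩
  obtain ⟨h₀, -, hmax⟩ := isCompact_univ.exists_isMaxOn (Set.univ_nonempty (α := H))
    (continuous_norm.comp (XChar.continuous c)).continuousOn
  have hmax' : ∀ h : H, ‖c.1 h‖ ≤ ‖c.1 h₀‖ := fun h => hmax (Set.mem_univ h)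
  set a : ℚ_[ℓ] := c.1 h₀ with ha
  have ha0 : a ≠ 0 := by
    intro h0
    have := hmax' h₁
    rw [h0, norm_zero] at this
    exact hh₁ (norm_le_zero_iff.1 this)
  have hle : ∀ h : H, ‖c.1 h / a‖ ≤ 1 := fun h => by
    rw [norm_div]
    exact div_le_one_of_le₀ (hmax' h) (norm_nonneg _)
  let d : H → ℤ_[ℓ] := fun h => ⟨c.1 h / a, hle h⟩
  have hd_mul : ∀ g h : H, d (g * h) = d g + d h := fun g h => by
    apply Subtype.ext
    show c.1 (g * h) / a = c.1 g / a + c.1 h / a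
    rw [XChar.map_mul c, add_div]
  have hd_cont : Continuous d := Continuous.subtype_mk ((XChar.continuous c).div_const a) _
  let χ : H →* Multiplicative (ZMod ℓ) :=
    { toFun := fun h => Multiplicative.ofAdd (PadicInt.toZMod (d h))
      map_one' := by
        have h1 : d 1 = 0 := by
          have := hd_mul 1 1
          rw [mul_one] at this
          exact left_eq_add.1 this
        rw [h1, map_zero]
        rfl
      map_mul' := fun g h => by
        rw [hd_mul, map_add]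
        rfl }
  refine ⟨χ, ?_, ?_, ?_⟩
  · exact continuous_ofAdd.comp (tm_continuous_toZMod.comp hd_cont)
  · intro h1
    have h2 : χ h₀ = 1 := by rw [h1]; rfl
    have h3 : d h₀ = 1 := by
      apply Subtype.ext
      show c.1 h₀ / a = 1
      exact div_self ha0
    have h4 : PadicInt.toZMod (d h₀) = 0 := h2
    rw [h3, map_one] at h4
    exact one_ne_zero h4
  · intro h hh
    have h3 : d h = 0 := by
      apply Subtype.ext
      show c.1 h / a = 0
      rw [hh, zero_div]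
    show Multiplicative.ofAdd (PadicInt.toZMod (d h)) = 1
    rw [h3, map_zero]
    rfl

/-- A continuous homomorphism from `I_U(P)` to `ℚ_ℓ` which kills a tame generator is zero
(`tm_xchar_reduce`; `I_U(P)` is compact: closed in a compact group). -/
theorem tm_gen_detects {U : Subgroup Gal(E/F)} (hU : IsOpen (U : Set Gal(E/F)))
    {P : Ideal (𝓞 E)} [P.IsMaximal] {τ : Gal(E/F)} (hτ : IsTameGen ℓ U P τ)
    (c : XChar ℓ ↥(inert F P ⊓ U)) (hc : c.1 ⟨τ, hτ.mem⟩ = 0) : c = 0 := by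
  by_contra hne
  have hcl : IsClosed ((inert F P ⊓ U : Subgroup Gal(E/F)) : Set Gal(E/F)) := by
    rw [Subgroup.coe_inf]
    exact (htow_inert_isClosed P).inter (U.isClosed_of_isOpen hU)
  have : CompactSpace ↥(inert F P ⊓ U) := isCompact_iff_compactSpace.1 hcl.isCompact
  obtain ⟨χ, hχc, hχ1, hχ0⟩ := tm_xchar_reduce c hne
  exact hχ1 (hτ.gen χ hχc (hχ0 _ hc))

/-- Additive characters are unramified at `P ∤ ℓ`.  Let `τ` be a tame generator (`tm_exists_gen`) and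
`σ τ σ⁻¹ = τ ^ N` (`tm_exists_frob'`): `x τ = N x τ`, `N ≥ 2` (`hbas_normAt`), so `x τ = 0`; apply
`tm_gen_detects` to the restriction of `x` to `I_U(P)`. -/
theorem tm_xchar_unram (hE : RadClosed E) {U : Subgroup Gal(E/F)}
    (hU : IsOpen (U : Set Gal(E/F))) {P : Ideal (𝓞 E)} [P.IsMaximal] (hℓ : ¬ Over P ℓ)
    (x : XChar ℓ U) {g : Gal(E/F)} (hg : g ∈ inert F P ⊓ U) : x.1 ⟨g, hg.2⟩ = 0 := by
  obtain ⟨τ, hτ⟩ := tm_exists_gen (ℓ := ℓ) hE U hU P hℓ
  obtain ⟨σ, hσ, hrel⟩ := tm_exists_frob' hU hℓ hτ.mem hτ.proL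
  obtain ⟨p, hp, hover⟩ := hbas_exists_over P
  obtain ⟨f, hf, -, hN⟩ := hbas_normAt U hU P hp hover
  have hq : normAt U P ≠ 1 := by
    rw [hN]
    exact (Nat.one_lt_pow hf.ne' hp.one_lt).ne'
  have hσU : σ ∈ U := hσ.1
  -- `x(τ) = 0`
  have h1 : x.1 ⟨τ, hτ.mem.2⟩ = 0 := by
    have h2 := XChar.map_conj x ⟨σ, hσU⟩ ⟨τ, hτ.mem.2⟩
    have h3 : (⟨σ, hσU⟩ * ⟨τ, hτ.mem.2⟩ * ⟨σ, hσU⟩⁻¹ : U) = ⟨τ, hτ.mem.2⟩ ^ normAt U P := Subtype.ext hrel
    rw [h3, XChar.map_pow x] at h2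
    have h4 : ((normAt U P : ℚ_[ℓ]) - 1) * x.1 ⟨τ, hτ.mem.2⟩ = 0 := by linear_combination h2
    have h5 : ((normAt U P : ℚ_[ℓ]) - 1) ≠ 0 := by
      rw [sub_ne_zero]
      exact_mod_cast hq
    exact (mul_eq_zero.1 h4).resolve_left h5
  have h6 : XChar.res (ℓ := ℓ) (inf_le_right : inert F P ⊓ U ≤ U) x = 0 := tm_gen_detects hU hτ _ h1
  have h7 := congrArg (fun y : XChar ℓ ↥(inert F P ⊓ U) => y.1 ⟨g, hg⟩) h6
  exact h7

/-- PROPORTIONALITY on `D_U(P)` (replaces residue exponents).  The set of `g ∈ U` satisfying the identity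
is closed and contains `σ ^ k i`, `i ∈ I_U(P)` (`tm_xchar_unram`); `hilp_decomp_closure`. -/
theorem tm_xchar_proportional (hE : RadClosed E) {U : Subgroup Gal(E/F)}
    (hU : IsOpen (U : Set Gal(E/F))) {P : Ideal (𝓞 E)} [P.IsMaximal] (hℓ : ¬ Over P ℓ)
    (x y : XChar ℓ U) {σ g : Gal(E/F)} (hσ : IsFrob U P σ) (hg : g ∈ decomp F P ⊓ U) :
    x.1 ⟨g, hg.2⟩ * y.1 ⟨σ, hσ.1⟩ = x.1 ⟨σ, hσ.1⟩ * y.1 ⟨g, hg.2⟩ := by
  have hun : ∀ (x : XChar ℓ U) {g : Gal(E/F)} (hg : g ∈ inert F P ⊓ U), x.1 ⟨g, hg.2⟩ = 0 :=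
    fun x _ hg => tm_xchar_unram hE hU hℓ x hg
  -- the character `z = y(σ) x - x(σ) y`
  let z : XChar ℓ U := y.1 ⟨σ, hσ.1⟩ • x - x.1 ⟨σ, hσ.1⟩ • y
  have hz : ∀ u : U, z.1 u = y.1 ⟨σ, hσ.1⟩ * x.1 u - x.1 ⟨σ, hσ.1⟩ * y.1 u := fun u => rfl
  -- the closed subgroup of `Gal(E/F)` where `z` vanishes
  let K : Set Gal(E/F) := {h | ∀ hh : h ∈ U, z.1 ⟨h, hh⟩ = 0}
  have hKcl : IsClosed K := by
    have hUcl : IsClosed (U : Set Gal(E/F)) := U.isClosed_of_isOpen hU
    have h1 : IsClosed {u : U | z.1 u = 0} := isClosed_eq (XChar.continuous z) continuous_const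
    have h2 : K = (U : Set Gal(E/F))ᶜ ∪ Subtype.val '' {u : U | z.1 u = 0} := by
      ext h
      constructor
      · intro hh
        by_cases hU' : h ∈ U
        · exact Or.inr ⟨⟨h, hU'⟩, hh hU', rfl⟩
        · exact Or.inl hU'
      · rintro (hh | ⟨u, hu, rfl⟩)
        · exact fun hh' => absurd hh' hh
        · exact fun _ => hu
    rw [h2]
    exact hU.isClosed_compl.union (hUcl.isClosedMap_subtype_val _ h1)
  have hsub : ((Subgroup.zpowers σ ⊔ (inert F P ⊓ U) : Subgroup Gal(E/F)) : Set Gal(E/F)) ⊆ K := by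
    intro h hh
    have hle : Subgroup.zpowers σ ⊔ (inert F P ⊓ U) ≤ U :=
      sup_le (by rw [Subgroup.zpowers_le]; exact hσ.1) inf_le_right
    -- the subgroup of `U`-elements killed by `z`
    let K' : Subgroup Gal(E/F) :=
      { carrier := {h | ∃ hh : h ∈ U, z.1 ⟨h, hh⟩ = 0}
        one_mem' := ⟨U.one_mem, XChar.map_one z⟩
        mul_mem' := by
          rintro a b ⟨ha, ha0⟩ ⟨hb, hb0⟩
          refine ⟨U.mul_mem ha hb, ?_⟩
          have := XChar.map_mul z ⟨a, ha⟩ ⟨b, hb⟩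
          rw [ha0, hb0, add_zero] at this
          exact this
        inv_mem' := by
          rintro a ⟨ha, ha0⟩
          refine ⟨U.inv_mem ha, ?_⟩
          have := XChar.map_inv z ⟨a, ha⟩
          rw [ha0, neg_zero] at this
          exact this }
    have hK' : Subgroup.zpowers σ ⊔ (inert F P ⊓ U) ≤ K' := by
      refine sup_le ?_ ?_
      · rw [Subgroup.zpowers_le]
        refine ⟨hσ.1, ?_⟩
        rw [hz]
        ring
      · intro i hi
        refine ⟨hi.2, ?_⟩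
        rw [hz, hun x hi, hun y hi]
        ring
    obtain ⟨_, h0⟩ := hK' hh
    exact fun _ => h0
  have hgK : g ∈ K := closure_minimal hsub hKcl (hilp_decomp_closure hU hσ hg)
  have := hgK hg.2
  rw [hz] at this
  linear_combination this

end Claimed.Agent.R239
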