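/-
Row 239 (S0475), package HIL+TAME (owner helper28).  File Unif: uniformisers of the number fields
`fld U` at `P`, in terms of the valuation `lcv P` of `E`.
-/
import Claimed.Agent.R239.Tame.Val
import Claimed.Agent.R239.LC.BR_a

set_option autoImplicit false
set_option linter.unusedSectionVars false

namespace Claimed.Agent.R239

open NumberField
open scoped Pointwise

variable {F E : Type*} [Field F] [NumberField F] [Field E] [Algebra F E] [IsGalois F E]
  [CharZero E] [Algebra.IsAlgebraic ℚ E]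

/-- `π ∈ fld U` is a uniformiser at `P`: `v(π) < 1` generates the value group of `fld U`. -/
structure IsUnif (U : Subgroup Gal(E/F)) (P : Ideal (𝓞 E)) [P.IsMaximal] (π : E) : Prop where
  mem : π ∈ fld U
  ne_zero : π ≠ 0
  lt_one : lcv P π < 1
  gen : ∀ x ∈ fld U, x ≠ 0 → ∃ k : ℤ, lcv P x = lcv P π ^ k

/-- The point of the height one spectrum of `𝓞 (fld U)` below `P`. -/
noncomputable def belowSpec (U : Subgroup Gal(E/F)) [NumberField (fld U)] (P : Ideal (𝓞 E))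
    [P.IsMaximal] : IsDedekindDomain.HeightOneSpectrum (𝓞 (fld U)) :=
  ⟨below U P, (hbas_below_isMaximal U P).isPrime, tmb_below_ne_bot U P⟩

/-- Comparison of `lcv P` on `fld U` with Mathlib's adic valuation.
(`⇐` `exists_primeCompl_mul_eq_of_integer`; `⇒` if `w(x) > 1` then `w(x⁻¹) < 1`, so `x⁻¹ = n / d` with
`n ∈ 𝔭`, `d ∉ 𝔭`, so `lcv P x⁻¹ < 1`.) -/
theorem unif_compare (U : Subgroup Gal(E/F)) [NumberField (fld U)] (P : Ideal (𝓞 E)) [P.IsMaximal]
    (x : fld U) : lcv P (x : E) ≤ 1 ↔ (belowSpec U P).valuation (fld U) x ≤ 1 :=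
  (lc_val_le_one_iff_le_one (belowSpec U P) P rfl x).symm

/-- equality of values: `lcv P` versus the adic valuation. -/
theorem unif_compare_eq (U : Subgroup Gal(E/F)) [NumberField (fld U)] (P : Ideal (𝓞 E)) [P.IsMaximal]
    (x y : fld U) : lcv P (x : E) = lcv P (y : E) ↔
      (belowSpec U P).valuation (fld U) x = (belowSpec U P).valuation (fld U) y := by
  rw [le_antisymm_iff, le_antisymm_iff, lc_val_compare (belowSpec U P) P rfl x y,
    lc_val_compare (belowSpec U P) P rfl y x]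

theorem unif_coe_zpow (U : Subgroup Gal(E/F)) (x : fld U) (k : ℤ) :
    ((x ^ k : fld U) : E) = (x : E) ^ k :=
  map_zpow₀ (algebraMap (fld U) E) x k

/-- Uniformisers exist: take `π` with `w(π) = exp (-1)`
(`IsDedekindDomain.HeightOneSpectrum.valuation_exists_uniformizer`); for `x ≠ 0`, `w(x) = exp k`
so `x π ^ k` is a `w`-unit, hence a `lcv P`-unit by `unif_compare` (applied to it and its inverse). -/
theorem exists_unif (U : Subgroup Gal(E/F)) (hU : IsOpen (U : Set Gal(E/F))) (P : Ideal (𝓞 E))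
    [P.IsMaximal] : ∃ π : E, IsUnif U P π := by
  have := lc_numberField hU
  obtain ⟨π, hπ⟩ := (belowSpec U P).valuation_exists_uniformizer (fld U)
  have hπ0 : π ≠ 0 := by
    rintro rfl
    rw [map_zero] at hπ
    exact WithZero.exp_ne_zero hπ.symm
  refine ⟨(π : E), π.2, fun h0 => hπ0 (Subtype.ext h0), ?_, ?_⟩
  · apply lc_val_lt_one_of_lt_one (belowSpec U P) P rfl
    rw [hπ, ← WithZero.exp_zero, WithZero.exp_lt_exp]
    norm_num
  · intro x hx hx0
    have hx0' : (⟨x, hx⟩ : fld U) ≠ 0 := fun h0 => hx0 (congrArg Subtype.val h0)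
    have hv : (belowSpec U P).valuation (fld U) ⟨x, hx⟩ ≠ 0 := (map_ne_zero _).mpr hx0'
    refine ⟨- WithZero.log ((belowSpec U P).valuation (fld U) ⟨x, hx⟩), ?_⟩
    rw [← map_zpow₀, ← unif_coe_zpow]
    change lcv P (((⟨x, hx⟩ : fld U)) : E) = _
    rw [unif_compare_eq, map_zpow₀, hπ, ← WithZero.exp_zsmul]
    simp [WithZero.exp_log hv]

/-- `v π ^ k = 1` only for `k = 0`. -/
theorem IsUnif.zpow_eq_one {U : Subgroup Gal(E/F)} {P : Ideal (𝓞 E)} [P.IsMaximal] {π : E}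
    (h : IsUnif U P π) {k : ℤ} (hk : lcv P π ^ k = 1) : k = 0 :=
  (zpow_eq_one_iff_right₀ zero_le h.lt_one.ne).mp hk

/-- A uniformiser in the sense of `IsUnif` has `w(π) = exp (-1)`. -/
theorem IsUnif.valuation_eq {U : Subgroup Gal(E/F)} [NumberField (fld U)] {P : Ideal (𝓞 E)}
    [P.IsMaximal] {π : E} (h : IsUnif U P π) :
    (belowSpec U P).valuation (fld U) ⟨π, h.mem⟩ = WithZero.exp (-1 : ℤ) := by
  obtain ⟨ϖ, hϖ⟩ := (belowSpec U P).valuation_exists_uniformizer (fld U)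
  have hϖ0 : ϖ ≠ 0 := by
    rintro rfl
    rw [map_zero] at hϖ
    exact WithZero.exp_ne_zero hϖ.symm
  obtain ⟨k, hk⟩ := h.gen ϖ ϖ.2 (fun h0 => hϖ0 (Subtype.ext h0))
  have hπ0 : (⟨π, h.mem⟩ : fld U) ≠ 0 := fun h0 => h.ne_zero (congrArg Subtype.val h0)
  have hv : (belowSpec U P).valuation (fld U) ⟨π, h.mem⟩ ≠ 0 := (map_ne_zero _).mpr hπ0
  obtain ⟨m, hm⟩ : ∃ m : ℤ, (belowSpec U P).valuation (fld U) ⟨π, h.mem⟩ = WithZero.exp m :=
    ⟨_, (WithZero.exp_log hv).symm⟩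
  have h1 : lcv P (ϖ : E) = lcv P (((⟨π, h.mem⟩ : fld U) ^ k : fld U) : E) := by
    rw [unif_coe_zpow, map_zpow₀]
    exact hk
  rw [unif_compare_eq, map_zpow₀, hϖ, hm, ← WithZero.exp_zsmul, WithZero.exp_inj] at h1
  have hm0 : m < 0 := by
    by_contra hcon
    rw [not_lt] at hcon
    have h2 : (belowSpec U P).valuation (fld U) (1 : fld U) ≤
        (belowSpec U P).valuation (fld U) ⟨π, h.mem⟩ := by
      rw [map_one, hm, ← WithZero.exp_zero, WithZero.exp_le_exp]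
      exact hcon
    rw [lc_val_compare (belowSpec U P) P rfl] at h2
    have e1 : ((1 : fld U) : E) = 1 := rfl
    rw [e1, map_one] at h2
    exact absurd h.lt_one (not_lt.mpr h2)
  rw [hm, WithZero.exp_inj]
  rw [smul_eq_mul] at h1
  have h3 : m ∣ 1 := ⟨-k, by linarith⟩
  rcases Int.isUnit_iff.mp (isUnit_of_dvd_one h3) with h4 | h4
  · omega
  · exact h4

/-- Two uniformisers have the same valuation (`v π = v π' ^ k`, `v π' = v π ^ k'`, so `k k' = 1`, and
`k = -1` is excluded by `< 1`). -/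
theorem IsUnif.vP_eq {U : Subgroup Gal(E/F)} {P : Ideal (𝓞 E)} [P.IsMaximal] {π π' : E}
    (h : IsUnif U P π) (h' : IsUnif U P π') : lcv P π = lcv P π' := by
  obtain ⟨k, hk⟩ := h'.gen π h.mem h.ne_zero
  obtain ⟨k', hk'⟩ := h.gen π' h'.mem h'.ne_zero
  have hpos : 0 < lcv P π' := lc_val_pos P h'.ne_zero
  have h1 : lcv P π' ^ (k * k' - 1) = 1 := by
    rw [zpow_sub₀ hpos.ne', zpow_mul, ← hk, ← hk', zpow_one, div_self hpos.ne']
  have h2 := h'.zpow_eq_one h1
  have hk0 : 0 < k := by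
    rw [← zpow_lt_one_iff_right_of_lt_one₀ hpos h'.lt_one, ← hk]
    exact h.lt_one
  have h3 : k ∣ 1 := ⟨k', by linarith⟩
  rcases Int.isUnit_iff.mp (isUnit_of_dvd_one h3) with h4 | h4
  · rw [hk, h4, zpow_one]
  · omega

/-- Ramification index in a tower. -/
theorem IsUnif.tower {U V : Subgroup Gal(E/F)} (hVU : V ≤ U) {P : Ideal (𝓞 E)} [P.IsMaximal]
    {π π' : E} (h : IsUnif U P π) (h' : IsUnif V P π') : ∃ e : ℕ, 0 < e ∧ lcv P π = lcv P π' ^ e := by
  have hmem : π ∈ fld V := fun g => h.mem ⟨g.1, hVU g.2⟩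
  obtain ⟨k, hk⟩ := h'.gen π hmem h.ne_zero
  have hpos : 0 < lcv P π' := lc_val_pos P h'.ne_zero
  have hk0 : 0 < k := by
    rw [← zpow_lt_one_iff_right_of_lt_one₀ hpos h'.lt_one, ← hk]
    exact h.lt_one
  refine ⟨k.toNat, by omega, ?_⟩
  rw [hk, ← zpow_natCast, Int.toNat_of_nonneg hk0.le]

/-- The value group of `E` is torsion over that of `fld U`
(`lc_val_commens`). -/
theorem IsUnif.torsion {U : Subgroup Gal(E/F)} {P : Ideal (𝓞 E)} [P.IsMaximal] {π : E}
    (h : IsUnif U P π) {x : E} (hx : x ≠ 0) :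
    ∃ (n : ℕ) (m : ℤ), 0 < n ∧ lcv P x ^ n = lcv P π ^ m := by
  obtain ⟨s, hs, r, hr⟩ := lc_val_commens P h.lt_one h.ne_zero hx
  exact ⟨s, r, hs, by rw [← map_pow, hr, map_zpow₀]⟩

end Claimed.Agent.R239
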