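/-
Row 239 (S0475), package HIL+TAME (owner helper28).  File Ram: THE ONLY PLACE WHERE RAMIFICATION INDICES
ARE USED.  An `ℓ`-th root of a uniformiser of `fld U` at `P` is moved by the inertia group `I_U(P)`.
-/
import Claimed.Agent.R239.Tame.Unif

set_option autoImplicit false

namespace Claimed.Agent.R239

open NumberField
open scoped Pointwise

/-- FINITE LEVEL, 1.  `L / K` finite Galois extension of number fields, `w` a prime of `L` over the prime
`v` of `K`, `π ∈ K` with `v(π) = exp (-1)`, `ρ ∈ L` with `ρ ^ ℓ = π`.  Then `ℓ` divides the order of the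
inertia group.  `w(π) = v(π) ^ e` (`IsDedekindDomain.HeightOneSpectrum.valuation_liesOver`), and
`w(π) = w(ρ) ^ ℓ`, so `ℓ ∣ e`; `e = #I` is `Ideal.card_inertia_eq_ramificationIdxIn` +
`Ideal.ramificationIdxIn_eq_ramificationIdx`. -/
theorem ram_dvd_card_inertia (K L : Type*) [Field K] [NumberField K] [Field L] [NumberField L]
    [Algebra K L] [IsGalois K L]
    (v : IsDedekindDomain.HeightOneSpectrum (𝓞 K)) (w : IsDedekindDomain.HeightOneSpectrum (𝓞 L))
    (hwv : w.asIdeal.under (𝓞 K) = v.asIdeal) (π : K) (hπ : v.valuation K π = WithZero.exp (-1 : ℤ))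
    (ℓ : ℕ) (ρ : L) (hρ : ρ ^ ℓ = algebraMap K L π) :
    ℓ ∣ Nat.card (w.asIdeal.inertia Gal(L/K)) := by
  have hℓ0 : 0 < ℓ := by
    rcases Nat.eq_zero_or_pos ℓ with h | h
    · exfalso
      subst h
      rw [pow_zero, ← map_one (algebraMap K L)] at hρ
      rw [← (algebraMap K L).injective hρ, map_one, ← WithZero.exp_zero, WithZero.exp_inj] at hπ
      omega
    · exact h
  have hlo : w.asIdeal.LiesOver v.asIdeal := ⟨hwv.symm⟩
  have hwp := w.isPrime
  have hcard : Nat.card (w.asIdeal.inertia Gal(L/K)) = w.asIdeal.ramificationIdx (𝓞 K) := by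
    rw [Ideal.card_inertia_eq_ramificationIdxIn (G := Gal(L/K)) v.asIdeal w.asIdeal,
      Ideal.ramificationIdxIn_eq_ramificationIdx v.asIdeal w.asIdeal Gal(L/K)]
  have hval : w.valuation L (algebraMap K L π) = v.valuation K π ^ w.asIdeal.ramificationIdx (𝓞 K) := by
    rw [← IsDedekindDomain.HeightOneSpectrum.valuation_liesOver L v w π,
      Ideal.ramificationIdx'_eq_ramificationIdx _ _ v.ne_bot]
  rw [hcard]
  set e := w.asIdeal.ramificationIdx (𝓞 K) with he
  rw [← hρ, map_pow, hπ] at hval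
  have hρ0 : w.valuation L ρ ≠ 0 := by
    intro h0
    rw [h0, zero_pow hℓ0.ne'] at hval
    exact (pow_ne_zero e WithZero.exp_ne_zero) hval.symm
  have h1 : w.valuation L ρ = WithZero.exp (WithZero.log (w.valuation L ρ)) :=
    (WithZero.exp_log hρ0).symm
  rw [h1, ← WithZero.exp_nsmul, ← WithZero.exp_nsmul, WithZero.exp_inj] at hval
  have h2 : (ℓ : ℤ) ∣ (e : ℤ) := ⟨-WithZero.log (w.valuation L ρ), by
    simp only [nsmul_eq_mul] at hval
    linarith⟩
  exact_mod_cast h2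

/-- FINITE LEVEL, 2.  If moreover `ℓ` is prime and `L = K(ρ, ζ_ℓ)`, some element of the inertia group
moves `ρ`.  Cauchy: `h ∈ I` of order `ℓ`.  `h ζ = ζ ^ a` and `a ^ ℓ = 1 = a ^ (ℓ - 1)` in `(ℤ/ℓ)ˣ`, so
`h ζ = ζ`; if `h ρ = ρ` then `h = 1` on the generators. -/
theorem ram_exists_inertia (K L : Type*) [Field K] [NumberField K] [Field L] [NumberField L]
    [Algebra K L] [IsGalois K L]
    (v : IsDedekindDomain.HeightOneSpectrum (𝓞 K)) (w : IsDedekindDomain.HeightOneSpectrum (𝓞 L))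
    (hwv : w.asIdeal.under (𝓞 K) = v.asIdeal) (π : K) (hπ : v.valuation K π = WithZero.exp (-1 : ℤ))
    (ℓ : ℕ) (hℓ : ℓ.Prime) (ρ ζ : L) (hρ : ρ ^ ℓ = algebraMap K L π) (hζ : IsPrimitiveRoot ζ ℓ)
    (hgen : IntermediateField.adjoin K {ρ, ζ} = ⊤) :
    ∃ h ∈ w.asIdeal.inertia Gal(L/K), h ρ ≠ ρ := by
  have hfact : Fact ℓ.Prime := ⟨hℓ⟩
  have hne : NeZero ℓ := ⟨hℓ.ne_zero⟩
  have hdvd := ram_dvd_card_inertia K L v w hwv π hπ ℓ ρ hρ
  obtain ⟨⟨h, hI⟩, hord⟩ := exists_prime_orderOf_dvd_card' (G := w.asIdeal.inertia Gal(L/K)) ℓ hdvd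
  have hord' : orderOf h = ℓ := by
    rw [← hord]
    exact (Subgroup.orderOf_mk h hI).symm
  refine ⟨h, hI, fun hfix => ?_⟩
  -- `h` fixes `ζ`
  have hu : hζ.autToPow K h = 1 := by
    set u := hζ.autToPow K h with hu
    have h1 : u ^ ℓ = 1 := by
      have h0 : h ^ ℓ = 1 := by
        conv_lhs => rw [← hord']
        exact pow_orderOf_eq_one h
      rw [hu, ← map_pow, h0, map_one]
    have h2 : u ^ (ℓ - 1) = 1 := ZMod.units_pow_card_sub_one_eq_one ℓ u
    have h3 : u ^ ℓ = u ^ (ℓ - 1) * u := by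
      rw [← pow_succ, Nat.sub_add_cancel hℓ.one_le]
    rw [h1, h2, one_mul] at h3
    exact h3.symm
  have hζfix : h ζ = ζ := by
    have h1 := hζ.autToPow_spec K h
    rw [hu] at h1
    have h2 : ((1 : (ZMod ℓ)ˣ) : ZMod ℓ).val = 1 := by
      rw [Units.val_one]
      exact ZMod.val_one ℓ
    rw [h2, pow_one] at h1
    exact h1.symm
  have hone : h = 1 := by
    have hle : IntermediateField.adjoin K {ρ, ζ} ≤ IntermediateField.fixedField (Subgroup.zpowers h) := by
      rw [IntermediateField.adjoin_le_iff]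
      intro x hx
      rw [SetLike.mem_coe, IntermediateField.mem_fixedField_iff]
      intro τ hτ
      obtain ⟨k, rfl⟩ := Subgroup.mem_zpowers_iff.1 hτ
      have h3 : h ∈ MulAction.stabilizer Gal(L/K) x := by
        rcases hx with rfl | hx
        · exact hfix
        · rw [Set.mem_singleton_iff] at hx
          subst hx
          exact hζfix
      exact Subgroup.zpow_mem _ h3 k
    rw [hgen] at hle
    ext x
    have h4 := hle (IntermediateField.mem_top (x := x))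
    rw [IntermediateField.mem_fixedField_iff] at h4
    exact h4 h (Subgroup.mem_zpowers h)
  rw [hone, orderOf_one] at hord'
  exact hℓ.one_lt.ne hord'

/-- `K(ρ, ζ)` is normal over `K` if `ρ ^ ℓ ∈ K` and `ζ` is a primitive `ℓ`-th root of unity. -/
theorem ram_normal_adjoin (K E : Type*) [Field K] [Field E] [Algebra K E] [Normal K E]
    (π : K) (ℓ : ℕ) (hℓ : 0 < ℓ) (ρ ζ : E) (hρ : ρ ^ ℓ = algebraMap K E π) (hζ : IsPrimitiveRoot ζ ℓ) :
    Normal K (IntermediateField.adjoin K {ρ, ζ}) := by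
  rw [IntermediateField.normal_iff_forall_map_le']
  intro σ
  rw [IntermediateField.adjoin_map, IntermediateField.adjoin_le_iff]
  have hρmem : ρ ∈ IntermediateField.adjoin K {ρ, ζ} :=
    IntermediateField.subset_adjoin K _ (Set.mem_insert _ _)
  have hζmem : ζ ∈ IntermediateField.adjoin K {ρ, ζ} :=
    IntermediateField.subset_adjoin K _ (Set.mem_insert_of_mem _ rfl)
  have hne : NeZero ℓ := ⟨hℓ.ne'⟩
  rintro _ ⟨x, hx, rfl⟩
  rcases hx with rfl | hx
  · -- `σ ρ`
    change σ x ∈ _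
    by_cases h0 : x = 0
    · rw [h0, map_zero]
      exact zero_mem _
    have h1 : (σ x / x) ^ ℓ = 1 := by
      rw [div_pow, ← map_pow, hρ, σ.commutes, div_self]
      rw [← hρ]
      exact pow_ne_zero _ h0
    obtain ⟨i, -, hi⟩ := hζ.eq_pow_of_pow_eq_one h1
    have h2 : σ x = ζ ^ i * x := by
      rw [hi]
      field_simp
    rw [h2]
    exact mul_mem (pow_mem hζmem i) hρmem
  · rw [Set.mem_singleton_iff] at hx
    subst hx
    change σ x ∈ _
    have h1 : (σ x) ^ ℓ = 1 := by rw [← map_pow, hζ.pow_eq_one, map_one]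
    obtain ⟨i, -, hi⟩ := hζ.eq_pow_of_pow_eq_one h1
    rw [← hi]
    exact pow_mem hζmem i

/-- INFINITE LEVEL over the base field.  `L = K(ρ, ζ) ⊆ E` is finite Galois over `K` (splitting field of
`X ^ ℓ - π`), a number field.  `ram_exists_inertia` gives `h̄` in the inertia group of `P ∩ 𝓞 L`; lift it
to `g ∈ Gal(E/K)` (`AlgEquiv.restrictNormalHom_surjective`); `g y - y ∈ P` for the integers `y ∈ L`;
`tmb_inert_lift_field` gives `w` fixing `L` with `g w ∈ I(P)`; `(g w) ρ = h̄ ρ ≠ ρ`. -/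
theorem ram_base (K E : Type*) [Field K] [NumberField K] [Field E] [Algebra K E] [IsGalois K E]
    (P : Ideal (𝓞 E)) [P.IsMaximal] (v : IsDedekindDomain.HeightOneSpectrum (𝓞 K))
    (hv : P.under (𝓞 K) = v.asIdeal) (π : K) (hπ : v.valuation K π = WithZero.exp (-1 : ℤ))
    (ℓ : ℕ) (hℓ : ℓ.Prime) (ρ ζ : E) (hρ : ρ ^ ℓ = algebraMap K E π) (hζ : IsPrimitiveRoot ζ ℓ) :
    ∃ h ∈ inert K P, h ρ ≠ ρ := by
  let L : IntermediateField K E := IntermediateField.adjoin K {ρ, ζ}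
  have hρmem : ρ ∈ L := IntermediateField.subset_adjoin K _ (Set.mem_insert _ _)
  have hζmem : ζ ∈ L := IntermediateField.subset_adjoin K _ (Set.mem_insert_of_mem _ rfl)
  have hfd : FiniteDimensional K L :=
    IntermediateField.finiteDimensional_adjoin_pair (Algebra.IsIntegral.isIntegral ρ)
      (Algebra.IsIntegral.isIntegral ζ)
  have hnor : Normal K L := ram_normal_adjoin K E π ℓ hℓ.pos ρ ζ hρ hζ
  have hgal : IsGalois K L := { }
  have hnf : NumberField L := NumberField.of_module_finite K L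
  have hbot : P.under (𝓞 L) ≠ ⊥ := by
    intro hb
    obtain ⟨x, hx, hx0⟩ := Submodule.exists_mem_ne_zero_of_ne_bot v.ne_bot
    rw [← hv, ← Ideal.under_under (A := 𝓞 K) (B := 𝓞 L) P, hb] at hx
    have hx' : algebraMap (𝓞 K) (𝓞 L) x = 0 := hx
    exact hx0 ((injective_iff_map_eq_zero _).1 (RingOfIntegers.algebraMap.injective K L) x hx')
  let w : IsDedekindDomain.HeightOneSpectrum (𝓞 L) := ⟨P.under (𝓞 L), inferInstance, hbot⟩
  have hwv : w.asIdeal.under (𝓞 K) = v.asIdeal := by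
    rw [← hv]
    exact Ideal.under_under (A := 𝓞 K) (B := 𝓞 L) P
  have hgen : IntermediateField.adjoin K {(⟨ρ, hρmem⟩ : L), (⟨ζ, hζmem⟩ : L)} = ⊤ := by
    apply IntermediateField.map_injective L.val
    rw [IntermediateField.adjoin_map, ← AlgHom.fieldRange_eq_map, IntermediateField.fieldRange_val]
    congr 1
    simp [Set.image_pair]
  obtain ⟨hbar, hI, hmove⟩ := ram_exists_inertia K L v w hwv π hπ ℓ hℓ ⟨ρ, hρmem⟩ ⟨ζ, hζmem⟩
    (Subtype.ext hρ) (IsPrimitiveRoot.coe_submonoidClass_iff.mp hζ) hgen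
  obtain ⟨g, hg⟩ := AlgEquiv.restrictNormalHom_surjective (F := K) (K₁ := L) E hbar
  have hcomm : ∀ x : L, g (x : E) = ((hbar x : L) : E) := by
    intro x
    rw [← hg]
    exact (AlgEquiv.restrictNormal_commutes g L x).symm
  have hgP : ∀ y : 𝓞 E, (y : E) ∈ L → g • y - y ∈ P := by
    intro y hy
    have hint : IsIntegral ℤ (⟨(y : E), hy⟩ : L) :=
      (isIntegral_algebraMap_iff (algebraMap L E).injective).1 y.2
    let y' : 𝓞 L := ⟨⟨(y : E), hy⟩, hint⟩
    have h1 : hbar • y' - y' ∈ P.under (𝓞 L) := hI y'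
    have h2 : algebraMap (𝓞 L) (𝓞 E) (hbar • y' - y') = g • y - y := by
      apply RingOfIntegers.ext
      change ((hbar (⟨(y : E), hy⟩ : L) - (⟨(y : E), hy⟩ : L) : L) : E) = g (y : E) - (y : E)
      rw [hcomm ⟨(y : E), hy⟩]
      rfl
    rw [← h2]
    exact h1
  obtain ⟨w', hw', hgw⟩ := tmb_inert_lift_field L P g hgP
  refine ⟨g * w', hgw, ?_⟩
  rw [AlgEquiv.mul_apply, (IntermediateField.mem_fixingSubgroup_iff L w').1 hw' ρ hρmem,
    hcomm ⟨ρ, hρmem⟩]
  intro h
  exact hmove (Subtype.ext h)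

variable {F E : Type*} [Field F] [NumberField F] [Field E] [Algebra F E] [IsGalois F E]
  [CharZero E] [Algebra.IsAlgebraic ℚ E]

/-- RAMIFICATION OF `fld U (π ^ (1/ℓ))`.  Apply `ram_base` to `K = fld U` (`hbas_numberField`),
`v = belowSpec U P`, `IsUnif.valuation_eq`, `hE.prim`; transport by `bcR_mem`,
`bcR_mem_inert_iff`. -/
theorem tame_ram (hE : RadClosed E) {U : Subgroup Gal(E/F)} (hU : IsOpen (U : Set Gal(E/F)))
    {P : Ideal (𝓞 E)} [P.IsMaximal] {ℓ : ℕ} (hℓ : ℓ.Prime) {π ρ : E} (hπ : IsUnif U P π)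
    (hρ : ρ ^ ℓ = π) : ∃ h ∈ inert F P ⊓ U, h ρ ≠ ρ := by
  have hnf := hbas_numberField U hU
  obtain ⟨ζ, hζ⟩ := hE.prim ℓ hℓ.pos
  obtain ⟨h, hI, hmove⟩ := ram_base (fld U) E P (belowSpec U P) rfl ⟨π, hπ.mem⟩ hπ.valuation_eq
    ℓ hℓ ρ ζ hρ hζ
  exact ⟨bcR U h, ⟨(bcR_mem_inert_iff U h P).2 hI, bcR_mem U (U.isClosed_of_isOpen hU) h⟩, hmove⟩

end Claimed.Agent.R239
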